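-- KEEP
import Claimed.Agent.R255.Cl.ToolsDefs

/-!
# Row 255 (BR paper), chapter TOOLS (Sec. 4.1-4.3), finite level: package TL-TAU (root supremum, time entropy, (4.4), (4.5))      (chief helper216)

One finite system, one precision `ε`, explicit errors `C / lg ε`.  No limits.  STATEMENTS ARE FROZEN (ask helper216); provers replace the `sorry`s IN PLACE, helper lemmas go above (prefix `tl_`, names must be new).
You may use every statement of the imported files (also sorried ones) and every EARLIER statement of this file.  Entropy calculus: `R255/Ent/Basic.lean`.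
-/

set_option autoImplicit false

namespace Claimed.Agent.R255

open Classical

/-! ### helper lemmas (helper26) -/

theorem tl_tau_lg_pos {ε : ℝ} (h0 : 0 < ε) (h1 : ε < 1) : 0 < lg ε := by
  unfold lg
  exact Real.log_pos (by rw [lt_div_iff₀ h0]; linarith)

theorem tl_ip_sub (u v w : ℝ × ℝ) : ip (u - v) w = ip u w - ip v w := by
  unfold ip
  simp only [Prod.fst_sub, Prod.snd_sub]
  ring

theorem tl_ip_add (u v w : ℝ × ℝ) : ip (u + v) w = ip u w + ip v w := by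
  unfold ip
  simp only [Prod.fst_add, Prod.snd_add]
  ring

theorem tl_ip_smul (c : ℝ) (u w : ℝ × ℝ) : ip (c • u) w = c * ip u w := by
  unfold ip
  simp only [Prod.smul_fst, Prod.smul_snd, smul_eq_mul]
  ring

theorem tl_ip_tang_tang (th : ℝ) : ip (tang th) (tang th) = 1 := by
  unfold ip tang
  simp only []
  nlinarith [Real.sin_sq_add_cos_sq th]

theorem tl_ip_nrm_nrm (th : ℝ) : ip (nrm th) (nrm th) = 1 := by
  unfold ip nrm
  simp only []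
  nlinarith [Real.sin_sq_add_cos_sq th]

theorem tl_ip_tang_nrm (th : ℝ) : ip (tang th) (nrm th) = 0 := by
  unfold ip tang nrm
  simp only []
  ring

theorem tl_ip_nrm_tang (th : ℝ) : ip (nrm th) (tang th) = 0 := by
  unfold ip tang nrm
  simp only []
  ring

theorem tl_floor_ref {y s K : ℝ} (hs : 0 < s) (h : |y| ≤ K * s) :
    |y - (⌊y / s⌋ : ℝ) * s| ≤ 1 * s ∧ ⌊y / s⌋ ∈ Finset.Icc ⌊-K⌋ ⌊K⌋ := by
  have h1 := Int.floor_le (y / s)
  have h2 := Int.lt_floor_add_one (y / s)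
  rw [le_div_iff₀ hs] at h1
  rw [div_lt_iff₀ hs] at h2
  constructor
  · rw [abs_le]
    constructor <;> nlinarith
  · rw [Finset.mem_Icc]
    obtain ⟨h3, h4⟩ := abs_le.1 h
    exact ⟨Int.floor_le_floor (by rw [le_div_iff₀ hs]; linarith),
      Int.floor_le_floor (by rw [div_le_iff₀ hs]; linarith)⟩

/-- the shift of the centre which refines a `K`-rectangle to a `1`-rectangle -/
noncomputable def tlShift (ε b a th : ℝ) (k : ℤ × ℤ) : ℝ × ℝ :=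
  ((k.1 : ℝ) * ε ^ b) • tang th + ((k.2 : ℝ) * ε ^ a) • nrm th

/-- the index of the sub-rectangle -/
noncomputable def tlSub (ε b a th : ℝ) (z : ℝ × ℝ) : ℤ × ℤ :=
  (⌊ip z (tang th) / ε ^ b⌋, ⌊ip z (nrm th) / ε ^ a⌋)

theorem tl_inRect_ref {K ε b a th : ℝ} (h0 : 0 < ε) {z : ℝ × ℝ} (h : InRect K ε b a th z) :
    InRect 1 ε b a th (z - tlShift ε b a th (tlSub ε b a th z)) ∧
      tlSub ε b a th z ∈ Finset.Icc ⌊-K⌋ ⌊K⌋ ×ˢ Finset.Icc ⌊-K⌋ ⌊K⌋ := by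
  obtain ⟨a1, a2⟩ := tl_floor_ref (Real.rpow_pos_of_pos h0 b) h.1
  obtain ⟨b1, b2⟩ := tl_floor_ref (Real.rpow_pos_of_pos h0 a) h.2
  refine ⟨⟨?_, ?_⟩, Finset.mem_product.2 ⟨a2, b2⟩⟩
  · unfold tlShift tlSub
    rw [tl_ip_sub, tl_ip_add, tl_ip_smul, tl_ip_smul, tl_ip_tang_tang, tl_ip_nrm_tang, mul_one, mul_zero,
      add_zero]
    exact a1
  · unfold tlShift tlSub
    rw [tl_ip_sub, tl_ip_add, tl_ip_smul, tl_ip_smul, tl_ip_tang_nrm, tl_ip_nrm_nrm, mul_one, mul_zero,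
      zero_add]
    exact b1

/-- the refined read-out -/
noncomputable def tlGeoRef (ε : ℝ) (g : Geo) (k : (ℤ × ℤ) × (ℤ × ℤ)) : Geo :=
  { g with vc := g.vc + tlShift ε g.b g.a g.th k.1, xc := g.xc + tlShift ε g.b g.a g.th k.2 }

theorem tl_wt_le {γ : ℝ} (hγ0 : 0 < γ) {g : Geo} {L : ℝ} (h1 : g.b ≤ g.a) (h2 : g.a ≤ L) :
    wt γ g ≤ 2 * L := by
  unfold wt
  nlinarith

theorem tl_tau_nonempty (S : CSys) (B γ ε L : ℝ) (hB : S.Bdd B) (h0 : 0 < ε) (h1 : ε < 1) (hL : 0 ≤ L) :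
    (S.tauSet γ ε L).Nonempty := by
  refine ⟨_, S.Ω, S.fin, S.P, S.T, S.ι, S.T, fun i => ⟨0, 0, 0, 0, S.V i, S.A i⟩, fun i => rfl, ?_, rfl⟩
  intro ω _
  have h2 : InRect 1 ε 0 0 0 (0 : ℝ × ℝ) := by
    unfold InRect ip
    simp
  refine ⟨le_refl _, le_refl _, hL, ?_, ?_⟩
  · simpa using h2
  · simpa using h2

theorem tl_tau_bddAbove (S : CSys) (γ ε L : ℝ) (hγ0 : 0 < γ) (hγ1 : γ < 1) (h0 : 0 < ε) (h1 : ε < 1) :
    ∀ x ∈ S.tauSet γ ε L, x ≤ 2 * L := by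
  rintro x ⟨Ω', f', P', T', Γ, D, geo, -, hc, rfl⟩
  have hl := tl_tau_lg_pos h0 h1
  have e1 : P'.ev (fun ω => wt γ (geo (D ω))) ≤ 2 * L := by
    rw [← ent_ev_const P' (2 * L)]
    refine ent_ev_mono P' fun ω hω => ?_
    obtain ⟨-, c2, c3, -, -⟩ := hc ω (lt_of_le_of_ne (P'.nonneg ω) (Ne.symm hω))
    exact tl_wt_le hγ0 c2 c3
  have e2 : 0 ≤ P'.mi T' D / lg ε := div_nonneg (ent_mi_nonneg _ _ _) hl.le
  linarith

theorem tl_tau_le (S : CSys) (B γ ε L : ℝ) (hB : S.Bdd B) (hγ0 : 0 < γ) (hγ1 : γ < 1) (h0 : 0 < ε)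
    (h1 : ε < 1) (hL : 0 ≤ L) : S.tau γ ε L ≤ 2 * L := by
  exact csSup_le (tl_tau_nonempty S B γ ε L hB h0 h1 hL) (tl_tau_bddAbove S γ ε L hγ0 hγ1 h0 h1)

theorem tl_root_le_tau_aux (K : ℝ) (S : CSys) (γ ε L : ℝ) (Γ : Type) (D : S.Ω → Γ)
    (geo : Γ → Geo) (hγ0 : 0 < γ) (hγ1 : γ < 1) (h0 : 0 < ε) (h1 : ε < 1)
    (hc : ∀ ω, 0 < S.P.p ω → (geo (D ω)).RootCompat K ε L (S.V (S.T ω)) (S.A (S.T ω))) :
    S.P.ev (fun ω => wt γ (geo (D ω))) - S.P.mi S.T D / lg ε ≤ S.tau γ ε L +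
      Real.log (((Finset.Icc ⌊-K⌋ ⌊K⌋ ×ˢ Finset.Icc ⌊-K⌋ ⌊K⌋) ×ˢ
        (Finset.Icc ⌊-K⌋ ⌊K⌋ ×ˢ Finset.Icc ⌊-K⌋ ⌊K⌋)).card) / lg ε := by
  have hl := tl_tau_lg_pos h0 h1
  set sub : S.Ω → (ℤ × ℤ) × (ℤ × ℤ) := fun ω =>
    (tlSub ε (geo (D ω)).b (geo (D ω)).a (geo (D ω)).th (S.V (S.T ω) - (geo (D ω)).vc),
      tlSub ε (geo (D ω)).b (geo (D ω)).a (geo (D ω)).th (S.A (S.T ω) - (geo (D ω)).xc)) with hsub
  have hmem : (S.P.ev (fun ω => wt γ (geo (D ω))) - S.P.mi S.T (FLaw.pair sub D) / lg ε) ∈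
      S.tauSet γ ε L := by
    refine ⟨S.Ω, S.fin, S.P, S.T, ((ℤ × ℤ) × (ℤ × ℤ)) × Γ, FLaw.pair sub D,
      fun x => tlGeoRef ε (geo x.2) x.1, fun i => rfl, ?_, rfl⟩
    intro ω hω
    obtain ⟨c1, c2, c3, c4, c5⟩ := hc ω hω
    refine ⟨c1, c2, c3, ?_, ?_⟩
    · have := (tl_inRect_ref h0 c4).1
      rw [← sub_add_eq_sub_sub] at this
      exact this
    · have := (tl_inRect_ref h0 c5).1
      rw [← sub_add_eq_sub_sub] at this
      exact this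
  have hle := le_csSup ⟨2 * L, fun y hy => tl_tau_bddAbove S γ ε L hγ0 hγ1 h0 h1 y hy⟩ hmem
  have e1 : S.P.mi S.T (FLaw.pair sub D) ≤ S.P.mi S.T D +
      Real.log (((Finset.Icc ⌊-K⌋ ⌊K⌋ ×ˢ Finset.Icc ⌊-K⌋ ⌊K⌋) ×ˢ
        (Finset.Icc ⌊-K⌋ ⌊K⌋ ×ˢ Finset.Icc ⌊-K⌋ ⌊K⌋)).card) := by
    rw [ent_mi_chain]
    have a1 := ent_miC_le_right S.P S.T sub D
    have a2 := ent_entC_le S.P sub D
    have a3 := ent_le_log_card S.P sub ((Finset.Icc ⌊-K⌋ ⌊K⌋ ×ˢ Finset.Icc ⌊-K⌋ ⌊K⌋) ×ˢ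
        (Finset.Icc ⌊-K⌋ ⌊K⌋ ×ˢ Finset.Icc ⌊-K⌋ ⌊K⌋)) (fun ω hω => by
      obtain ⟨-, -, -, c4, c5⟩ := hc ω (lt_of_le_of_ne (S.P.nonneg ω) (Ne.symm hω))
      exact Finset.mem_product.2 ⟨(tl_inRect_ref h0 c4).2, (tl_inRect_ref h0 c5).2⟩)
    linarith
  have e2 := div_le_div_of_nonneg_right e1 hl.le
  rw [add_div] at e2
  unfold CSys.tau
  linarith

/-- the trivial root test (unit cells) -/
theorem tl_tau_ge (B : ℝ) : ∃ C : ℝ, ∀ (S : CSys) (γ ε L : ℝ), S.Bdd B → 0 < γ → γ < 1 → 0 < ε → ε < 1 →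
    0 ≤ L → - C / lg ε ≤ S.tau γ ε L := by
  refine ⟨Real.log (((Finset.Icc ⌊-B⌋ ⌊B⌋ ×ˢ Finset.Icc ⌊-B⌋ ⌊B⌋) ×ˢ
        (Finset.Icc ⌊-B⌋ ⌊B⌋ ×ˢ Finset.Icc ⌊-B⌋ ⌊B⌋)).card), fun S γ ε L hB hγ0 hγ1 h0 h1 hL => ?_⟩
  have hl := tl_tau_lg_pos h0 h1
  have h := tl_root_le_tau_aux B S γ ε L Unit (fun _ => ()) (fun _ => ⟨0, 0, 0, 0, 0, 0⟩) hγ0 hγ1 h0 h1
    (fun ω hω => by
      obtain ⟨b1, b2, b3, b4, -⟩ := hB ω hω
      refine ⟨le_refl _, le_refl _, hL, ⟨?_, ?_⟩, ⟨?_, ?_⟩⟩ <;>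
      · simp only [ip, tang, nrm]
        simpa using by assumption)
  have e1 : S.P.mi S.T (fun _ => ()) ≤ 0 := by
    have := ent_mi_le_right S.P S.T (fun _ : S.Ω => ())
    rwa [ent_const] at this
  have e2 : S.P.mi S.T (fun _ => ()) / lg ε ≤ 0 := div_nonpos_of_nonpos_of_nonneg e1 hl.le
  have e3 : S.P.ev (fun _ => wt γ (⟨0, 0, 0, 0, 0, 0⟩ : Geo)) = 0 := by
    rw [ent_ev_const]
    unfold wt
    simp
  rw [e3] at h
  rw [neg_div]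
  linarith

/-- every root label living on the system itself, with enlargement `K`, is a root test up to `C / ℓ` -/
theorem tl_root_le_tau (K : ℝ) : ∃ C : ℝ, ∀ (S : CSys) (γ ε L : ℝ) (Γ : Type) (D : S.Ω → Γ)
    (geo : Γ → Geo), 0 < γ → γ < 1 → 0 < ε → ε < 1 →
    (∀ ω, 0 < S.P.p ω → (geo (D ω)).RootCompat K ε L (S.V (S.T ω)) (S.A (S.T ω))) →
    S.P.ev (fun ω => wt γ (geo (D ω))) - S.P.mi S.T D / lg ε ≤ S.tau γ ε L + C / lg ε := by
  exact ⟨_, fun S γ ε L Γ D geo hγ0 hγ1 h0 h1 hc => tl_root_le_tau_aux K S γ ε L Γ D geo hγ0 hγ1 h0 h1 hc⟩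

/-- `τ` only depends on the law of the particle -/
theorem tl_tau_adjoin (S : CSys) (γ ε L : ℝ) (Γ : Type) [Fintype Γ] (κ : FLaw.Ker S.Ω Γ) :
    (S.adjoin κ).tau γ ε L = S.tau γ ε L := by
  have hpr : ∀ i, (S.P.ext κ).pr (fun x => S.T x.1 = i) = S.P.pr (fun ω => S.T ω = i) := by
    intro i
    conv_rhs => rw [← ent_ext_map_fst S.P κ]
    rw [ent_map_pr]
  unfold CSys.tau
  congr 1
  ext x
  constructor
  · rintro ⟨Ω', f', P', T', Γ', D, geo, a1, a2, a3⟩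
    exact ⟨Ω', f', P', T', Γ', D, geo, fun i => (a1 i).trans (hpr i), a2, a3⟩
  · rintro ⟨Ω', f', P', T', Γ', D, geo, a1, a2, a3⟩
    exact ⟨Ω', f', P', T', Γ', D, geo, fun i => (a1 i).trans (hpr i).symm, a2, a3⟩

theorem tl_tau_mono (S : CSys) (B γ ε L L' : ℝ) (hB : S.Bdd B) (hγ0 : 0 < γ) (hγ1 : γ < 1) (h0 : 0 < ε)
    (h1 : ε < 1) (hL : 0 ≤ L) (hLL : L ≤ L') : S.tau γ ε L ≤ S.tau γ ε L' := by
  refine csSup_le_csSup ⟨2 * L', fun y hy => tl_tau_bddAbove S γ ε L' hγ0 hγ1 h0 h1 y hy⟩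
    (tl_tau_nonempty S B γ ε L hB h0 h1 hL) ?_
  rintro x ⟨Ω', f', P', T', Γ', D, geo, a1, a2, a3⟩
  refine ⟨Ω', f', P', T', Γ', D, geo, a1, fun ω hω => ?_, a3⟩
  obtain ⟨c1, c2, c3, c4, c5⟩ := a2 ω hω
  exact ⟨c1, c2, c3.trans hLL, c4, c5⟩

/-- continuity of the root supremum in the horizon -/
theorem tl_tau_lip (B : ℝ) : ∃ C : ℝ, ∀ (S : CSys) (γ ε L ν : ℝ), S.Bdd B → 0 < γ → γ < 1 → 0 < ε →
    ε < 1 → 0 ≤ L → 0 ≤ ν → S.tau γ ε (L + ν) ≤ S.tau γ ε L + 2 * ν + C / lg ε := by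
  refine ⟨0, fun S γ ε L ν hB hγ0 hγ1 h0 h1 hL hν => ?_⟩
  rw [zero_div, add_zero]
  refine csSup_le (tl_tau_nonempty S B γ ε (L + ν) hB h0 h1 (by linarith)) ?_
  rintro x ⟨Ω', f', P', T', Γ', D, geo, a1, a2, rfl⟩
  have hmem : (P'.ev (fun ω => wt γ ({ geo (D ω) with b := min (geo (D ω)).b L, a := min (geo (D ω)).a L } : Geo))
      - P'.mi T' D / lg ε) ∈ S.tauSet γ ε L := by
    refine ⟨Ω', f', P', T', Γ', D, fun g => { geo g with b := min (geo g).b L, a := min (geo g).a L },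
      a1, fun ω hω => ?_, rfl⟩
    obtain ⟨c1, c2, c3, c4, c5⟩ := a2 ω hω
    have m1 : ε ^ (geo (D ω)).b ≤ ε ^ (min (geo (D ω)).b L) :=
      Real.rpow_le_rpow_of_exponent_ge h0 h1.le (min_le_left _ _)
    have m2 : ε ^ (geo (D ω)).a ≤ ε ^ (min (geo (D ω)).a L) :=
      Real.rpow_le_rpow_of_exponent_ge h0 h1.le (min_le_left _ _)
    refine ⟨le_min c1 hL, min_le_min_right _ c2, min_le_right _ _, ⟨?_, ?_⟩, ⟨?_, ?_⟩⟩
    · exact c4.1.trans (by simpa using m1)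
    · exact c4.2.trans (by simpa using m2)
    · exact c5.1.trans (by simpa using m1)
    · exact c5.2.trans (by simpa using m2)
  have hle := le_csSup ⟨2 * L, fun y hy => tl_tau_bddAbove S γ ε L hγ0 hγ1 h0 h1 y hy⟩ hmem
  have e1 : P'.ev (fun ω => wt γ (geo (D ω))) ≤
      P'.ev (fun ω => wt γ ({ geo (D ω) with b := min (geo (D ω)).b L, a := min (geo (D ω)).a L } : Geo))
        + 2 * ν := by
    rw [← ent_ev_const P' (2 * ν), ← ent_ev_add]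
    refine ent_ev_mono P' fun ω hω => ?_
    obtain ⟨c1, c2, c3, -, -⟩ := a2 ω (lt_of_le_of_ne (P'.nonneg ω) (Ne.symm hω))
    unfold wt
    simp only []
    have n1 : (geo (D ω)).b ≤ min (geo (D ω)).b L + ν := by
      rcases le_total (geo (D ω)).b L with h | h
      · rw [min_eq_left h]; linarith
      · rw [min_eq_right h]; linarith
    have n2 : (geo (D ω)).a ≤ min (geo (D ω)).a L + ν := by
      rcases le_total (geo (D ω)).a L with h | h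
      · rw [min_eq_left h]; linarith
      · rw [min_eq_right h]; linarith
    nlinarith
  unfold CSys.tau
  linarith

theorem tl_logb_pos {ε : ℝ} (h0 : 0 < ε) (h1 : ε < 1) : 0 < Real.logb 2 (1 / ε) :=
  Real.logb_pos (by norm_num) (by rw [lt_div_iff₀ h0]; linarith)

theorem tl_logb_mul_log (ε : ℝ) : Real.logb 2 (1 / ε) * Real.log 2 = lg ε := by
  unfold lg Real.logb
  exact div_mul_cancel₀ _ (Real.log_pos (by norm_num)).ne'

theorem tl_tlev_mono {ε r t : ℝ} (h0 : 0 < ε) (h1 : ε < 1) (h : r ≤ t) : tlev ε r ≤ tlev ε t :=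
  Nat.ceil_mono (mul_le_mul_of_nonneg_right h (tl_logb_pos h0 h1).le)

/-- exactly nested dyadic cells -/
theorem tl_cell_range (c : ℝ) {m n : ℕ} (h : m ≤ n) :
    ⌊c * 2 ^ m⌋ * 2 ^ (n - m) ≤ ⌊c * 2 ^ n⌋ ∧ ⌊c * 2 ^ n⌋ < (⌊c * 2 ^ m⌋ + 1) * 2 ^ (n - m) := by
  have e : c * 2 ^ n = c * 2 ^ m * 2 ^ (n - m) := by
    rw [mul_assoc, ← pow_add, Nat.add_sub_cancel' h]
  have hN : (0 : ℝ) < 2 ^ (n - m) := by positivity
  constructor
  · rw [Int.le_floor, e]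
    push_cast
    exact mul_le_mul_of_nonneg_right (Int.floor_le _) hN.le
  · rw [Int.floor_lt, e]
    push_cast
    exact mul_lt_mul_of_pos_right (Int.lt_floor_add_one _) hN

theorem tl_cell_det {c c' : ℝ} {m n : ℕ} (h : m ≤ n) (hc : ⌊c * 2 ^ n⌋ = ⌊c' * 2 ^ n⌋) :
    ⌊c * 2 ^ m⌋ = ⌊c' * 2 ^ m⌋ := by
  obtain ⟨a1, a2⟩ := tl_cell_range c h
  obtain ⟨b1, b2⟩ := tl_cell_range c' h
  rw [hc] at a1 a2
  have hN : (0 : ℤ) < 2 ^ (n - m) := by positivity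
  have k1 : ⌊c * 2 ^ m⌋ < ⌊c' * 2 ^ m⌋ + 1 := lt_of_mul_lt_mul_right (lt_of_le_of_lt a1 b2) hN.le
  have k2 : ⌊c' * 2 ^ m⌋ < ⌊c * 2 ^ m⌋ + 1 := lt_of_mul_lt_mul_right (lt_of_le_of_lt b1 a2) hN.le
  omega

theorem tl_Ct_det (S : CSys) {ε r t : ℝ} (h0 : 0 < ε) (h1 : ε < 1) (h : r ≤ t) {ω ω' : S.Ω}
    (hc : S.Ct ε t ω = S.Ct ε t ω') : S.Ct ε r ω = S.Ct ε r ω' :=
  tl_cell_det (tl_tlev_mono h0 h1 h) hc

theorem tl_St_nonneg (S : CSys) (ε t : ℝ) (h0 : 0 < ε) (h1 : ε < 1) : 0 ≤ S.St ε t := by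
  exact div_nonneg (ent_entC_nonneg _ _ _) (tl_tau_lg_pos h0 h1).le

theorem tl_St_mono (S : CSys) (ε r t : ℝ) (h0 : 0 < ε) (h1 : ε < 1) (h : r ≤ t) : S.St ε r ≤ S.St ε t := by
  refine div_le_div_of_nonneg_right ?_ (tl_tau_lg_pos h0 h1).le
  exact ent_entC_mono S.P (S.Ct ε t) (S.Ct ε r) S.T fun ω ω' _ _ hc _ => tl_Ct_det S h0 h1 h hc

/-- exact chain rule for the nested time cells -/
theorem tl_St_chain (S : CSys) (ε r t : ℝ) (h0 : 0 < ε) (h1 : ε < 1) (h : r ≤ t) :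
    S.St ε t - S.St ε r = S.P.entC (S.Ct ε t) (FLaw.pair S.T (S.Ct ε r)) / lg ε := by
  unfold CSys.St FLaw.entC
  have a1 : S.P.ent (FLaw.pair (S.Ct ε t) (FLaw.pair S.T (S.Ct ε r))) =
      S.P.ent (FLaw.pair (S.Ct ε t) S.T) := by
    refine ent_congr_ker _ _ _ fun ω ω' _ _ => ?_
    simp only [FLaw.pair, Prod.mk.injEq]
    exact ⟨fun h5 => ⟨h5.1, h5.2.1⟩, fun h5 => ⟨h5.1, h5.2, tl_Ct_det S h0 h1 h h5.1⟩⟩
  rw [a1, ent_pair_comm S.P S.T (S.Ct ε r)]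
  ring

theorem tl_St_incr (S : CSys) (ε r t : ℝ) (h0 : 0 < ε) (h1 : ε < 1) (hr : 0 ≤ r) (h : r ≤ t) :
    S.St ε t - S.St ε r ≤ t - r + Real.log 2 / lg ε := by
  have hl := tl_tau_lg_pos h0 h1
  have hlam := tl_logb_pos h0 h1
  have hmn := tl_tlev_mono h0 h1 h
  rw [tl_St_chain S ε r t h0 h1 h]
  have hN : S.P.NVal (fun _ => True) (S.Ct ε t) (FLaw.pair S.T (S.Ct ε r))
      ((2 : ℝ) ^ (tlev ε t - tlev ε r)) := by
    intro ω₀
    refine ⟨Finset.Ico (S.Ct ε r ω₀ * 2 ^ (tlev ε t - tlev ε r))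
      ((S.Ct ε r ω₀ + 1) * 2 ^ (tlev ε t - tlev ε r)), ?_, ?_⟩
    · rw [Int.card_Ico]
      have e : (S.Ct ε r ω₀ + 1) * 2 ^ (tlev ε t - tlev ε r) - S.Ct ε r ω₀ * 2 ^ (tlev ε t - tlev ε r)
          = ((2 ^ (tlev ε t - tlev ε r) : ℕ) : ℤ) := by
        push_cast
        ring
      rw [e, Int.toNat_natCast]
      push_cast
      exact le_refl _
    · intro ω _ _ hA
      have hr : S.Ct ε r ω = S.Ct ε r ω₀ := congrArg Prod.snd hA
      rw [← hr, Finset.mem_Ico]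
      exact tl_cell_range (S.c ω) hmn
  have e1 := ent_entC_le_log_nval S.P _ _ hN
  rw [Real.log_pow] at e1
  have e2 : ((tlev ε t - tlev ε r : ℕ) : ℝ) ≤ (t - r) * Real.logb 2 (1 / ε) + 1 := by
    rw [Nat.cast_sub hmn]
    have a1 : (tlev ε t : ℝ) < t * Real.logb 2 (1 / ε) + 1 :=
      Nat.ceil_lt_add_one (mul_nonneg (hr.trans h) hlam.le)
    have a2 : r * Real.logb 2 (1 / ε) ≤ (tlev ε r : ℝ) := Nat.le_ceil _
    linarith
  have e3 : S.P.entC (S.Ct ε t) (FLaw.pair S.T (S.Ct ε r)) ≤ (t - r) * lg ε + Real.log 2 := by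
    have := mul_le_mul_of_nonneg_right e2 (Real.log_pos (by norm_num : (1 : ℝ) < 2)).le
    rw [add_mul, mul_assoc, tl_logb_mul_log, one_mul] at this
    linarith
  have e4 := div_le_div_of_nonneg_right e3 hl.le
  rwa [add_div, mul_div_assoc, div_self hl.ne', mul_one] at e4

theorem tl_St_le (B : ℝ) : ∃ C : ℝ, ∀ (S : CSys) (ε t : ℝ), S.Bdd B → 0 < ε → ε < 1 → 0 ≤ t →
    S.St ε t ≤ t + C / lg ε := by
  refine ⟨Real.log ((Finset.Icc ⌊-B⌋ ⌊B⌋).card) + Real.log 2, fun S ε t hB h0 h1 ht => ?_⟩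
  have hl := tl_tau_lg_pos h0 h1
  have e1 := tl_St_incr S ε 0 t h0 h1 le_rfl ht
  have e2 : S.St ε 0 ≤ Real.log ((Finset.Icc ⌊-B⌋ ⌊B⌋).card) / lg ε := by
    refine div_le_div_of_nonneg_right ?_ hl.le
    refine (ent_entC_le _ _ _).trans (ent_le_log_card S.P _ _ fun ω hω => ?_)
    obtain ⟨-, -, -, -, b5⟩ := hB ω (lt_of_le_of_ne (S.P.nonneg ω) (Ne.symm hω))
    obtain ⟨b6, b7⟩ := abs_le.1 b5
    have : S.Ct ε 0 ω = ⌊S.c ω⌋ := by
      unfold CSys.Ct tcell tlev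
      simp
    rw [this, Finset.mem_Icc]
    exact ⟨Int.floor_le_floor b6, Int.floor_le_floor b7⟩
  rw [add_div]
  linarith

/-- (4.4): a label determines a root aperture of the same shape -/
theorem tl_score_le (K B : ℝ) : ∃ C : ℝ, ∀ (S : CSys) (γ ε t L : ℝ) (Γ : Type) (G : S.Ω → Γ)
    (geo : Γ → Geo), S.Bdd B → 0 < γ → γ < 1 → 0 < ε → ε < 1 → 0 ≤ t → S.IsLabel K ε t L G geo →
    S.score γ ε t G geo ≤ S.tau γ ε L + 2 * S.St ε t + C / lg ε := by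
  obtain ⟨C, hC⟩ := tl_root_le_tau (K * (1 + B + K))
  refine ⟨C, fun S γ ε t L Γ G geo hB hγ0 hγ1 h0 h1 ht hlab => ?_⟩
  have h := hC S γ ε L Γ G (fun g => { geo g with xc := (geo g).xc - (geo g).tc • (geo g).vc }) hγ0 hγ1
    h0 h1 (fun ω hω => by
      obtain ⟨c1, c2, c3, c4, c5, c6⟩ := hlab ω hω
      obtain ⟨-, -, -, -, b5⟩ := hB ω hω
      have pt : 0 < ε ^ t := Real.rpow_pos_of_pos h0 t
      have pt1 : ε ^ t ≤ 1 := Real.rpow_le_one h0.le h1.le ht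
      have hK : 0 ≤ K := by
        by_contra hK
        have : K * ε ^ t < 0 := mul_neg_of_neg_of_pos (not_le.1 hK) pt
        linarith [abs_nonneg (S.c ω - (geo (G ω)).tc)]
      have hB0 : 0 ≤ B := (abs_nonneg _).trans b5
      have htc : |(geo (G ω)).tc| ≤ B + K := by
        have e1 : |(geo (G ω)).tc| ≤ |S.c ω| + |S.c ω - (geo (G ω)).tc| := by
          have := abs_sub_abs_le_abs_sub (geo (G ω)).tc (S.c ω)
          rw [abs_sub_comm] at this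
          linarith
        have e2 : K * ε ^ t ≤ K := by nlinarith
        linarith
      have key : ∀ (d : ℝ) (w : ℝ × ℝ), |ip (S.V (S.T ω) - (geo (G ω)).vc) w| ≤ K * ε ^ d →
          |ip (S.A (S.T ω) + (geo (G ω)).tc • S.V (S.T ω) - (geo (G ω)).xc) w| ≤ K * ε ^ (d + t) →
          |ip (S.A (S.T ω) - ((geo (G ω)).xc - (geo (G ω)).tc • (geo (G ω)).vc)) w| ≤
            K * (1 + B + K) * ε ^ d := by
        intro d w g1 g2
        have pd : 0 < ε ^ d := Real.rpow_pos_of_pos h0 d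
        have e3 : ip (S.A (S.T ω) - ((geo (G ω)).xc - (geo (G ω)).tc • (geo (G ω)).vc)) w =
            ip (S.A (S.T ω) + (geo (G ω)).tc • S.V (S.T ω) - (geo (G ω)).xc) w
              - (geo (G ω)).tc * ip (S.V (S.T ω) - (geo (G ω)).vc) w := by
          simp only [tl_ip_sub, tl_ip_add, tl_ip_smul]
          ring
        rw [e3]
        have e4 : ε ^ (d + t) ≤ ε ^ d := Real.rpow_le_rpow_of_exponent_ge h0 h1.le (by linarith)
        have e5 : |(geo (G ω)).tc * ip (S.V (S.T ω) - (geo (G ω)).vc) w| ≤ (B + K) * (K * ε ^ d) := by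
          rw [abs_mul]
          exact mul_le_mul htc g1 (abs_nonneg _) (by linarith)
        have e6 : K * ε ^ (d + t) ≤ K * ε ^ d := mul_le_mul_of_nonneg_left e4 hK
        calc _ ≤ |ip (S.A (S.T ω) + (geo (G ω)).tc • S.V (S.T ω) - (geo (G ω)).xc) w|
              + |(geo (G ω)).tc * ip (S.V (S.T ω) - (geo (G ω)).vc) w| := abs_sub _ _
          _ ≤ K * ε ^ d + (B + K) * (K * ε ^ d) := by linarith
          _ = K * (1 + B + K) * ε ^ d := by ring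
      have hKK : K ≤ K * (1 + B + K) := by nlinarith
      refine ⟨c1, c2, by linarith, ⟨?_, ?_⟩, ⟨?_, ?_⟩⟩
      · exact c5.1.trans (mul_le_mul_of_nonneg_right hKK (Real.rpow_pos_of_pos h0 _).le)
      · exact c5.2.trans (mul_le_mul_of_nonneg_right hKK (Real.rpow_pos_of_pos h0 _).le)
      · exact key _ _ c5.1 c6.1
      · exact key _ _ c5.2 c6.2)
  unfold CSys.score
  have e : (fun ω => wt γ ({ geo (G ω) with xc := (geo (G ω)).xc - (geo (G ω)).tc • (geo (G ω)).vc } : Geo))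
      = fun ω => wt γ (geo (G ω)) := rfl
  rw [e] at h
  linarith

theorem tl_div_lg_le (C : ℝ) {ν : ℝ} (hν : 0 < ν) : ∃ ε₀ : ℝ, 0 < ε₀ ∧ ε₀ < 1 ∧
    ∀ ε : ℝ, 0 < ε → ε < ε₀ → C / lg ε ≤ ν := by
  refine ⟨Real.exp (-(|C| / ν + 1)), Real.exp_pos _, ?_, fun ε h0 h1 => ?_⟩
  · rw [Real.exp_lt_one_iff]
    have : 0 ≤ |C| / ν := by positivity
    linarith
  · have e1 : |C| / ν + 1 < lg ε := by
      unfold lg
      rw [one_div, Real.log_inv]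
      have h3 : Real.log ε < -(|C| / ν + 1) := by
        rw [← Real.log_exp (-(|C| / ν + 1))]
        exact Real.log_lt_log h0 h1
      linarith
    have hp : 0 ≤ |C| / ν := by positivity
    have hl : 0 < lg ε := by linarith
    rw [div_le_iff₀ hl]
    have e2 : |C| / ν ≤ lg ε := by linarith
    rw [div_le_iff₀ hν] at e2
    linarith [le_abs_self C]

theorem univBound_two (γ : ℝ) (h0 : 0 < γ) (h1 : γ < 1) : UnivBound γ 2 := by
  intro K B Lmax tmin ν htmin hν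
  obtain ⟨C₁, hC₁⟩ := tl_score_le K B
  obtain ⟨C₂, hC₂⟩ := tl_St_le B
  obtain ⟨ε₀, a1, a2, a3⟩ := tl_div_lg_le (C₁ + 2 * C₂) hν
  refine ⟨ε₀, a1, a2, fun ε e0 e1 t L ht _ _ S Γ G geo hB hlab => ?_⟩
  have e2 : ε < 1 := e1.trans a2
  have ht0 : 0 ≤ t := htmin.le.trans ht
  have b1 := hC₁ S γ ε t L Γ G geo hB h0 h1 e0 e2 ht0 hlab
  have b2 := hC₂ S ε t hB e0 e2 ht0
  have b3 := a3 ε e0 e1
  rw [add_div, mul_div_assoc] at b3
  linarith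

theorem beta_nonneg (γ : ℝ) (h0 : 0 < γ) (h1 : γ < 1) : 0 ≤ beta γ := by
  exact Real.sInf_nonneg fun x hx => hx.1

theorem beta_le_two (γ : ℝ) (h0 : 0 < γ) (h1 : γ < 1) : beta γ ≤ 2 := by
  exact csInf_le ⟨0, fun x hx => hx.1⟩ ⟨by norm_num, univBound_two γ h0 h1⟩

/-- (4.5): the infimum is attained -/
theorem tl_univBound_beta (γ : ℝ) (h0 : 0 < γ) (h1 : γ < 1) : UnivBound γ (beta γ) := by
  intro K B Lmax tmin ν htmin hν
  have hM : 0 < max Lmax 1 := lt_of_lt_of_le one_pos (le_max_right _ _)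
  obtain ⟨β', ⟨-, hβ'⟩, hlt⟩ := exists_lt_of_csInf_lt
    (⟨2, by norm_num, univBound_two γ h0 h1⟩ : {β' : ℝ | 0 ≤ β' ∧ UnivBound γ β'}.Nonempty)
    (show sInf {β' : ℝ | 0 ≤ β' ∧ UnivBound γ β'} < beta γ + ν / (2 * max Lmax 1) by
      have : 0 < ν / (2 * max Lmax 1) := by positivity
      unfold beta
      linarith)
  obtain ⟨ε₀, a1, a2, a3⟩ := hβ' K B Lmax tmin (ν / 2) htmin (by linarith)
  refine ⟨ε₀, a1, a2, fun ε e0 e1 t L ht htL hL S Γ G geo hB hlab => ?_⟩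
  have b1 := a3 ε e0 e1 t L ht htL hL S Γ G geo hB hlab
  have ht0 : 0 ≤ t := htmin.le.trans ht
  have htM : t ≤ max Lmax 1 := (htL.trans hL).trans (le_max_left _ _)
  have b2 : β' * t ≤ beta γ * t + ν / 2 := by
    have c1 : β' * t ≤ (beta γ + ν / (2 * max Lmax 1)) * t := mul_le_mul_of_nonneg_right hlt.le ht0
    have c2 : ν / (2 * max Lmax 1) * t ≤ ν / (2 * max Lmax 1) * max Lmax 1 :=
      mul_le_mul_of_nonneg_left htM (by positivity)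
    have c3 : ν / (2 * max Lmax 1) * max Lmax 1 = ν / 2 := by
      field_simp
    linarith
  linarith

/-- no smaller rate works -/
theorem tl_not_univBound (γ β' : ℝ) (h0 : 0 < γ) (h1 : γ < 1) (h2 : 0 ≤ β') (h3 : β' < beta γ) :
    ¬ UnivBound γ β' := by
  intro h
  have : beta γ ≤ β' := csInf_le ⟨0, fun x hx => hx.1⟩ ⟨h2, h⟩
  linarith

end Claimed.Agent.R255
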