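-- KEEP
import Claimed.Agent.R255.Cl.Tools.Tau

/-!
# Row 255 (BR paper), chapter TOOLS (Sec. 4.1-4.3), finite level: package TL-SPLIT (Lemma 4.3)      (chief helper216)

One finite system, one precision `ε`, explicit errors `C / lg ε`.  No limits.  STATEMENTS ARE FROZEN (ask helper216); provers replace the `sorry`s IN PLACE, helper lemmas go above (prefix `tl_`, names must be new).
You may use every statement of the imported files (also sorried ones) and every EARLIER statement of this file.  Entropy calculus: `R255/Ent/Basic.lean`.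

PROVED (helper26).  Reusable: `FLaw.sig P Q` = the MIXTURE `Σ i, P(i) Q_i` on the sigma type, with `tl_sig_ev`, `tl_sig_pr`, `tl_sig_fib`, `tl_sig_ent`
(`H(X, W) = H(W) + Σ P(i) H_{Q i}(X_i)`, `W` = first projection), `tl_ent_of_law` (entropy only depends on the law of the observation).
-/

set_option autoImplicit false

namespace Claimed.Agent.R255

open Classical
open FLaw

/-! ## mixtures -/

section mix

variable {I : Type} [Fintype I] {Ω' : I → Type} [∀ i, Fintype (Ω' i)]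

/-- the mixture of the laws `Q i` with weights `P` -/
noncomputable def FLaw.sig (P : FLaw I) (Q : ∀ i, FLaw (Ω' i)) : FLaw (Σ i, Ω' i) where
  p := fun x => P.p x.1 * (Q x.1).p x.2
  nonneg := fun x => mul_nonneg (P.nonneg _) ((Q _).nonneg _)
  sum_one := by
    rw [Fintype.sum_sigma]
    simp only [← Finset.mul_sum, (Q _).sum_one, mul_one, P.sum_one]

theorem tl_sig_ev (P : FLaw I) (Q : ∀ i, FLaw (Ω' i)) (f : (Σ i, Ω' i) → ℝ) :
    (P.sig Q).ev f = P.ev (fun i => (Q i).ev (fun ω => f ⟨i, ω⟩)) := by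
  unfold FLaw.ev
  rw [Fintype.sum_sigma]
  refine Finset.sum_congr rfl fun i _ => ?_
  rw [Finset.mul_sum]
  refine Finset.sum_congr rfl fun ω _ => ?_
  show P.p i * (Q i).p ω * _ = _
  ring

theorem tl_sig_pr (P : FLaw I) (Q : ∀ i, FLaw (Ω' i)) (E : (Σ i, Ω' i) → Prop) :
    (P.sig Q).pr E = P.ev (fun i => (Q i).pr (fun ω => E ⟨i, ω⟩)) := by
  rw [ent_pr_eq_ev, tl_sig_ev]
  refine congrArg _ (funext fun i => ?_)
  rw [ent_pr_eq_ev]

/-- fibres of `(X, W)` -/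
theorem tl_sig_fib {α : Type} (P : FLaw I) (Q : ∀ i, FLaw (Ω' i)) (X : (Σ i, Ω' i) → α) (i : I)
    (ω : Ω' i) :
    (P.sig Q).fib (pair X Sigma.fst) ⟨i, ω⟩ = P.p i * (Q i).fib (fun ω' => X ⟨i, ω'⟩) ω := by
  unfold FLaw.fib
  rw [tl_sig_pr]
  unfold FLaw.ev
  rw [Finset.sum_eq_single i]
  · congr 1
    refine ent_pr_congr _ fun ω' _ => ?_
    simp [FLaw.pair]
  · intro j _ hj
    beta_reduce
    rw [ent_pr_eq_zero, mul_zero]
    intro ω' _ h
    exact hj (congrArg Prod.snd h)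
  · intro h
    exact absurd (Finset.mem_univ i) h

/-- `H(X, W) = H(W) + Σ P(i) H_{Q i}(X_i)` -/
theorem tl_sig_ent {α : Type} (P : FLaw I) (Q : ∀ i, FLaw (Ω' i)) (X : (Σ i, Ω' i) → α) :
    (P.sig Q).ent (pair X Sigma.fst) =
      P.ent (fun i => i) + P.ev (fun i => (Q i).ent (fun ω' => X ⟨i, ω'⟩)) := by
  unfold FLaw.ent
  rw [tl_sig_ev, ← ent_ev_add]
  refine ent_ev_congr P fun i hi => ?_
  rw [← ent_ev_const (Q i) (-Real.log (P.fib (fun i => i) i)), ← ent_ev_add]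
  refine ent_ev_congr (Q i) fun ω hω => ?_
  rw [tl_sig_fib, ent_fib_id, Real.log_mul hi (ent_fib_pos (Q i) _ hω).ne']
  ring

end mix

/-- the entropy only depends on the law of the observation -/
theorem tl_ent_of_law {Ω₁ Ω₂ α : Type} [Fintype Ω₁] [Fintype Ω₂] (P₁ : FLaw Ω₁) (P₂ : FLaw Ω₂)
    (X₁ : Ω₁ → α) (X₂ : Ω₂ → α)
    (h : ∀ x, P₁.pr (fun ω => X₁ ω = x) = P₂.pr (fun ω => X₂ ω = x)) : P₁.ent X₁ = P₂.ent X₂ := by
  rw [ent_eq_sum P₁ X₁ (Finset.univ.image X₁ ∪ Finset.univ.image X₂)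
      (fun ω _ => Finset.mem_union_left _ (Finset.mem_image_of_mem _ (Finset.mem_univ _))),
    ent_eq_sum P₂ X₂ (Finset.univ.image X₁ ∪ Finset.univ.image X₂)
      (fun ω _ => Finset.mem_union_right _ (Finset.mem_image_of_mem _ (Finset.mem_univ _)))]
  exact Finset.sum_congr rfl fun x _ => by rw [h x]

theorem tl_lg_pos {ε : ℝ} (h0 : 0 < ε) (h1 : ε < 1) : 0 < lg ε := by
  unfold lg
  exact Real.log_pos (by rw [lt_div_iff₀ h0]; linarith)

/-- the conditional systems are bounded -/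
theorem tl_condOn_bdd (S : CSys) (B : ℝ) (hB : S.Bdd B) (E : S.Ω → Prop) : (S.condOn E).Bdd B := by
  intro ω hω
  refine hB ω ?_
  by_cases h : 0 < S.P.pr E
  · have h2 : (S.P.cnd E).p ω ≠ 0 := ne_of_gt hω
    exact lt_of_le_of_ne (S.P.nonneg ω) (Ne.symm ((ent_cnd_supp S.P E h).1 h2).2)
  · have : S.P.cnd E = S.P := by unfold FLaw.cnd; rw [dif_neg h]
    have h3 : 0 < (S.P.cnd E).p ω := hω
    rwa [this] at h3

/-- the information of a glued test -/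
theorem tl_sig_mi {I : Type} [Fintype I] {Ω' : I → Type} [∀ i, Fintype (Ω' i)] {α : Type}
    {Γ : I → Type} (P : FLaw I) (Q : ∀ i, FLaw (Ω' i)) (T : ∀ i, Ω' i → α) (D : ∀ i, Ω' i → Γ i) :
    (P.sig Q).mi (fun x => T x.1 x.2) (fun x => (⟨x.1, D x.1 x.2⟩ : Σ i, Γ i)) =
      (P.sig Q).ent (fun x => T x.1 x.2) - P.ev (fun i => (Q i).ent (T i))
        + P.ev (fun i => (Q i).mi (T i) (D i)) := by
  have e1 : (P.sig Q).ent (fun x => (⟨x.1, D x.1 x.2⟩ : Σ i, Γ i)) =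
      P.ent (fun i => i) + P.ev (fun i => (Q i).ent (D i)) := by
    rw [← ent_pair_of_ker (P.sig Q) (fun x => (⟨x.1, D x.1 x.2⟩ : Σ i, Γ i)) Sigma.fst
      (fun ω ω' _ _ h => congrArg (fun s : Σ i, Γ i => s.1) h), tl_sig_ent]
    congr 1
    refine congrArg _ (funext fun i => ?_)
    exact ent_comp_inj (Q i) (D i) (fun g => (⟨i, g⟩ : Σ i, Γ i)) sigma_mk_injective
  have e2 : (P.sig Q).ent (pair (fun x => T x.1 x.2) (fun x => (⟨x.1, D x.1 x.2⟩ : Σ i, Γ i))) =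
      P.ent (fun i => i) + P.ev (fun i => (Q i).ent (pair (T i) (D i))) := by
    rw [← ent_pair_of_ker (P.sig Q)
      (pair (fun x => T x.1 x.2) (fun x => (⟨x.1, D x.1 x.2⟩ : Σ i, Γ i))) Sigma.fst
      (fun ω ω' _ _ h => congrArg (fun s : α × Σ i, Γ i => s.2.1) h), tl_sig_ent]
    congr 1
    refine congrArg _ (funext fun i => ?_)
    refine ent_congr_ker (Q i) _ _ fun ω ω' _ _ => ?_
    simp only [FLaw.pair, Prod.mk.injEq]
    constructor
    · rintro ⟨h1, h2⟩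
      exact ⟨h1, sigma_mk_injective h2⟩
    · rintro ⟨h1, h2⟩
      exact ⟨h1, by rw [h2]⟩
  unfold FLaw.mi
  rw [e1, e2, ent_ev_sub, ent_ev_add]
  ring

/-- combining conditional root tests -/
theorem tl_split_tau (S : CSys) (B γ ε L : ℝ) (hB : S.Bdd B) (hγ0 : 0 < γ) (hγ1 : γ < 1) (h0 : 0 < ε)
    (h1 : ε < 1) (hL : 0 ≤ L) (ζ : Type) (Z : S.Ω → ζ) :
    S.P.ev (fun ω => (S.condOn (fun ω' => Z ω' = Z ω)).tau γ ε L) ≤ S.tau γ ε L + S.P.mi S.T Z / lg ε := by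
  refine le_of_forall_pos_le_add fun η hη => ?_
  -- `η`-optimal tests
  have hex : ∀ ω₀ : S.Ω, ∃ (x : ℝ) (Ω' : Type) (_ : Fintype Ω') (P' : FLaw Ω') (T' : Ω' → S.ι)
      (Γ : Type) (D : Ω' → Γ) (geo : Γ → Geo),
      (S.condOn (fun ω' => Z ω' = Z ω₀)).tau γ ε L - η < x ∧
      (∀ i, P'.pr (fun ω => T' ω = i) = (S.P.cfib Z ω₀).pr (fun ω => S.T ω = i)) ∧
      (∀ ω, 0 < P'.p ω → (geo (D ω)).RootCompat 1 ε L (S.V (T' ω)) (S.A (T' ω))) ∧
      x = P'.ev (fun ω => wt γ (geo (D ω))) - P'.mi T' D / lg ε := by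
    intro ω₀
    obtain ⟨x, ⟨Ω', f', P', T', Γ, D, geo, a1, a2, a3⟩, hx⟩ := exists_lt_of_lt_csSup
      (tl_tau_nonempty _ B γ ε L (tl_condOn_bdd S B hB (fun ω' => Z ω' = Z ω₀)) h0 h1 hL)
      (show (S.condOn (fun ω' => Z ω' = Z ω₀)).tau γ ε L - η <
        sSup ((S.condOn (fun ω' => Z ω' = Z ω₀)).tauSet γ ε L) by unfold CSys.tau; linarith)
    exact ⟨x, Ω', f', P', T', Γ, D, geo, hx, a1, a2, a3⟩
  choose x Ω' fin' P' T' Γ D geo hxη hlaw hcomp hval using hex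
  let _ : ∀ i, Fintype (Ω' i) := fin'
  -- the glued test
  have hmem : (S.P.ev x - S.P.mi S.T Z / lg ε) ∈ S.tauSet γ ε L := by
    refine ⟨Σ i, Ω' i, inferInstance, S.P.sig P', fun y => T' y.1 y.2, Σ i, Γ i,
      fun y => ⟨y.1, D y.1 y.2⟩, fun g => geo g.1 g.2, ?_, ?_, ?_⟩
    · intro i
      rw [tl_sig_pr, ent_pr_tower S.P Z]
      exact congrArg _ (funext fun ω₀ => hlaw ω₀ i)
    · rintro ⟨ω₀, ω⟩ hω
      refine hcomp ω₀ ω ?_
      have h2 : 0 < S.P.p ω₀ * (P' ω₀).p ω := hω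
      exact lt_of_le_of_ne ((P' ω₀).nonneg ω) (fun h => by rw [← h, mul_zero] at h2; exact lt_irrefl _ h2)
    · rw [tl_sig_mi, tl_sig_ev]
      have e1 : (S.P.sig P').ent (fun y => T' y.1 y.2) = S.P.ent S.T := by
        refine tl_ent_of_law _ _ _ _ fun i => ?_
        rw [tl_sig_pr, ent_pr_tower S.P Z]
        exact congrArg _ (funext fun ω₀ => hlaw ω₀ i)
      have e2 : S.P.ev (fun i => (P' i).ent (T' i)) = S.P.entC S.T Z := by
        rw [ent_entC_eq_avg]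
        exact congrArg _ (funext fun ω₀ => tl_ent_of_law _ _ _ _ (hlaw ω₀))
      rw [e1, e2, ent_mi_eq]
      have e3 : S.P.ev x = S.P.ev (fun i => (P' i).ev (fun ω => wt γ (geo i (D i ω))))
          - S.P.ev (fun i => (P' i).mi (T' i) (D i)) / lg ε := by
        rw [div_eq_mul_inv, mul_comm, ← ent_ev_mul_left, ← ent_ev_sub]
        refine congrArg _ (funext fun i => ?_)
        rw [hval i, div_eq_mul_inv, mul_comm ((P' i).mi _ _)]
      rw [e3]
      ring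
  have hle : S.P.ev x - S.P.mi S.T Z / lg ε ≤ S.tau γ ε L :=
    le_csSup ⟨2 * L, fun y hy => tl_tau_bddAbove S γ ε L hγ0 hγ1 h0 h1 y hy⟩ hmem
  have h3 : S.P.ev (fun ω => (S.condOn (fun ω' => Z ω' = Z ω)).tau γ ε L) ≤ S.P.ev x + η := by
    rw [← ent_ev_const S.P η, ← ent_ev_add]
    exact ent_ev_mono S.P fun ω _ => by linarith [hxη ω]
  linarith

/-- exact chain rules -/
theorem tl_split_score (S : CSys) (γ ε t : ℝ) (h0 : 0 < ε) (h1 : ε < 1) (Γ : Type) (G : S.Ω → Γ)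
    (geo : Γ → Geo) (ζ : Type) (Z : S.Ω → ζ) :
    S.P.ev (fun ω => (S.condOn (fun ω' => Z ω' = Z ω)).score γ ε t G geo) - S.score γ ε t G geo =
      (- S.P.miC S.T Z G + S.P.mi S.T Z - 2 * S.P.miC (S.Ct ε t) Z S.T) / lg ε := by
  have e : S.P.ev (fun ω => (S.condOn (fun ω' => Z ω' = Z ω)).score γ ε t G geo) =
      S.P.ev (fun ω => wt γ (geo (G ω))) - S.P.miC S.T G Z / lg ε
        + 2 * (S.P.entC (S.Ct ε t) (pair S.T Z) / lg ε) := by
    rw [ent_ev_tower S.P Z (fun ω => wt γ (geo (G ω))), ent_miC_eq_avg, ent_entC_pair_eq_avg,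
      div_eq_mul_inv, mul_comm _ (lg ε)⁻¹, div_eq_mul_inv, mul_comm _ (lg ε)⁻¹, ← ent_ev_mul_left,
      ← ent_ev_mul_left, ← ent_ev_mul_left, ← ent_ev_sub, ← ent_ev_add]
    refine congrArg _ (funext fun ω => ?_)
    show (S.P.cfib Z ω).ev (fun ω => wt γ (geo (G ω))) - (S.P.cfib Z ω).mi S.T G / lg ε
      + 2 * ((S.P.cfib Z ω).entC (S.Ct ε t) S.T / lg ε) = _
    ring
  rw [e]
  unfold CSys.score CSys.St FLaw.miC FLaw.mi FLaw.entC
  have a1 : S.P.ent (pair G Z) = S.P.ent (pair Z G) := ent_pair_comm _ _ _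
  have a2 : S.P.ent (pair (pair S.T G) Z) = S.P.ent (pair (pair S.T Z) G) := by
    refine ent_congr_ker _ _ _ fun ω ω' _ _ => ?_
    simp only [FLaw.pair, Prod.mk.injEq]
    tauto
  have a3 : S.P.ent (pair (S.Ct ε t) (pair S.T Z)) = S.P.ent (pair (pair (S.Ct ε t) Z) S.T) := by
    refine ent_congr_ker _ _ _ fun ω ω' _ _ => ?_
    simp only [FLaw.pair, Prod.mk.injEq]
    tauto
  have a4 : S.P.ent (pair Z S.T) = S.P.ent (pair S.T Z) := ent_pair_comm _ _ _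
  rw [a1, a2, a3, a4]
  ring

/-- **Lemma 4.3** -/
theorem tl_split_deficit (S : CSys) (B γ ε t L : ℝ) (hB : S.Bdd B) (hγ0 : 0 < γ) (hγ1 : γ < 1)
    (h0 : 0 < ε) (h1 : ε < 1) (hL : 0 ≤ L) (Γ : Type) (G : S.Ω → Γ) (geo : Γ → Geo) (ζ : Type)
    (Z : S.Ω → ζ) :
    S.P.ev (fun ω => (S.condOn (fun ω' => Z ω' = Z ω)).deficit γ ε t L G geo) ≤
      S.deficit γ ε t L G geo + 3 * S.P.ent Z / lg ε := by
  have hl := tl_lg_pos h0 h1
  have e1 := tl_split_tau S B γ ε L hB hγ0 hγ1 h0 h1 hL ζ Z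
  have e2 := tl_split_score S γ ε t h0 h1 Γ G geo ζ Z
  have e3 : S.P.ev (fun ω => (S.condOn (fun ω' => Z ω' = Z ω)).deficit γ ε t L G geo) =
      beta γ * t + S.P.ev (fun ω => (S.condOn (fun ω' => Z ω' = Z ω)).tau γ ε L)
        - S.P.ev (fun ω => (S.condOn (fun ω' => Z ω' = Z ω)).score γ ε t G geo) := by
    unfold CSys.deficit
    rw [ent_ev_sub, ent_ev_add, ent_ev_const]
  have b1 : S.P.miC S.T Z G ≤ S.P.ent Z :=
    (ent_miC_le_right _ _ _ _).trans (ent_entC_le _ _ _)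
  have b2 : S.P.miC (S.Ct ε t) Z S.T ≤ S.P.ent Z :=
    (ent_miC_le_right _ _ _ _).trans (ent_entC_le _ _ _)
  have e4 : (S.P.miC S.T Z G + 2 * S.P.miC (S.Ct ε t) Z S.T) / lg ε ≤ 3 * S.P.ent Z / lg ε :=
    div_le_div_of_nonneg_right (by linarith) hl.le
  rw [e3]
  unfold CSys.deficit
  have e5 : (- S.P.miC S.T Z G + S.P.mi S.T Z - 2 * S.P.miC (S.Ct ε t) Z S.T) / lg ε =
      S.P.mi S.T Z / lg ε - (S.P.miC S.T Z G + 2 * S.P.miC (S.Ct ε t) Z S.T) / lg ε := by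
    ring
  rw [e5] at e2
  linarith

end Claimed.Agent.R255
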