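-- KEEP
import Claimed.Agent.R255.Cl.Tools.Split
import Claimed.Agent.R227.EndA.Ent

/-!
# Row 255 (BR paper), chapter TOOLS (Sec. 4.1-4.3), finite level: package TL-CAP-1 (cap bounds control the root supremum)      (chief helper216)

One finite system, one precision `ε`, explicit errors `C / lg ε`.  No limits.  STATEMENTS ARE FROZEN (ask helper216); provers replace the `sorry`s IN PLACE, helper lemmas go above (prefix `tl_`, names must be new).
You may use every statement of the imported files (also sorried ones) and every EARLIER statement of this file.  Entropy calculus: `R255/Ent/Basic.lean`.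
PROVED (helper268); `I(T;D) ≥ E log (1 / Pr(cap D))` is `R227.ka_mi_ge_cap` (`R227/EndA/Ent.lean`).
-/

set_option autoImplicit false

namespace Claimed.Agent.R255

open Classical

/-- events which depend on the particle only: their probability is determined by the particle marginal -/
theorem tl_pr_of_marg {Ω₁ Ω₂ ι : Type} [Fintype Ω₁] [Fintype Ω₂] (P₁ : FLaw Ω₁) (P₂ : FLaw Ω₂)
    (T₁ : Ω₁ → ι) (T₂ : Ω₂ → ι)
    (h : ∀ i, P₁.pr (fun ω => T₁ ω = i) = P₂.pr (fun ω => T₂ ω = i)) (Q : ι → Prop) :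
    P₁.pr (fun ω => Q (T₁ ω)) = P₂.pr (fun ω => Q (T₂ ω)) := by
  set I : Finset ι := Finset.univ.image T₁ ∪ Finset.univ.image T₂ with hI
  rw [ent_pr_sum_values P₁ _ T₁ I (fun ω _ _ => by simp [hI]),
    ent_pr_sum_values P₂ _ T₂ I (fun ω _ _ => by simp [hI])]
  refine Finset.sum_congr rfl fun i _ => ?_
  by_cases hi : Q i
  · have e1 : P₁.pr (fun ω => Q (T₁ ω) ∧ T₁ ω = i) = P₁.pr (fun ω => T₁ ω = i) := by
      congr 1
      funext ω
      exact propext ⟨fun h => h.2, fun h => ⟨h ▸ hi, h⟩⟩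
    have e2 : P₂.pr (fun ω => Q (T₂ ω) ∧ T₂ ω = i) = P₂.pr (fun ω => T₂ ω = i) := by
      congr 1
      funext ω
      exact propext ⟨fun h => h.2, fun h => ⟨h ▸ hi, h⟩⟩
    rw [e1, e2, h i]
  · have e1 : P₁.pr (fun ω => Q (T₁ ω) ∧ T₁ ω = i) = 0 :=
      ent_pr_eq_zero P₁ (fun ω _ hc => hi (hc.2 ▸ hc.1))
    have e2 : P₂.pr (fun ω => Q (T₂ ω) ∧ T₂ ω = i) = 0 :=
      ent_pr_eq_zero P₂ (fun ω _ hc => hi (hc.2 ▸ hc.1))
    rw [e1, e2]

/-- `I(T;D) ≥ E log (1 / Pr(cap D))`: cap bounds control the root supremum -/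
theorem tl_tau_le_of_cap (S : CSys) (B γ ε L h : ℝ) (hB : S.Bdd B) (hγ0 : 0 < γ) (hγ1 : γ < 1)
    (h0 : 0 < ε) (h1 : ε < 1) (hL : 0 ≤ L)
    (H : ∀ g : Geo, 0 ≤ g.b → g.b ≤ g.a → g.a ≤ L → S.capPr 1 ε g ≤ ε ^ (wt γ g - h)) :
    S.tau γ ε L ≤ h := by
  refine csSup_le (tl_tau_nonempty S B γ ε L hB h0 h1 hL) ?_
  rintro x ⟨Ω', _, P', T', Γ, D, geo, hT, hcomp, rfl⟩
  have hℓ := tl_lg_pos h0 h1
  set cap : Γ → S.ι → Prop := fun δ i =>
    InRect 1 ε (geo δ).b (geo δ).a (geo δ).th (S.V i - (geo δ).vc) ∧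
      InRect 1 ε (geo δ).b (geo δ).a (geo δ).th (S.A i - (geo δ).xc) with hcap
  have hs : ∀ ω, 0 < P'.p ω → cap (D ω) (T' ω) := fun ω hω => (hcomp ω hω).2.2.2
  have hL3 := R227.ka_mi_ge_cap P' T' D cap hs
  have hπ : ∀ ω, P'.pr (fun ω' => cap (D ω) (T' ω')) = S.capPr 1 ε (geo (D ω)) := fun ω =>
    tl_pr_of_marg P' S.P T' S.T hT (cap (D ω))
  have hpt : ∀ ω, P'.p ω ≠ 0 →
      wt γ (geo (D ω)) - (- Real.log (P'.pr (fun ω' => cap (D ω) (T' ω')))) / lg ε ≤ h := by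
    intro ω hω
    have hω' : 0 < P'.p ω := lt_of_le_of_ne (P'.nonneg ω) (Ne.symm hω)
    obtain ⟨c1, c2, c3, -, -⟩ := hcomp ω hω'
    have hpos : 0 < P'.pr (fun ω' => cap (D ω) (T' ω')) :=
      (ent_pr_pos_iff P' _).2 ⟨ω, hs ω hω', hω⟩
    have hle : P'.pr (fun ω' => cap (D ω) (T' ω')) ≤ ε ^ (wt γ (geo (D ω)) - h) := by
      rw [hπ]
      exact H _ c1 c2 c3
    have hlog := Real.log_le_log hpos hle
    have e : Real.log ε = - lg ε := by
      unfold lg
      rw [one_div, Real.log_inv, neg_neg]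
    rw [Real.log_rpow h0, e] at hlog
    rw [neg_div, sub_neg_eq_add]
    have h3 : Real.log (P'.pr (fun ω' => cap (D ω) (T' ω'))) / lg ε ≤ h - wt γ (geo (D ω)) := by
      rw [div_le_iff₀ hℓ]
      linarith
    linarith
  have h4 : P'.ev (fun ω => wt γ (geo (D ω))) - P'.mi T' D / lg ε
      ≤ P'.ev (fun ω => wt γ (geo (D ω)))
        - P'.ev (fun ω => - Real.log (P'.pr (fun ω' => cap (D ω) (T' ω')))) / lg ε := by
    have := div_le_div_of_nonneg_right hL3 hℓ.le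
    linarith
  refine h4.trans ?_
  have h5 : P'.ev (fun ω => - Real.log (P'.pr (fun ω' => cap (D ω) (T' ω')))) / lg ε
      = P'.ev (fun ω => (- Real.log (P'.pr (fun ω' => cap (D ω) (T' ω')))) / lg ε) := by
    simp only [FLaw.ev, Finset.sum_div, mul_div_assoc]
  rw [h5, ← ent_ev_sub, ← ent_ev_const P' h]
  exact ent_ev_mono P' hpt

/-- cap masses under domination -/
theorem tl_cap_dom (S : CSys) (R : FLaw S.Ω) (A K ε : ℝ) (hR : R.Dom A S.P) (g : Geo) :
    (S.withLaw R).capPr K ε g ≤ A * S.capPr K ε g :=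
  ent_dom_pr hR _

end Claimed.Agent.R255
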