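-- KEEP
import Claimed.Agent.R255.Cl.Tools.Cap

/-!
# Row 255 (BR paper), chapter TOOLS (Sec. 4.1-4.3), finite level: package TL-CAP-2 (Lemma 4.4, greedy cap regularisation)      (chief helper216)

One finite system, one precision `ε`, explicit errors `C / lg ε`.  No limits.  STATEMENTS ARE FROZEN (ask helper216); provers replace the `sorry`s IN PLACE, helper lemmas go above (prefix `tl_`, names must be new).
You may use every statement of the imported files (also sorried ones) and every EARLIER statement of this file.  Entropy calculus: `R255/Ent/Basic.lean`.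

Architecture (helper125): `tl_greedy` (abstract greedy, multiplicative levels) → `tl_greedy_cap` (the same for a system, levels `hv`, everything in terms of `P.pr`);
`tl_bin` (bins of length `δ`), `tl_cap_cover` (a `K`-cap is covered by boundedly many `1`-caps of the same shape), `tl_tau_ge_of_stage` (assigned-cap test),
`tl_cap_prune` (small classes are discarded); glue: `tl_cap_class`, `tl_cap_core`, `tl_cap_regularize`.
-/

set_option autoImplicit false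

namespace Claimed.Agent.R255

open Classical

/-- the particle of `ω` lies in the `K`-cap of `g` (`S.capPr K ε g = S.P.pr (tlCap S K ε g)` by `rfl`) -/
def tlCap (S : CSys) (K ε : ℝ) (g : Geo) (ω : S.Ω) : Prop :=
  InRect K ε g.b g.a g.th (S.V (S.T ω) - g.vc) ∧ InRect K ε g.b g.a g.th (S.A (S.T ω) - g.xc)

/-- **CAP2-A** abstract greedy selection.  `q g` = target size of the cap `g`, levels `Mv` = successive suprema of `μ_rem(cap g) / q g`, near-maximisers up to the factor `c`.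
PROOF: strong induction on `R`.  `M₀ = sSup {μ(R ∩ cap g) / q g}` (`> 0`, `≤ Mmax`), `g₀` with `c M₀ < μ(R ∩ cap g₀) / q g₀`, `E = R ∩ cap g₀ ≠ ∅`, recurse on `R \ E`,
`st i = 0` on `E`, `st' i + 1` off `E`; `gsel 0 = g₀`, `Mv 0 = M₀`.  Last clause: `t ≥ M₀` direct; `t < M₀`: stage `0` is excluded, induction hypothesis. -/
theorem tl_greedy {ι G : Type} (μ : ι → ℝ) (mem : G → ι → Prop) (q : G → ℝ) (c Mmax : ℝ) (g0 : G)
    (hq : ∀ g, 0 < q g) (hc0 : 0 < c) (hc1 : c < 1) (R : Finset ι) (hμ : ∀ i ∈ R, 0 < μ i)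
    (hcov : ∀ i ∈ R, ∃ g, mem g i)
    (hM : ∀ g, ∑ j ∈ R.filter (fun j => mem g j), μ j ≤ Mmax * q g) :
    ∃ (st : ι → ℕ) (gsel : ℕ → G) (Mv : ℕ → ℝ),
      (∀ i ∈ R, mem (gsel (st i)) i ∧ 0 < Mv (st i) ∧ Mv (st i) ≤ Mmax ∧
        c * Mv (st i) * q (gsel (st i)) ≤ ∑ j ∈ R.filter (fun j => st j = st i), μ j) ∧
      ∀ (t : ℝ) (g : G), 0 ≤ t →
        ∑ i ∈ R.filter (fun i => Mv (st i) ≤ t ∧ mem g i), μ i ≤ t * q g := by
  induction R using Finset.strongInduction with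
  | H R ih =>
    rcases R.eq_empty_or_nonempty with rfl | hne
    · refine ⟨fun _ => 0, fun _ => g0, fun _ => 0, by simp, ?_⟩
      intro t g ht
      simp only [Finset.filter_empty, Finset.sum_empty]
      exact mul_nonneg ht (hq g).le
    · have hbdd : BddAbove (Set.range (fun g => (∑ j ∈ R.filter (fun j => mem g j), μ j) / q g)) :=
        ⟨Mmax, by rintro _ ⟨g, rfl⟩; exact (div_le_iff₀ (hq g)).2 (hM g)⟩
      have hAne : (Set.range (fun g => (∑ j ∈ R.filter (fun j => mem g j), μ j) / q g)).Nonempty :=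
        ⟨_, ⟨g0, rfl⟩⟩
      obtain ⟨M₀, hM₀⟩ : ∃ M₀, M₀ = sSup (Set.range (fun g => (∑ j ∈ R.filter (fun j => mem g j), μ j) / q g)) :=
        ⟨_, rfl⟩
      have hle : ∀ g, ∑ j ∈ R.filter (fun j => mem g j), μ j ≤ M₀ * q g := fun g =>
        (div_le_iff₀ (hq g)).1 (hM₀ ▸ le_csSup hbdd ⟨g, rfl⟩)
      have hM₀pos : 0 < M₀ := by
        obtain ⟨i, hi⟩ := hne
        obtain ⟨g, hg⟩ := hcov i hi
        have h1 : 0 < ∑ j ∈ R.filter (fun j => mem g j), μ j :=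
          Finset.sum_pos (fun j hj => hμ j (Finset.mem_filter.1 hj).1) ⟨i, Finset.mem_filter.2 ⟨hi, hg⟩⟩
        have h2 := hle g
        by_contra hcon
        rw [not_lt] at hcon
        nlinarith [hq g]
      have hM₀le : M₀ ≤ Mmax := by
        rw [hM₀]
        exact csSup_le hAne (by rintro _ ⟨g, rfl⟩; exact (div_le_iff₀ (hq g)).2 (hM g))
      obtain ⟨_, ⟨g₁, rfl⟩, hg₁⟩ := exists_lt_of_lt_csSup hAne
        (show c * M₀ < sSup _ by rw [← hM₀]; nlinarith)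
      have hmg₁ : c * M₀ * q g₁ < ∑ j ∈ R.filter (fun j => mem g₁ j), μ j := (lt_div_iff₀ (hq g₁)).1 hg₁
      have hEne : (R.filter (fun j => mem g₁ j)).Nonempty := by
        by_contra hcon
        rw [Finset.not_nonempty_iff_eq_empty] at hcon
        rw [hcon, Finset.sum_empty] at hmg₁
        have : 0 < c * M₀ * q g₁ := mul_pos (mul_pos hc0 hM₀pos) (hq g₁)
        linarith
      have hsub : R.filter (fun j => ¬ mem g₁ j) ⊂ R := by
        refine ⟨Finset.filter_subset _ _, ?_⟩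
        intro hcon
        obtain ⟨i, hi⟩ := hEne
        have h1 := hcon (Finset.mem_filter.1 hi).1
        exact (Finset.mem_filter.1 h1).2 (Finset.mem_filter.1 hi).2
      obtain ⟨st', gsel', Mv', h1, h2⟩ := ih (R.filter (fun j => ¬ mem g₁ j)) hsub
        (fun i hi => hμ i (Finset.mem_filter.1 hi).1) (fun i hi => hcov i (Finset.mem_filter.1 hi).1)
        (fun g => le_trans (Finset.sum_le_sum_of_subset_of_nonneg
          (by
            intro j hj
            rw [Finset.mem_filter] at hj ⊢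
            exact ⟨(Finset.mem_filter.1 hj.1).1, hj.2⟩)
          (fun j hj _ => (hμ j (Finset.mem_filter.1 hj).1).le)) (hM g))
      refine ⟨fun i => if mem g₁ i then 0 else st' i + 1, fun k => Nat.casesOn k g₁ gsel',
        fun k => Nat.casesOn k M₀ Mv', ?_, ?_⟩
      · intro i hi
        by_cases hig : mem g₁ i
        · simp only [hig, if_true]
          refine ⟨hig, hM₀pos, hM₀le, ?_⟩
          refine hmg₁.le.trans (le_of_eq ?_)
          apply Finset.sum_congr _ (fun _ _ => rfl)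
          ext j
          simp only [Finset.mem_filter]
          constructor
          · rintro ⟨a, b⟩
            exact ⟨a, by simp [b]⟩
          · rintro ⟨a, b⟩
            refine ⟨a, ?_⟩
            by_contra hcon
            simp [hcon] at b
        · simp only [hig, if_false]
          obtain ⟨a1, a2, a3, a4⟩ := h1 i (Finset.mem_filter.2 ⟨hi, hig⟩)
          refine ⟨a1, a2, a3, ?_⟩
          refine a4.trans (le_of_eq ?_)
          apply Finset.sum_congr _ (fun _ _ => rfl)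
          ext j
          simp only [Finset.mem_filter]
          constructor
          · rintro ⟨⟨a, b⟩, d⟩
            exact ⟨a, by simp [b, d]⟩
          · rintro ⟨a, b⟩
            by_cases hj : mem g₁ j
            · simp [hj] at b
            · simp only [hj, if_false, add_left_inj] at b
              exact ⟨⟨a, hj⟩, b⟩
      · intro t g ht
        by_cases htM : M₀ ≤ t
        · calc ∑ i ∈ R.filter (fun i => (Nat.casesOn (motive := fun _ => ℝ) (if mem g₁ i then 0 else st' i + 1) M₀ Mv') ≤ t ∧ mem g i), μ i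
              ≤ ∑ j ∈ R.filter (fun j => mem g j), μ j := by
                apply Finset.sum_le_sum_of_subset_of_nonneg
                · intro j hj
                  rw [Finset.mem_filter] at hj ⊢
                  exact ⟨hj.1, hj.2.2⟩
                · intro j hj _
                  exact (hμ j (Finset.mem_filter.1 hj).1).le
            _ ≤ M₀ * q g := hle g
            _ ≤ t * q g := mul_le_mul_of_nonneg_right htM (hq g).le
        · refine le_trans (le_of_eq ?_) (h2 t g ht)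
          apply Finset.sum_congr _ (fun _ _ => rfl)
          ext j
          simp only [Finset.mem_filter]
          constructor
          · rintro ⟨a, b, d⟩
            by_cases hj : mem g₁ j
            · simp only [hj, if_true] at b
              exact absurd b htM
            · simp only [hj, if_false] at b
              exact ⟨⟨a, hj⟩, b, d⟩
          · rintro ⟨⟨a, hj⟩, b, d⟩
            refine ⟨a, ?_, d⟩
            simp only [hj, if_false]
            exact b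

/-- **CAP2-B** the greedy selection for a system.  `st` = stage of the particle, `gsel` = the cap selected at a stage, `hv` = level of the stage.
PROOF: `tl_greedy` with `ι = S.ι`, `G = Geo`, `μ i = S.P.pr (T = i)`, `R` = image of the support under `T`, `mem g i` = (`0 ≤ b ≤ a ≤ L` and `i` in the `1`-cap), `q g = ε ^ wt γ g`, `c = ε ^ δ`,
`Mmax = ε ^ (-(2 L))` (`wt γ g ≤ 2 L`), `hv k = - log (Mv k) / log ε` (so `Mv k = ε ^ (- hv k)`); `P.pr (F ∘ T) = ∑ i ∈ R with F i, μ i` (`ent_pr_sum_values`);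
covering: the cap `⟨0,0,0,0,V i,A i⟩`. -/
theorem tl_greedy_cap (S : CSys) (γ ε L δ : ℝ) (hγ0 : 0 < γ) (hγ1 : γ < 1) (h0 : 0 < ε) (h1 : ε < 1)
    (hL : 0 ≤ L) (hδ : 0 < δ) :
    ∃ (st : S.ι → ℕ) (gsel : ℕ → Geo) (hv : ℕ → ℝ),
      (∀ ω, S.P.p ω ≠ 0 →
        (gsel (st (S.T ω))).RootCompat 1 ε L (S.V (S.T ω)) (S.A (S.T ω)) ∧ hv (st (S.T ω)) ≤ 2 * L ∧
        ε ^ (wt γ (gsel (st (S.T ω))) - hv (st (S.T ω)) + δ)
          ≤ S.P.pr (fun ω' => st (S.T ω') = st (S.T ω))) ∧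
      ∀ (t : ℝ) (g : Geo), 0 ≤ g.b → g.b ≤ g.a → g.a ≤ L →
        S.P.pr (fun ω => hv (st (S.T ω)) ≤ t ∧ tlCap S 1 ε g ω) ≤ ε ^ (wt γ g - t) := by
  obtain ⟨R, hR⟩ : ∃ R : Finset S.ι, R = (Finset.univ.filter (fun ω => S.P.p ω ≠ 0)).image S.T := ⟨_, rfl⟩
  have hTR : ∀ ω, S.P.p ω ≠ 0 → S.T ω ∈ R := by
    intro ω hω
    rw [hR]
    exact Finset.mem_image.2 ⟨ω, Finset.mem_filter.2 ⟨Finset.mem_univ _, hω⟩, rfl⟩
  have hbr : ∀ (F : S.ι → Prop) (inst : DecidablePred F), S.P.pr (fun ω => F (S.T ω))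
      = ∑ i ∈ @Finset.filter _ F inst R, S.P.pr (fun ω => S.T ω = i) := by
    intro F inst
    rw [ent_pr_sum_values S.P (fun ω => F (S.T ω)) S.T R (fun ω hω _ => hTR ω hω), Finset.sum_filter]
    apply Finset.sum_congr rfl
    intro i _
    split_ifs with hF
    · apply ent_pr_congr
      intro ω _
      constructor
      · exact fun h => h.2
      · intro h
        exact ⟨h ▸ hF, h⟩
    · apply ent_pr_eq_zero
      intro ω _ h
      exact hF (h.2 ▸ h.1)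
  have hμpos : ∀ i ∈ R, 0 < S.P.pr (fun ω => S.T ω = i) := by
    intro i hi
    rw [hR] at hi
    obtain ⟨ω, hω, rfl⟩ := Finset.mem_image.1 hi
    exact (ent_pr_pos_iff _ _).2 ⟨ω, rfl, (Finset.mem_filter.1 hω).2⟩
  have hlogε : Real.log ε < 0 := Real.log_neg h0 h1
  obtain ⟨mem, hmem⟩ : ∃ mem : Geo → S.ι → Prop, ∀ g i, mem g i ↔
      ((0 ≤ g.b ∧ g.b ≤ g.a ∧ g.a ≤ L) ∧ InRect 1 ε g.b g.a g.th (S.V i - g.vc) ∧
      InRect 1 ε g.b g.a g.th (S.A i - g.xc)) := ⟨_, fun _ _ => Iff.rfl⟩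
  obtain ⟨st, gsel, Mv, hA, hB⟩ := tl_greedy (fun i => S.P.pr (fun ω => S.T ω = i)) mem
    (fun g => ε ^ wt γ g) (ε ^ δ) (ε ^ (-(2 * L))) ⟨0, 0, 0, 0, (0, 0), (0, 0)⟩
    (fun g => Real.rpow_pos_of_pos h0 _) (Real.rpow_pos_of_pos h0 _) (Real.rpow_lt_one h0.le h1 hδ) R hμpos
    (by
      intro i _
      refine ⟨⟨0, 0, 0, 0, S.V i, S.A i⟩, (hmem _ _).2 ⟨⟨le_refl _, le_refl _, hL⟩, ?_, ?_⟩⟩ <;>
      simp [InRect, ip])
    (by
      intro g
      by_cases hadm : 0 ≤ g.b ∧ g.b ≤ g.a ∧ g.a ≤ L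
      · rw [← hbr, ← Real.rpow_add h0]
        refine (ent_pr_le_one _ _).trans (Real.one_le_rpow_of_pos_of_le_one_of_nonpos h0 h1.le ?_)
        obtain ⟨a1, a2, a3⟩ := hadm
        unfold wt
        nlinarith
      · rw [Finset.filter_false_of_mem (by
          intro j _ hj
          exact hadm ((hmem _ _).1 hj).1), Finset.sum_empty]
        positivity)
  have hpow : ∀ k, 0 < Mv k → ε ^ (-(- Real.log (Mv k) / Real.log ε)) = Mv k := by
    intro k hk
    rw [Real.rpow_def_of_pos h0]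
    have : Real.log ε * -(-Real.log (Mv k) / Real.log ε) = Real.log (Mv k) := by
      field_simp [hlogε.ne]
    rw [this, Real.exp_log hk]
  refine ⟨st, gsel, fun k => - Real.log (Mv k) / Real.log ε, ?_, ?_⟩
  · intro ω hω
    obtain ⟨a0, b1, b2, b3⟩ := hA (S.T ω) (hTR ω hω)
    obtain ⟨⟨a1, a2, a3⟩, a4, a5⟩ := (hmem _ _).1 a0
    refine ⟨⟨a1, a2, a3, a4, a5⟩, ?_, ?_⟩
    · have h3 := hpow _ b1
      rw [← h3] at b2
      have h4 := (Real.rpow_le_rpow_left_iff_of_base_lt_one h0 h1).1 b2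
      simp only at h4 ⊢
      linarith
    · rw [hbr (fun i => st i = st (S.T ω))]
      refine le_trans (le_of_eq ?_) b3
      have h3 := hpow _ b1
      simp only
      rw [← h3, ← Real.rpow_add h0, ← Real.rpow_add h0]
      rw [h3]
      congr 1
      ring
  · intro t g hb hba haL
    have h3 := hB (ε ^ (-t)) g (Real.rpow_pos_of_pos h0 _).le
    rw [← Real.rpow_add h0] at h3
    have h4 : -t + wt γ g = wt γ g - t := by ring
    rw [h4] at h3
    refine le_trans ?_ h3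
    rw [← hbr]
    apply ent_pr_mono
    intro ω hω hE
    obtain ⟨c1, c2, c3⟩ := hE
    refine ⟨?_, (hmem _ _).2 ⟨⟨hb, hba, haL⟩, c2, c3⟩⟩
    rw [← hpow _ (hA _ (hTR ω hω)).2.1]
    exact Real.rpow_le_rpow_of_exponent_ge h0 h1.le (by linarith)

/-- **CAP2-C** bins of length `δ` of `[-1, Hmax]`; class `0` = outside.  (`N = ⌊(Hmax+1)/δ⌋₊ + 1`, `bn x = ⌊(x+1)/δ⌋₊ + 1`.) -/
theorem tl_bin (δ Hmax : ℝ) (hδ : 0 < δ) :
    ∃ (N : ℕ) (bn : ℝ → Fin (N + 1)), 0 < N ∧ (∀ x, bn x = 0 → x < -1 ∨ Hmax < x) ∧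
      ∀ z, z ≠ 0 → ∃ h : ℝ, ∀ x, bn x = z → h ≤ x ∧ x < h + δ := by
  have hfl : ∀ x : ℝ, -1 ≤ x ∧ x ≤ Hmax → ⌊(x + 1) / δ⌋₊ + 1 < ⌊(Hmax + 1) / δ⌋₊ + 1 + 1 := by
    intro x hx
    have : ⌊(x + 1) / δ⌋₊ ≤ ⌊(Hmax + 1) / δ⌋₊ :=
      Nat.floor_mono (div_le_div_of_nonneg_right (by linarith [hx.2]) hδ.le)
    omega
  refine ⟨⌊(Hmax + 1) / δ⌋₊ + 1,
    fun x => if hx : -1 ≤ x ∧ x ≤ Hmax then ⟨⌊(x + 1) / δ⌋₊ + 1, hfl x hx⟩ else 0, Nat.succ_pos _, ?_, ?_⟩
  · intro x hx0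
    by_cases hx : -1 ≤ x ∧ x ≤ Hmax
    · simp only [hx, and_self, dif_pos] at hx0
      have := congrArg Fin.val hx0
      simp at this
    · by_contra hcon
      rw [not_or, not_lt, not_lt] at hcon
      exact hx hcon
  · intro z hz
    refine ⟨-1 + ((z.val : ℝ) - 1) * δ, ?_⟩
    intro x hxz
    by_cases hx : -1 ≤ x ∧ x ≤ Hmax
    · simp only [hx, and_self, dif_pos] at hxz
      have h1 := congrArg Fin.val hxz
      simp only at h1
      have h2 : ((z.val : ℝ) - 1) = (⌊(x + 1) / δ⌋₊ : ℝ) := by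
        rw [← h1]
        push_cast
        ring
      rw [h2]
      have h3 : (⌊(x + 1) / δ⌋₊ : ℝ) ≤ (x + 1) / δ := Nat.floor_le (div_nonneg (by linarith [hx.1]) hδ.le)
      have h4 : (x + 1) / δ < (⌊(x + 1) / δ⌋₊ : ℝ) + 1 := Nat.lt_floor_add_one _
      rw [le_div_iff₀ hδ] at h3
      rw [div_lt_iff₀ hδ] at h4
      constructor <;> linarith
    · simp only [hx, dif_neg, not_false_eq_true] at hxz
      exact absurd hxz.symm hz

/-- one-dimensional cover by translates with integer multiples of the half-length -/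
theorem tl_cover_1d (K s x : ℝ) (hs : 0 < s) (hx : |x| ≤ K * s) :
    ∃ j ∈ Finset.Icc (-((⌈K⌉₊ : ℤ) + 1)) ((⌈K⌉₊ : ℤ) + 1), |x - (j : ℝ) * s| ≤ 1 * s := by
  have h1 : |x / s - round (x / s)| ≤ 1 / 2 := abs_sub_round _
  have h2 : |x / s| ≤ K := by
    rw [abs_div, abs_of_pos hs, div_le_iff₀ hs]
    exact hx
  have h3 : K ≤ (⌈K⌉₊ : ℝ) := Nat.le_ceil K
  rw [abs_le] at h1 h2
  refine ⟨round (x / s), ?_, ?_⟩
  · rw [Finset.mem_Icc]
    constructor
    · have : ((-((⌈K⌉₊ : ℤ) + 1) : ℤ) : ℝ) ≤ ((round (x / s) : ℤ) : ℝ) := by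
        push_cast
        linarith [h1.1, h1.2, h2.1, h2.2]
      exact_mod_cast this
    · have : ((round (x / s) : ℤ) : ℝ) ≤ ((((⌈K⌉₊ : ℤ) + 1) : ℤ) : ℝ) := by
        push_cast
        linarith [h1.1, h1.2, h2.1, h2.2]
      exact_mod_cast this
  · have h4 : x - (round (x / s) : ℝ) * s = (x / s - round (x / s)) * s := by
      field_simp
    rw [h4, abs_mul, abs_of_pos hs]
    apply mul_le_mul_of_nonneg_right _ hs.le
    rw [abs_le]
    constructor <;> linarith [h1.1, h1.2]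

theorem tl_ip_shift_tang (z : ℝ × ℝ) (th α β : ℝ) :
    ip (z - (α • tang th + β • nrm th)) (tang th) = ip z (tang th) - α := by
  simp only [ip, tang, nrm, Prod.fst_sub, Prod.snd_sub, Prod.fst_add, Prod.snd_add, Prod.smul_fst,
    Prod.smul_snd, smul_eq_mul]
  linear_combination (-α) * Real.cos_sq_add_sin_sq th

theorem tl_ip_shift_nrm (z : ℝ × ℝ) (th α β : ℝ) :
    ip (z - (α • tang th + β • nrm th)) (nrm th) = ip z (nrm th) - β := by
  simp only [ip, tang, nrm, Prod.fst_sub, Prod.snd_sub, Prod.fst_add, Prod.snd_add, Prod.smul_fst,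
    Prod.smul_snd, smul_eq_mul]
  linear_combination (-β) * Real.cos_sq_add_sin_sq th

/-- a `K`-rectangle is covered by translated `1`-rectangles -/
theorem tl_inRect_cover (K ε b a th : ℝ) (z : ℝ × ℝ) (h0 : 0 < ε) (h : InRect K ε b a th z) :
    ∃ j₁ ∈ Finset.Icc (-((⌈K⌉₊ : ℤ) + 1)) ((⌈K⌉₊ : ℤ) + 1),
      ∃ j₂ ∈ Finset.Icc (-((⌈K⌉₊ : ℤ) + 1)) ((⌈K⌉₊ : ℤ) + 1),
        InRect 1 ε b a th (z - (((j₁ : ℝ) * ε ^ b) • tang th + ((j₂ : ℝ) * ε ^ a) • nrm th)) := by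
  obtain ⟨j₁, hj₁, h1⟩ := tl_cover_1d K (ε ^ b) _ (Real.rpow_pos_of_pos h0 _) h.1
  obtain ⟨j₂, hj₂, h2⟩ := tl_cover_1d K (ε ^ a) _ (Real.rpow_pos_of_pos h0 _) h.2
  refine ⟨j₁, hj₁, j₂, hj₂, ?_, ?_⟩
  · rw [tl_ip_shift_tang]
    exact h1
  · rw [tl_ip_shift_nrm]
    exact h2

/-- **CAP2-D** a `K`-cap is covered by boundedly many `1`-caps of the same shape (centres translated by integer multiples of the sides: `round`; `m = ⌈K⌉₊ + 1`, `M = (2m+1)^4`). -/
theorem tl_cap_cover (K : ℝ) : ∃ M : ℕ, ∀ (ε : ℝ) (g : Geo), 0 < ε →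
    ∃ s : Finset Geo, s.card ≤ M ∧ (∀ g' ∈ s, g'.b = g.b ∧ g'.a = g.a) ∧
      ∀ V A : ℝ × ℝ, InRect K ε g.b g.a g.th (V - g.vc) → InRect K ε g.b g.a g.th (A - g.xc) →
        ∃ g' ∈ s, InRect 1 ε g'.b g'.a g'.th (V - g'.vc) ∧ InRect 1 ε g'.b g'.a g'.th (A - g'.xc) := by
  obtain ⟨J, hJ⟩ : ∃ J : Finset ℤ, J = Finset.Icc (-((⌈K⌉₊ : ℤ) + 1)) ((⌈K⌉₊ : ℤ) + 1) := ⟨_, rfl⟩
  refine ⟨(J ×ˢ J ×ˢ J ×ˢ J).card, ?_⟩
  intro ε g h0
  refine ⟨(J ×ˢ J ×ˢ J ×ˢ J).image (fun j : ℤ × ℤ × ℤ × ℤ =>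
    ({ g with
      vc := g.vc + (((j.1 : ℝ) * ε ^ g.b) • tang g.th + ((j.2.1 : ℝ) * ε ^ g.a) • nrm g.th)
      xc := g.xc + (((j.2.2.1 : ℝ) * ε ^ g.b) • tang g.th + ((j.2.2.2 : ℝ) * ε ^ g.a) • nrm g.th) } : Geo)),
    Finset.card_image_le, ?_, ?_⟩
  · intro g' hg'
    obtain ⟨j, _, rfl⟩ := Finset.mem_image.1 hg'
    exact ⟨rfl, rfl⟩
  · intro V A hV hA
    obtain ⟨j₁, hj₁, j₂, hj₂, h1⟩ := tl_inRect_cover K ε g.b g.a g.th _ h0 hV
    obtain ⟨j₃, hj₃, j₄, hj₄, h2⟩ := tl_inRect_cover K ε g.b g.a g.th _ h0 hA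
    rw [← hJ] at hj₁ hj₂ hj₃ hj₄
    refine ⟨_, Finset.mem_image.2 ⟨(j₁, j₂, j₃, j₄), ?_, rfl⟩, ?_, ?_⟩
    · simp only [Finset.mem_product]
      exact ⟨hj₁, hj₂, hj₃, hj₄⟩
    · simp only
      rw [sub_add_eq_sub_sub]
      exact h1
    · simp only
      rw [sub_add_eq_sub_sub]
      exact h2

/-- **CAP2-E** the assigned-cap test.  `D` = a function of the particle, `gsel (D ω)` a root cap of the particle, the fibres of `D` inside `E` have mass `≥ ε^(w - h + δ)`.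
PROOF: the test `(S.Ω, S.P.cnd E, S.T, D, gsel)` belongs to `tauSet` (`le_csSup`, `tl_tau_bddAbove`); `mi T D = ent D` (`ent_pair_of_ker`); `ent D = ev (- log fib)`,
`fib = P(E ∧ D = D ω) / P E` (`ent_cnd_pr`), so `- log fib ≤ ℓ (w - h + δ) + log (P E)`. -/
theorem tl_tau_ge_of_stage (S : CSys) (γ ε L δ h : ℝ) (hγ0 : 0 < γ) (hγ1 : γ < 1) (h0 : 0 < ε) (h1 : ε < 1)
    (E : S.Ω → Prop) (hE : 0 < S.P.pr E) (D : S.Ω → ℕ) (gsel : ℕ → Geo)
    (hD : ∀ ω ω', S.T ω = S.T ω' → D ω = D ω')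
    (hcomp : ∀ ω, S.P.p ω ≠ 0 → E ω → (gsel (D ω)).RootCompat 1 ε L (S.V (S.T ω)) (S.A (S.T ω)))
    (hmass : ∀ ω, S.P.p ω ≠ 0 → E ω →
      ε ^ (wt γ (gsel (D ω)) - h + δ) ≤ S.P.pr (fun ω' => E ω' ∧ D ω' = D ω)) :
    h - δ + Real.log (1 / S.P.pr E) / lg ε ≤ (S.condOn E).tau γ ε L := by
  have hl : 0 < lg ε := by
    unfold lg
    exact Real.log_pos (by rw [lt_div_iff₀ h0]; linarith)
  have hlog : Real.log ε = - lg ε := by
    unfold lg
    rw [one_div, Real.log_inv, neg_neg]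
  have hmemb : (S.P.cnd E).ev (fun ω => wt γ (gsel (D ω))) - (S.P.cnd E).mi S.T D / lg ε
      ∈ (S.condOn E).tauSet γ ε L := by
    refine ⟨S.Ω, S.fin, S.P.cnd E, S.T, ℕ, D, gsel, fun i => rfl, ?_, rfl⟩
    intro ω hω
    obtain ⟨hEω, hpω⟩ := (ent_cnd_supp S.P E hE).1 hω.ne'
    exact hcomp ω hpω hEω
  have hbdd : BddAbove ((S.condOn E).tauSet γ ε L) := ⟨2 * L, tl_tau_bddAbove _ γ ε L hγ0 hγ1 h0 h1⟩
  refine le_trans ?_ (le_csSup hbdd hmemb)
  have hmi : (S.P.cnd E).mi S.T D = (S.P.cnd E).ent D := by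
    unfold FLaw.mi
    rw [ent_pair_of_ker (S.P.cnd E) S.T D (fun ω ω' _ _ e => hD ω ω' e)]
    ring
  rw [hmi]
  have hent : (S.P.cnd E).ent D
      ≤ (S.P.cnd E).ev (fun ω => lg ε * wt γ (gsel (D ω)) + (lg ε * (δ - h) + Real.log (S.P.pr E))) := by
    unfold FLaw.ent
    apply ent_ev_mono
    intro ω hω
    obtain ⟨hEω, hpω⟩ := (ent_cnd_supp S.P E hE).1 hω
    have hf : (S.P.cnd E).fib D ω = S.P.pr (fun ω' => E ω' ∧ D ω' = D ω) / S.P.pr E :=
      ent_cnd_pr S.P E hE _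
    rw [hf]
    have hm := hmass ω hpω hEω
    have hpos : 0 < ε ^ (wt γ (gsel (D ω)) - h + δ) := Real.rpow_pos_of_pos h0 _
    rw [Real.log_div (ne_of_gt (lt_of_lt_of_le hpos hm)) hE.ne']
    have h3 := Real.log_le_log hpos hm
    rw [Real.log_rpow h0, hlog] at h3
    nlinarith
  rw [ent_ev_add, ent_ev_mul_left, ent_ev_const] at hent
  have h4 : (S.P.cnd E).ent D / lg ε
      ≤ (S.P.cnd E).ev (fun ω => wt γ (gsel (D ω))) + (δ - h) + Real.log (S.P.pr E) / lg ε := by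
    rw [div_le_iff₀ hl]
    have : ((S.P.cnd E).ev (fun ω => wt γ (gsel (D ω))) + (δ - h) + Real.log (S.P.pr E) / lg ε) * lg ε
        = lg ε * (S.P.cnd E).ev (fun ω => wt γ (gsel (D ω))) + (lg ε * (δ - h) + Real.log (S.P.pr E)) := by
      field_simp
      ring
    rw [this]
    exact hent
  have h5 : Real.log (1 / S.P.pr E) / lg ε = - (Real.log (S.P.pr E) / lg ε) := by
    rw [one_div, Real.log_inv]
    ring
  rw [h5]
  linarith

/-- **CAP2-F** classes of mass `< θ/(2N)` are moved to class `0`.  (`Z i = if θ/(2N) ≤ P(Z₀ ∘ T = Z₀ i) then Z₀ i else 0`.) -/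
theorem tl_cap_prune {Ω ι : Type} [Fintype Ω] (P : FLaw Ω) (T : Ω → ι) (N : ℕ) (hN : 0 < N) (θ : ℝ)
    (hθ : 0 < θ) (Z₀ : ι → Fin (N + 1)) (h0 : P.pr (fun ω => Z₀ (T ω) = 0) ≤ θ / 2) :
    ∃ Z : ι → Fin (N + 1), P.pr (fun ω => Z (T ω) = 0) ≤ θ ∧
      ∀ z : Fin (N + 1), z ≠ 0 → 0 < P.pr (fun ω => Z (T ω) = z) →
        θ / (2 * N) ≤ P.pr (fun ω => Z (T ω) = z) ∧
          (fun ω => Z (T ω) = z) = (fun ω => Z₀ (T ω) = z) := by
  obtain ⟨big, hbig⟩ : ∃ big : Fin (N + 1) → Prop,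
      ∀ z, big z ↔ θ / (2 * N) ≤ P.pr (fun ω => Z₀ (T ω) = z) := ⟨_, fun _ => Iff.rfl⟩
  refine ⟨fun i => if big (Z₀ i) then Z₀ i else 0, ?_, ?_⟩
  · have h1 : P.pr (fun ω => (if big (Z₀ (T ω)) then Z₀ (T ω) else 0) = 0)
        ≤ P.pr (fun ω => Z₀ (T ω) = 0 ∨
          ∃ z ∈ (Finset.univ.filter (fun z : Fin (N + 1) => z ≠ 0 ∧ ¬ big z)), Z₀ (T ω) = z) := by
      apply ent_pr_mono
      intro ω _ h
      by_cases hz : Z₀ (T ω) = 0
      · left
        exact hz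
      · by_cases hb : big (Z₀ (T ω))
        · left
          simpa [hb] using h
        · right
          exact ⟨_, Finset.mem_filter.2 ⟨Finset.mem_univ _, hz, hb⟩, rfl⟩
    refine h1.trans ((ent_pr_or_le _ _ _).trans ?_)
    have hcard : (Finset.univ.filter (fun z : Fin (N + 1) => z ≠ 0 ∧ ¬ big z)).card ≤ N := by
      have h3 : (Finset.univ.filter (fun z : Fin (N + 1) => z ≠ 0 ∧ ¬ big z))
          ⊆ (Finset.univ : Finset (Fin (N + 1))).erase 0 := by
        intro z hz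
        exact Finset.mem_erase.2 ⟨(Finset.mem_filter.1 hz).2.1, Finset.mem_univ _⟩
      have h4 := Finset.card_le_card h3
      rw [Finset.card_erase_of_mem (Finset.mem_univ _), Finset.card_univ, Fintype.card_fin] at h4
      simpa using h4
    have hNpos : (0:ℝ) < N := by exact_mod_cast hN
    have h2 : P.pr (fun ω => ∃ z ∈ (Finset.univ.filter (fun z : Fin (N + 1) => z ≠ 0 ∧ ¬ big z)),
        Z₀ (T ω) = z) ≤ θ / 2 := by
      refine (ent_pr_exists_le P _ (fun z ω => Z₀ (T ω) = z)).trans ?_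
      calc ∑ z ∈ (Finset.univ.filter (fun z : Fin (N + 1) => z ≠ 0 ∧ ¬ big z)), P.pr (fun ω => Z₀ (T ω) = z)
          ≤ ∑ _z ∈ (Finset.univ.filter (fun z : Fin (N + 1) => z ≠ 0 ∧ ¬ big z)), θ / (2 * N) :=
            Finset.sum_le_sum (fun z hz =>
              le_of_lt (not_le.1 (mt (hbig z).2 (Finset.mem_filter.1 hz).2.2)))
        _ = ((Finset.univ.filter (fun z : Fin (N + 1) => z ≠ 0 ∧ ¬ big z)).card : ℝ) * (θ / (2 * N)) := by
            simp
        _ ≤ N * (θ / (2 * N)) :=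
            mul_le_mul_of_nonneg_right (by exact_mod_cast hcard) (by positivity)
        _ = θ / 2 := by
            field_simp
    linarith
  · intro z hz hpos
    obtain ⟨ω, hω, _⟩ := (ent_pr_pos_iff _ _).1 hpos
    have hbz : big z := by
      by_cases hb : big (Z₀ (T ω))
      · simp only [hb, if_true] at hω
        rw [← hω]
        exact hb
      · simp only [hb, if_false] at hω
        exact absurd hω.symm hz
    have heq : (fun ω => (if big (Z₀ (T ω)) then Z₀ (T ω) else 0) = z) = (fun ω => Z₀ (T ω) = z) := by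
      funext ω'
      apply propext
      constructor
      · intro h
        by_cases hb : big (Z₀ (T ω'))
        · simpa only [hb, if_true] using h
        · simp only [hb, if_false] at h
          exact absurd h.symm hz
      · intro h
        rw [h]
        simp only [hbz, if_true]
    refine ⟨?_, heq⟩
    rw [heq]
    exact (hbig z).1 hbz

/-- **CAP2-G** union bound over a cover by `1`-caps -/
theorem tl_pr_cap_cover (S : CSys) (Q : FLaw S.Ω) (K ε x : ℝ) (M : ℕ) (g : Geo) (F : S.Ω → Prop) (s : Finset Geo)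
    (hx : 0 ≤ x) (hs : s.card ≤ M)
    (hcov : ∀ V A : ℝ × ℝ, InRect K ε g.b g.a g.th (V - g.vc) → InRect K ε g.b g.a g.th (A - g.xc) →
        ∃ g' ∈ s, InRect 1 ε g'.b g'.a g'.th (V - g'.vc) ∧ InRect 1 ε g'.b g'.a g'.th (A - g'.xc))
    (hb : ∀ g' ∈ s, Q.pr (fun ω => F ω ∧ tlCap S 1 ε g' ω) ≤ x) :
    Q.pr (fun ω => F ω ∧ tlCap S K ε g ω) ≤ M * x := by
  calc Q.pr (fun ω => F ω ∧ tlCap S K ε g ω)
      ≤ Q.pr (fun ω => ∃ g' ∈ s, (F ω ∧ tlCap S 1 ε g' ω)) := by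
        apply ent_pr_mono
        intro ω _ h
        obtain ⟨g', hg', h1, h2⟩ := hcov _ _ h.2.1 h.2.2
        exact ⟨g', hg', h.1, h1, h2⟩
    _ ≤ ∑ g' ∈ s, Q.pr (fun ω => F ω ∧ tlCap S 1 ε g' ω) :=
        ent_pr_exists_le Q s (fun g' ω => F ω ∧ tlCap S 1 ε g' ω)
    _ ≤ ∑ _g' ∈ s, x := Finset.sum_le_sum hb
    _ = s.card * x := by simp
    _ ≤ M * x := mul_le_mul_of_nonneg_right (by exact_mod_cast hs) hx

/-- **CAP2-H** one class of the greedy selection: `1`-caps. -/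
theorem tl_cap_class (S : CSys) (γ ε L δ h : ℝ) (hγ0 : 0 < γ) (hγ1 : γ < 1) (h0 : 0 < ε) (h1 : ε < 1)
    (E : S.Ω → Prop) (hE : 0 < S.P.pr E)
    (hlow : h - δ + Real.log (1 / S.P.pr E) / lg ε ≤ (S.condOn E).tau γ ε L) (g : Geo)
    (hup : S.P.pr (fun ω => E ω ∧ tlCap S 1 ε g ω) ≤ ε ^ (wt γ g - (h + δ))) :
    (S.condOn E).capPr 1 ε g ≤ ε ^ (wt γ g - (S.condOn E).tau γ ε L - 2 * δ) := by
  have e : (S.condOn E).capPr 1 ε g = (S.P.cnd E).pr (tlCap S 1 ε g) := rfl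
  rw [e, ent_cnd_pr S.P E hE]
  have hl : 0 < lg ε := by
    unfold lg
    exact Real.log_pos (by rw [lt_div_iff₀ h0]; linarith)
  have hlog : Real.log ε = - lg ε := by
    unfold lg
    rw [one_div, Real.log_inv, neg_neg]
  have h2 : ε ^ (wt γ g - (h - δ + Real.log (1 / S.P.pr E) / lg ε) - 2 * δ)
      ≤ ε ^ (wt γ g - (S.condOn E).tau γ ε L - 2 * δ) :=
    Real.rpow_le_rpow_of_exponent_ge h0 h1.le (by linarith)
  refine le_trans ?_ h2
  have h3 : ε ^ (wt γ g - (h - δ + Real.log (1 / S.P.pr E) / lg ε) - 2 * δ)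
      = ε ^ (wt γ g - (h + δ)) / S.P.pr E := by
    rw [Real.rpow_def_of_pos h0, Real.rpow_def_of_pos h0, hlog]
    have h4 : -lg ε * (wt γ g - (h - δ + Real.log (1 / S.P.pr E) / lg ε) - 2 * δ)
        = -lg ε * (wt γ g - (h + δ)) + Real.log (1 / S.P.pr E) := by
      field_simp
      ring
    rw [h4, Real.exp_add, Real.exp_log (by positivity)]
    ring
  rw [h3]
  exact div_le_div_of_nonneg_right hup hE.le

/-- **CAP2-I** the classes before pruning, `1`-caps. -/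
theorem tl_cap_core (γ B Lmax δ : ℝ) (hγ0 : 0 < γ) (hγ1 : γ < 1) (hδ : 0 < δ) :
    ∃ (N : ℕ) (C : ℝ), 0 < N ∧ 0 ≤ C ∧ ∀ (S : CSys) (ε L : ℝ), S.Bdd B → 0 < ε → ε < 1 → 0 ≤ L → L ≤ Lmax →
      ∃ Z : S.ι → Fin (N + 1), S.P.pr (fun ω => Z (S.T ω) = 0) ≤ C * ε ∧
        ∀ z : Fin (N + 1), z ≠ 0 → 0 < S.P.pr (fun ω => Z (S.T ω) = z) →
          ∀ g : Geo, 0 ≤ g.b → g.b ≤ g.a → g.a ≤ L →
            (S.condOn (fun ω => Z (S.T ω) = z)).capPr 1 ε g ≤
              ε ^ (wt γ g - (S.condOn (fun ω => Z (S.T ω) = z)).tau γ ε L - 2 * δ) := by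
  obtain ⟨N, bn, hN, hbn0, hbn⟩ := tl_bin δ (2 * Lmax) hδ
  obtain ⟨M, hM⟩ := tl_cap_cover B
  refine ⟨N, M, hN, by positivity, ?_⟩
  intro S ε L hB h0 h1 hL hLm
  obtain ⟨st, gsel, hv, hA, hP2⟩ := tl_greedy_cap S γ ε L δ hγ0 hγ1 h0 h1 hL hδ
  refine ⟨fun i => bn (hv (st i)), ?_, ?_⟩
  · -- class `0`: level below `-1`, covered by zero-depth caps
    obtain ⟨s, hsc, hsh, hcov⟩ := hM ε ⟨0, 0, 0, 0, (0, 0), (0, 0)⟩ h0
    have hle : S.P.pr (fun ω => bn (hv (st (S.T ω))) = 0)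
        ≤ S.P.pr (fun ω => hv (st (S.T ω)) ≤ -1 ∧ tlCap S B ε ⟨0, 0, 0, 0, (0, 0), (0, 0)⟩ ω) := by
      apply ent_pr_mono
      intro ω hω hz
      constructor
      · rcases hbn0 _ hz with h | h
        · exact h.le
        · have := (hA ω hω).2.1
          linarith
      · obtain ⟨b1, b2, b3, b4, -⟩ := hB ω (lt_of_le_of_ne (S.P.nonneg ω) (Ne.symm hω))
        simp only [tlCap, InRect, ip, tang, nrm, Real.cos_zero, Real.sin_zero, Real.rpow_zero, mul_one,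
          mul_zero, add_zero, neg_zero, zero_add, Prod.fst_sub, Prod.snd_sub, sub_zero]
        exact ⟨⟨b1, b2⟩, ⟨b3, b4⟩⟩
    refine hle.trans ?_
    refine tl_pr_cap_cover S S.P B ε ε M _ _ s h0.le hsc hcov ?_
    intro g' hg'
    obtain ⟨e1, e2⟩ := hsh g' hg'
    simp only at e1 e2
    have h3 := hP2 (-1) g' (by rw [e1]) (by rw [e1, e2]) (by rw [e2]; exact hL)
    have hw : wt γ g' - -1 = 1 := by unfold wt; rw [e1, e2]; ring
    rw [hw, Real.rpow_one] at h3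
    exact h3
  · intro z hz hpos g hb hba haL
    obtain ⟨h, hh⟩ := hbn z hz
    apply tl_cap_class S γ ε L δ h hγ0 hγ1 h0 h1 _ hpos
    · apply tl_tau_ge_of_stage S γ ε L δ h hγ0 hγ1 h0 h1 _ hpos (fun ω => st (S.T ω)) gsel
      · intro ω ω' e
        simp only [e]
      · intro ω hω _
        exact (hA ω hω).1
      · intro ω hω hE
        have h3 := (hA ω hω).2.2
        have h4 : ε ^ (wt γ (gsel (st (S.T ω))) - h + δ)
            ≤ ε ^ (wt γ (gsel (st (S.T ω))) - hv (st (S.T ω)) + δ) :=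
          Real.rpow_le_rpow_of_exponent_ge h0 h1.le (by have := (hh _ hE).1; linarith)
        refine (h4.trans h3).trans (le_of_eq ?_)
        apply ent_pr_congr
        intro ω' _
        constructor
        · intro e
          refine ⟨?_, e⟩
          show bn (hv (st (S.T ω'))) = z
          have e' : st (S.T ω') = st (S.T ω) := e
          rw [e']
          exact hE
        · intro e
          exact e.2
    · refine le_trans ?_ (hP2 (h + δ) g hb hba haL)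
      apply ent_pr_mono
      intro ω _ hE
      exact ⟨(hh _ hE.1).2.le, hE.2⟩

/-- **Lemma 4.4** (greedy cap regularisation), finite form.  `Z` = class of the particle; class `0` is discarded.
PLAN: greedy on the finite support with `1`-caps and near-maximisers (`ξ/4`) of `w(g) + log μ_rem(cap g) / ℓ`; the successive suprema decrease; bins of length `ξ/4` of the suprema in `[-1, 2 Lmax]`;
below `-1` the remaining mass is `≤ C_B ε ≤ θ/2`; bins of mass `< θ/(2N)` are discarded; in a bin of mass `p`, bottom `h`: caps `≤ p⁻¹ ε^(w-h-ξ/4)`, assigned-cap test `≥ h - ξ/4 + log(1/p)/ℓ`;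
a `K`-cap is covered by `⌈K⌉⁴` `1`-caps of the same shape. -/
theorem tl_cap_regularize (γ B Lmax K ξ : ℝ) (hγ0 : 0 < γ) (hγ1 : γ < 1) (hξ : 0 < ξ) :
    ∃ (N : ℕ) (C : ℝ), 0 < N ∧ ∀ (S : CSys) (ε L θ : ℝ), S.Bdd B → 0 < ε → ε < 1 → 0 ≤ L → L ≤ Lmax →
      0 < θ → θ < 1 → C * ε ≤ θ →
      ∃ Z : S.ι → Fin (N + 1), S.P.pr (fun ω => Z (S.T ω) = 0) ≤ θ ∧
        ∀ z : Fin (N + 1), z ≠ 0 → 0 < S.P.pr (fun ω => Z (S.T ω) = z) →
          θ / (2 * N) ≤ S.P.pr (fun ω => Z (S.T ω) = z) ∧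
          ∀ g : Geo, 0 ≤ g.b → g.b ≤ g.a → g.a ≤ L →
            (S.condOn (fun ω => Z (S.T ω) = z)).capPr K ε g ≤
              ε ^ (wt γ g - (S.condOn (fun ω => Z (S.T ω) = z)).tau γ ε L - ξ - C / lg ε) := by
  obtain ⟨N, C₁, hN, hC₁, H⟩ := tl_cap_core γ B Lmax (ξ / 4) hγ0 hγ1 (by positivity)
  obtain ⟨M, hM⟩ := tl_cap_cover K
  refine ⟨N, 2 * C₁ + M, hN, ?_⟩
  intro S ε L θ hB h0 h1 hL hLm hθ0 hθ1 hCθ
  obtain ⟨Z₀, hZ0, hZ⟩ := H S ε L hB h0 h1 hL hLm
  have hMε : (0:ℝ) ≤ M * ε := by positivity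
  obtain ⟨Z, hZa, hZb⟩ := tl_cap_prune S.P S.T N hN θ hθ0 Z₀ (by nlinarith)
  refine ⟨Z, hZa, ?_⟩
  intro z hz hpos
  obtain ⟨hbig, heq⟩ := hZb z hz hpos
  refine ⟨hbig, ?_⟩
  intro g hb hba haL
  rw [heq] at hpos ⊢
  set S' := S.condOn (fun ω => Z₀ (S.T ω) = z) with hS'
  obtain ⟨s, hsc, hsh, hcov⟩ := hM ε g h0
  have hl : 0 < lg ε := by
    unfold lg
    exact Real.log_pos (by rw [lt_div_iff₀ h0]; linarith)
  have hlog : Real.log ε = - lg ε := by
    unfold lg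
    rw [one_div, Real.log_inv, neg_neg]
  have ecap : ∀ (K' : ℝ) (g' : Geo), S'.capPr K' ε g'
      = (S.P.cnd (fun ω => Z₀ (S.T ω) = z)).pr (fun ω => True ∧ tlCap S K' ε g' ω) := by
    intro K' g'
    simp only [true_and]
    rfl
  have key : S'.capPr K ε g ≤ M * ε ^ (wt γ g - S'.tau γ ε L - 2 * (ξ / 4)) := by
    rw [ecap]
    refine tl_pr_cap_cover S _ K ε (ε ^ (wt γ g - S'.tau γ ε L - 2 * (ξ / 4))) M g (fun _ => True) s
      (by positivity) hsc hcov ?_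
    intro g' hg'
    obtain ⟨e1, e2⟩ := hsh g' hg'
    have h3 := hZ z hz hpos g' (by rw [e1]; exact hb) (by rw [e1, e2]; exact hba) (by rw [e2]; exact haL)
    have hw : wt γ g' = wt γ g := by unfold wt; rw [e1, e2]
    rw [hw, ← hS', ecap] at h3
    exact h3
  refine key.trans ?_
  have hM1 : (M:ℝ) ≤ Real.exp (lg ε * (ξ / 2) + (2 * C₁ + M)) := by
    have h2 := Real.add_one_le_exp (lg ε * (ξ / 2) + (2 * C₁ + M))
    have h3 : 0 ≤ lg ε * (ξ / 2) := by positivity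
    linarith
  have hsplit : ε ^ (wt γ g - S'.tau γ ε L - ξ - (2 * C₁ + M) / lg ε)
      = Real.exp (lg ε * (ξ / 2) + (2 * C₁ + M)) * ε ^ (wt γ g - S'.tau γ ε L - 2 * (ξ / 4)) := by
    rw [Real.rpow_def_of_pos h0, Real.rpow_def_of_pos h0, ← Real.exp_add, hlog]
    congr 1
    field_simp
    ring
  rw [hsplit]
  exact mul_le_mul_of_nonneg_right hM1 (by positivity)

end Claimed.Agent.R255
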