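-- KEEP
import Claimed.Agent.R255.Cl.Tools.CapReg
import Claimed.Agent.R255.Ent.Homog

/-!
# Row 255 (BR paper), chapter TOOLS, finite level: package TS-MASTER, one STAGE of the master tag (L2.4 + L4.4)      (architect helper186; prefix `ms_`)

One finite system `S`, one precision `ε`, a list of `k` pairs `(X j, Y j)`.
* bins    `S.P.bins Y X w : S.Ω → (Fin k → ℕ)`  (Ent/Homog.lean), retained cells `S.P.HGood Y X w Lc θ`
* classes `cls z : S.ι → Fin (N+1)` = the greedy cap classes of the conditional system on the bin cell `z` (`tl_cap_regularize`); class `0` is discarded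
* `msTag` = `some (bin vector, class)` on `HGood`, `none` elsewhere;   `msGd` = retained points (`HGood`, class `≠ 0`, positive mass)
Leaves `ms_tag_values .. ms_part_sys` are PAPER-FREE finite probability (Ent/Basic, Ent/Restr, Ent/Homog may be quoted, also sorried statements).
`ms_stage` = the export used by `ts_master_tag` (diagonal over `k`).
Provers edit only bodies; statements frozen (ask helper186).
-/

set_option autoImplicit false

namespace Claimed.Agent.R255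

open scoped BigOperators
open Classical
open FLaw

section defs

variable (S : CSys) {k N : ℕ} {α β : Fin k → Type} (Y : ∀ j, S.Ω → α j) (X : ∀ j, S.Ω → β j)
  (w : ℝ) (Lc : Fin k → ℝ) (θ : ℝ) (cls : (Fin k → ℕ) → S.ι → Fin (N + 1))

/-- the tag of one stage -/
noncomputable def msTag : S.Ω → Option ((Fin k → ℕ) × Fin (N + 1)) := fun ω =>
  if S.P.HGood Y X w Lc θ ω then some (S.P.bins Y X w ω, cls (S.P.bins Y X w ω) (S.T ω)) else none

/-- the retained points of one stage -/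
def msGd (ω : S.Ω) : Prop :=
  S.P.HGood Y X w Lc θ ω ∧ cls (S.P.bins Y X w ω) (S.T ω) ≠ 0 ∧ S.P.p ω ≠ 0

/-- **MS-1** the tag has boundedly many values (`ent_homog_parts`) -/
theorem ms_tag_values (hw : 0 < w) :
    ∃ F : Finset (Option ((Fin k → ℕ) × Fin (N + 1))), F.card ≤ 1 + hJ Lc w * (N + 1) ∧
      ∀ ω, msTag S Y X w Lc θ cls ω ∈ F := by
  obtain ⟨SJ, hc, hS⟩ := ent_homog_parts S.P Y X hw Lc
  refine ⟨insert none ((SJ ×ˢ (Finset.univ : Finset (Fin (N + 1)))).image some), ?_, fun ω => ?_⟩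
  · refine (Finset.card_insert_le _ _).trans ?_
    have h1 : ((SJ ×ˢ (Finset.univ : Finset (Fin (N + 1)))).image some).card ≤ hJ Lc w * (N + 1) := by
      refine Finset.card_image_le.trans ?_
      rw [Finset.card_product, Finset.card_univ, Fintype.card_fin]
      exact Nat.mul_le_mul_right _ hc
    omega
  · unfold msTag
    split_ifs with hG
    · refine Finset.mem_insert_of_mem (Finset.mem_image_of_mem _ ?_)
      exact Finset.mem_product.2 ⟨hS ω hG.1, Finset.mem_univ _⟩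
    · exact Finset.mem_insert_self _ _

/-- **MS-1** hence its entropy is bounded (`ent_le_log_card`) -/
theorem ms_tag_ent (hw : 0 < w) :
    S.P.ent (msTag S Y X w Lc θ cls) ≤ Real.log (1 + hJ Lc w * (N + 1) : ℕ) := by
  obtain ⟨F, hc, hF⟩ := ms_tag_values S Y X w Lc θ cls hw
  obtain ⟨ω₁, -⟩ := ent_exists_supp S.P
  have hpos : (0 : ℝ) < F.card := by
    have : 0 < F.card := Finset.card_pos.2 ⟨_, hF ω₁⟩
    exact_mod_cast this
  refine (ent_le_log_card S.P _ F fun ω _ => hF ω).trans ?_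
  exact Real.log_le_log hpos (by exact_mod_cast hc)

/-- **MS-2** the cell of the tag through a retained point (`ent_homog_union`) -/
theorem ms_tag_cell {ω₀ : S.Ω} (h : msGd S Y X w Lc θ cls ω₀) (ω : S.Ω) :
    msTag S Y X w Lc θ cls ω = msTag S Y X w Lc θ cls ω₀ ↔
      S.P.bins Y X w ω = S.P.bins Y X w ω₀ ∧
        cls (S.P.bins Y X w ω₀) (S.T ω) = cls (S.P.bins Y X w ω₀) (S.T ω₀) := by
  have h0 : msTag S Y X w Lc θ cls ω₀ = some (S.P.bins Y X w ω₀, cls (S.P.bins Y X w ω₀) (S.T ω₀)) := by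
    unfold msTag
    rw [if_pos h.1]
  rw [h0]
  constructor
  · intro h1
    unfold msTag at h1
    split_ifs at h1 with hG
    have h2 := Option.some.inj h1
    have h3 : S.P.bins Y X w ω = S.P.bins Y X w ω₀ := (Prod.mk.inj h2).1
    have h4 := (Prod.mk.inj h2).2
    rw [h3] at h4
    exact ⟨h3, h4⟩
  · rintro ⟨h3, h4⟩
    have hG : S.P.HGood Y X w Lc θ ω := (ent_homog_union S.P Y X w Lc θ h3).2 h.1
    unfold msTag
    rw [if_pos hG, h3, h4]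

/-- **MS-2** the law of the part = the class inside the normalised bin cell (`ent_cnd_cnd`, `ent_cnd_congr`) -/
theorem ms_part_law {ω₀ : S.Ω} (h : msGd S Y X w Lc θ cls ω₀) :
    S.P.cnd (fun ω => msTag S Y X w Lc θ cls ω = msTag S Y X w Lc θ cls ω₀) =
      (S.P.cnd (fun ω => S.P.bins Y X w ω = S.P.bins Y X w ω₀)).cnd
        (fun ω => cls (S.P.bins Y X w ω₀) (S.T ω) = cls (S.P.bins Y X w ω₀) (S.T ω₀)) := by
  have hpos : 0 < S.P.pr (fun ω => S.P.bins Y X w ω = S.P.bins Y X w ω₀ ∧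
      cls (S.P.bins Y X w ω₀) (S.T ω) = cls (S.P.bins Y X w ω₀) (S.T ω₀)) :=
    (ent_pr_pos_iff S.P _).2 ⟨ω₀, ⟨rfl, rfl⟩, h.2.2⟩
  rw [ent_cnd_cnd S.P _ _ hpos]
  exact ent_cnd_congr S.P fun ω _ => ms_tag_cell S Y X w Lc θ cls h ω

/-- **MS-2** the same for systems -/
theorem ms_part_sys {ω₀ : S.Ω} (h : msGd S Y X w Lc θ cls ω₀) :
    S.condOn (fun ω => msTag S Y X w Lc θ cls ω = msTag S Y X w Lc θ cls ω₀) =
      (S.condOn (fun ω => S.P.bins Y X w ω = S.P.bins Y X w ω₀)).condOn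
        (fun ω => cls (S.P.bins Y X w ω₀) (S.T ω) = cls (S.P.bins Y X w ω₀) (S.T ω₀)) := by
  exact congrArg S.withLaw (ms_part_law S Y X w Lc θ cls h)

/-- **MS-3** mass of the retained points: `ent_homog` + tower property over the bin cells for the class `0` (`ent_pr_tower`, each cell loses `≤ θ`) -/
theorem ms_gd_mass (F : ∀ j, Finset (α j)) (hF : ∀ j ω, S.P.p ω ≠ 0 → Y j ω ∈ F j) (hw : 0 < w)
    (hθ : 0 ≤ θ)
    (hcls : ∀ z, 0 < S.P.pr (fun ω => S.P.bins Y X w ω = z) →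
      (S.P.cnd (fun ω => S.P.bins Y X w ω = z)).pr (fun ω => cls z (S.T ω) = 0) ≤ θ) :
    1 - ∑ j, ((F j).card : ℝ) * Real.exp (- (Lc j)) - 2 * θ ≤ S.P.pr (msGd S Y X w Lc θ cls) := by
  have h1 := ent_homog S.P Y X F hF Lc hw hθ
  have h2 : S.P.pr (fun ω => cls (S.P.bins Y X w ω) (S.T ω) = 0) ≤ θ := by
    rw [ent_pr_tower S.P (S.P.bins Y X w)]
    have h3 : S.P.ev (fun ω => (S.P.cfib (S.P.bins Y X w) ω).pr
        (fun ω' => cls (S.P.bins Y X w ω') (S.T ω') = 0)) ≤ S.P.ev (fun _ => θ) := by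
      refine ent_ev_mono S.P fun ω hω => ?_
      have hpos : 0 < S.P.pr (fun ω' => S.P.bins Y X w ω' = S.P.bins Y X w ω) :=
        (ent_pr_pos_iff S.P _).2 ⟨ω, rfl, hω⟩
      refine le_trans (le_of_eq ?_) (hcls (S.P.bins Y X w ω) hpos)
      unfold FLaw.cfib
      refine ent_pr_congr _ fun ω' hω' => ?_
      rw [((ent_cnd_supp S.P _ hpos).1 hω').1]
    rwa [ent_ev_const] at h3
  have h4 : S.P.pr (msGd S Y X w Lc θ cls) = S.P.pr (fun ω => S.P.HGood Y X w Lc θ ω ∧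
      ¬ cls (S.P.bins Y X w ω) (S.T ω) = 0) := by
    refine ent_pr_congr S.P fun ω hω => ?_
    unfold msGd
    constructor
    · exact fun h => ⟨h.1, h.2.1⟩
    · exact fun h => ⟨h.1, h.2, hω⟩
  have h5 := ent_pr_and_ge S.P (S.P.HGood Y X w Lc θ) (fun ω => ¬ cls (S.P.bins Y X w ω) (S.T ω) = 0)
  rw [ent_pr_not] at h5
  rw [h4]
  linarith

/-- **MS-4** mass of a retained part -/
theorem ms_part_mass {c : ℝ} (hc : 0 ≤ c) (hθ : 0 ≤ θ)
    (hcls : ∀ z (x : Fin (N + 1)), x ≠ 0 →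
      0 < (S.P.cnd (fun ω => S.P.bins Y X w ω = z)).pr (fun ω => cls z (S.T ω) = x) →
      c ≤ (S.P.cnd (fun ω => S.P.bins Y X w ω = z)).pr (fun ω => cls z (S.T ω) = x))
    {ω₀ : S.Ω} (h : msGd S Y X w Lc θ cls ω₀) :
    θ / (hJ Lc w : ℝ) * c ≤ S.P.fib (msTag S Y X w Lc θ cls) ω₀ := by
  have hE : 0 < S.P.pr (fun ω => S.P.bins Y X w ω = S.P.bins Y X w ω₀) :=
    (ent_pr_pos_iff S.P _).2 ⟨ω₀, rfl, h.2.2⟩
  have hEF : 0 < S.P.pr (fun ω => S.P.bins Y X w ω = S.P.bins Y X w ω₀ ∧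
      cls (S.P.bins Y X w ω₀) (S.T ω) = cls (S.P.bins Y X w ω₀) (S.T ω₀)) :=
    (ent_pr_pos_iff S.P _).2 ⟨ω₀, ⟨rfl, rfl⟩, h.2.2⟩
  have hF := ent_cnd_pr S.P _ hE
    (fun ω => cls (S.P.bins Y X w ω₀) (S.T ω) = cls (S.P.bins Y X w ω₀) (S.T ω₀))
  have hFpos : 0 < (S.P.cnd (fun ω => S.P.bins Y X w ω = S.P.bins Y X w ω₀)).pr
      (fun ω => cls (S.P.bins Y X w ω₀) (S.T ω) = cls (S.P.bins Y X w ω₀) (S.T ω₀)) := by
    rw [hF]
    exact div_pos hEF hE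
  have h1 := hcls (S.P.bins Y X w ω₀) (cls (S.P.bins Y X w ω₀) (S.T ω₀)) h.2.1 hFpos
  have h2 : θ / (hJ Lc w : ℝ) ≤ S.P.pr (fun ω => S.P.bins Y X w ω = S.P.bins Y X w ω₀) := h.1.2
  have h3 : S.P.fib (msTag S Y X w Lc θ cls) ω₀
      = S.P.pr (fun ω => S.P.bins Y X w ω = S.P.bins Y X w ω₀ ∧
      cls (S.P.bins Y X w ω₀) (S.T ω) = cls (S.P.bins Y X w ω₀) (S.T ω₀)) := by
    unfold FLaw.fib
    exact ent_pr_congr S.P fun ω _ => ms_tag_cell S Y X w Lc θ cls h ω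
  have h4 : S.P.pr (fun ω => S.P.bins Y X w ω = S.P.bins Y X w ω₀ ∧
      cls (S.P.bins Y X w ω₀) (S.T ω) = cls (S.P.bins Y X w ω₀) (S.T ω₀))
      = S.P.pr (fun ω => S.P.bins Y X w ω = S.P.bins Y X w ω₀)
        * (S.P.cnd (fun ω => S.P.bins Y X w ω = S.P.bins Y X w ω₀)).pr
      (fun ω => cls (S.P.bins Y X w ω₀) (S.T ω) = cls (S.P.bins Y X w ω₀) (S.T ω₀)) := by
    rw [hF, mul_div_cancel₀ _ hE.ne']
  rw [h3, h4]
  exact mul_le_mul h2 h1 hc hE.le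

/-- **MS-4** the part is dominated by the normalised bin cell (`ms_part_law`, `ent_cnd_dom`) -/
theorem ms_part_dom {c : ℝ} (hc : 0 < c)
    (hcls : ∀ z (x : Fin (N + 1)), x ≠ 0 →
      0 < (S.P.cnd (fun ω => S.P.bins Y X w ω = z)).pr (fun ω => cls z (S.T ω) = x) →
      c ≤ (S.P.cnd (fun ω => S.P.bins Y X w ω = z)).pr (fun ω => cls z (S.T ω) = x))
    {ω₀ : S.Ω} (h : msGd S Y X w Lc θ cls ω₀) :
    (S.P.cnd (fun ω => msTag S Y X w Lc θ cls ω = msTag S Y X w Lc θ cls ω₀)).Dom (1 / c)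
      (S.P.cfib (S.P.bins Y X w) ω₀) := by
  have hE : 0 < S.P.pr (fun ω => S.P.bins Y X w ω = S.P.bins Y X w ω₀) :=
    (ent_pr_pos_iff S.P _).2 ⟨ω₀, rfl, h.2.2⟩
  have hEF : 0 < S.P.pr (fun ω => S.P.bins Y X w ω = S.P.bins Y X w ω₀ ∧
      cls (S.P.bins Y X w ω₀) (S.T ω) = cls (S.P.bins Y X w ω₀) (S.T ω₀)) :=
    (ent_pr_pos_iff S.P _).2 ⟨ω₀, ⟨rfl, rfl⟩, h.2.2⟩
  have hF := ent_cnd_pr S.P _ hE
    (fun ω => cls (S.P.bins Y X w ω₀) (S.T ω) = cls (S.P.bins Y X w ω₀) (S.T ω₀))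
  have hFpos : 0 < (S.P.cnd (fun ω => S.P.bins Y X w ω = S.P.bins Y X w ω₀)).pr
      (fun ω => cls (S.P.bins Y X w ω₀) (S.T ω) = cls (S.P.bins Y X w ω₀) (S.T ω₀)) := by
    rw [hF]
    exact div_pos hEF hE
  have h1 := hcls (S.P.bins Y X w ω₀) (cls (S.P.bins Y X w ω₀) (S.T ω₀)) h.2.1 hFpos
  rw [ms_part_law S Y X w Lc θ cls h]
  have h2 := ent_cnd_dom (S.P.cnd (fun ω => S.P.bins Y X w ω = S.P.bins Y X w ω₀)) _ hFpos
  exact ent_dom_mono h2 (one_div_le_one_div_of_le hc h1)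

/-- **MS-4** positivity of the class of a retained point inside its bin cell -/
theorem ms_class_pos {ω₀ : S.Ω} (h : msGd S Y X w Lc θ cls ω₀) :
    0 < S.P.pr (fun ω => S.P.bins Y X w ω = S.P.bins Y X w ω₀) ∧
    0 < (S.P.cnd (fun ω => S.P.bins Y X w ω = S.P.bins Y X w ω₀)).pr
      (fun ω => cls (S.P.bins Y X w ω₀) (S.T ω) = cls (S.P.bins Y X w ω₀) (S.T ω₀)) := by
  have hE : 0 < S.P.pr (fun ω => S.P.bins Y X w ω = S.P.bins Y X w ω₀) :=
    (ent_pr_pos_iff S.P _).2 ⟨ω₀, rfl, h.2.2⟩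
  refine ⟨hE, ?_⟩
  rw [ent_cnd_pr S.P _ hE]
  exact div_pos ((ent_pr_pos_iff S.P _).2 ⟨ω₀, ⟨rfl, rfl⟩, h.2.2⟩) hE

end defs

/-- **MS-5** normalised form of (2.18), (2.19) on a part: `R ≤ K₁ P(.|cell)`, cell of mass `≥ m₁`, mesh `w = a ℓ`.  Pure arithmetic from `ent_homog_entropy`, `ent_homog_surprise`. -/
theorem ms_norm {Ω : Type} [Fintype Ω] {k : ℕ} {α β : Fin k → Type} (P : FLaw Ω) (Y : ∀ j, Ω → α j)
    (X : ∀ j, Ω → β j) {ℓ a K₁ m₁ : ℝ} (hℓ : 0 < ℓ) (ha : 0 < a) (hK : 1 ≤ K₁) (hm0 : 0 < m₁) (hm1 : m₁ ≤ 1)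
    {ω₀ : Ω} (hm : m₁ ≤ P.fib (P.bins Y X (a * ℓ)) ω₀) {R : FLaw Ω}
    (hR : R.Dom K₁ (P.cfib (P.bins Y X (a * ℓ)) ω₀)) (j : Fin k) :
    |R.entC (Y j) (X j) / ℓ - (P.bin (Y j) (X j) (a * ℓ) ω₀ : ℝ) * a| ≤ a + Real.log (K₁ / m₁) / ℓ ∧
    ∀ η, 0 < η → η < 1 → 1 - 2 * η ≤ R.pr (fun ω =>
      |R.surC (Y j) (X j) ω / ℓ - (P.bin (Y j) (X j) (a * ℓ) ω₀ : ℝ) * a|
        ≤ a + (Real.log (K₁ / m₁) + Real.log (1 / η)) / ℓ) := by
  have hw : 0 < a * ℓ := mul_pos ha hℓ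
  have hpos : 0 < P.fib (P.bins Y X (a * ℓ)) ω₀ := lt_of_lt_of_le hm0 hm
  obtain ⟨f, hf⟩ : ∃ f : ℝ, f = P.fib (P.bins Y X (a * ℓ)) ω₀ := ⟨_, rfl⟩
  obtain ⟨b, hb⟩ : ∃ b : ℝ, b = (P.bin (Y j) (X j) (a * ℓ) ω₀ : ℝ) := ⟨_, rfl⟩
  have hK0 : 0 < K₁ := by linarith
  have hlog0 : 0 ≤ Real.log (K₁ / m₁) := by
    apply Real.log_nonneg
    rw [le_div_iff₀ hm0]
    linarith
  have hlogf : Real.log (K₁ / f) ≤ Real.log (K₁ / m₁) := by
    rw [hf]
    exact Real.log_le_log (div_pos hK0 hpos) (div_le_div_of_nonneg_left hK0.le hm0 hm)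
  have key : ∀ s u v : ℝ, b * (a * ℓ) - u ≤ s → s ≤ b * (a * ℓ) + a * ℓ + v → 0 ≤ u → 0 ≤ v →
      ∀ t, u ≤ t → v ≤ t → |s / ℓ - b * a| ≤ a + t / ℓ := by
    intro s u v h1 h2 hu hv t hut hvt
    have e : s / ℓ - b * a = (s - b * (a * ℓ)) / ℓ := by
      field_simp
    have e2 : a + t / ℓ = (a * ℓ + t) / ℓ := by
      field_simp
    rw [e, e2, abs_div, abs_of_pos hℓ]
    refine div_le_div_of_nonneg_right ?_ hℓ.le
    rw [abs_le]
    constructor <;> nlinarith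
  constructor
  · have h1 := ent_homog_entropy P Y X hw hpos hR j
    rw [← hf, ← hb] at h1
    rw [← hb]
    rcases le_total 0 (Real.log (K₁ / f)) with h0 | h0
    · exact key _ (Real.log (K₁ / f)) 0 h1.1 (by linarith [h1.2]) h0 le_rfl _ hlogf hlog0
    · exact key _ 0 0 (by linarith [h1.1]) (by linarith [h1.2]) le_rfl le_rfl _ hlog0 hlog0
  · intro η hη0 hη1
    have h1 := ent_homog_surprise P Y X hw hpos hR j hη0
    refine h1.trans (ent_pr_mono R fun ω _ hω => ?_)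
    rw [← hf, ← hb] at hω
    rw [← hb]
    have hlη : 0 ≤ Real.log (1 / η) := by
      apply Real.log_nonneg
      rw [le_div_iff₀ hη0]
      linarith
    have hfpos : 0 < f := by rw [hf]; exact hpos
    have e3 : Real.log (K₁ / (f * η)) = Real.log (K₁ / f) + Real.log (1 / η) := by
      rw [← Real.log_mul (div_pos hK0 hfpos).ne' (by positivity)]
      congr 1
      field_simp
    rw [e3] at hω
    rcases le_total 0 (Real.log (K₁ / f) + Real.log (1 / η)) with h0 | h0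
    · exact key _ (Real.log (K₁ / f) + Real.log (1 / η)) (Real.log (1 / η)) hω.1 hω.2 h0 hlη _
        (by linarith) (by linarith)
    · exact key _ 0 (Real.log (1 / η)) (by linarith [hω.1]) hω.2 le_rfl hlη _ (by linarith) (by linarith)

/-- **MS-6** `hJ` in normalised units does not depend on `ℓ` -/
theorem ms_hJ_norm {k : ℕ} (A : Fin k → ℝ) {ℓ a : ℝ} (hℓ : 0 < ℓ) :
    hJ (fun j => (A j + 1) * ℓ) (a * ℓ) = hJ (fun j => A j + 1) a := by
  unfold hJ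
  refine Finset.prod_congr rfl fun j _ => ?_
  rw [mul_div_mul_right _ _ hℓ.ne']

/-- **MS-6** the discarded tails: `card ≤ ε^(-A)` gives `card * exp (-(A+1) ℓ) ≤ ε` -/
theorem ms_tail_norm {ε A c : ℝ} (h0 : 0 < ε) (hc : c ≤ ε ^ (- A)) :
    c * Real.exp (- ((A + 1) * lg ε)) ≤ ε := by
  have e : Real.exp (- ((A + 1) * lg ε)) = ε ^ (A + 1) := by
    unfold lg
    rw [Real.rpow_def_of_pos h0, one_div, Real.log_inv]
    congr 1
    ring
  rw [e]
  calc c * ε ^ (A + 1) ≤ ε ^ (- A) * ε ^ (A + 1) :=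
        mul_le_mul_of_nonneg_right hc (Real.rpow_nonneg h0.le _)
    _ = ε := by
        rw [← Real.rpow_add h0]
        have : -A + (A + 1) = 1 := by ring
        rw [this, Real.rpow_one]

/-- **one stage of the master tag**.  All constants are collected in ONE number `M` depending only on `(γ, B, L, k, A)`. -/
theorem ms_stage (γ B L : ℝ) (hγ0 : 0 < γ) (hγ1 : γ < 1) (hL : 0 ≤ L) (k : ℕ) (A : ℕ → ℝ) :
    ∃ M : ℝ, 1 ≤ M ∧ ∀ (S : CSys) (ε : ℝ), S.Bdd B → 0 < ε → ε < 1 → M * ε ≤ 1 / ((k : ℝ) + 2) →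
      ∀ (α β : ℕ → Type) (Y : ∀ j, S.Ω → α j) (X : ∀ j, S.Ω → β j),
        (∀ j < k, ∃ F : Finset (α j), (F.card : ℝ) ≤ ε ^ (- A j) ∧ ∀ ω, 0 < S.P.p ω → Y j ω ∈ F) →
      ∃ (ζ : Type) (Z : S.Ω → ζ) (Gd : S.Ω → Prop) (dc : S.Ω → ℕ → ℝ),
        S.P.ent Z ≤ Real.log M ∧
        1 - 3 / ((k : ℝ) + 2) ≤ S.P.pr Gd ∧
        ∀ ω₀, Gd ω₀ →
          1 / M ≤ S.P.fib Z ω₀ ∧
          (∀ j < k, 0 ≤ dc ω₀ j ∧ dc ω₀ j ≤ A j + 1 ∧
            |(S.P.cnd (fun ω => Z ω = Z ω₀)).entC (Y j) (X j) / lg ε - dc ω₀ j|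
              ≤ 1 / ((k : ℝ) + 2) + Real.log M / lg ε ∧
            ∀ η, 0 < η → η < 1 → 1 - 2 * η ≤ (S.P.cnd (fun ω => Z ω = Z ω₀)).pr (fun ω =>
              |(S.P.cnd (fun ω => Z ω = Z ω₀)).surC (Y j) (X j) ω / lg ε - dc ω₀ j|
                ≤ 1 / ((k : ℝ) + 2) + (Real.log M + Real.log (1 / η)) / lg ε)) ∧
          ∀ g : Geo, 0 ≤ g.b → g.b ≤ g.a → g.a ≤ L →
            (S.condOn (fun ω => Z ω = Z ω₀)).capPr k ε g ≤
              ε ^ (wt γ g - (S.condOn (fun ω => Z ω = Z ω₀)).tau γ ε L - 1 / ((k : ℝ) + 2) - M / lg ε) := by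
  have hk2 : (0:ℝ) < (k:ℝ) + 2 := by positivity
  obtain ⟨a, ha⟩ : ∃ a : ℝ, a = 1 / ((k:ℝ) + 2) := ⟨_, rfl⟩
  have ha0 : 0 < a := by rw [ha]; positivity
  have ha1 : a < 1 := by
    rw [ha, div_lt_one hk2]
    have : (0:ℝ) ≤ k := Nat.cast_nonneg k
    linarith
  obtain ⟨N, C, hN, H⟩ := tl_cap_regularize γ B L (k:ℝ) a hγ0 hγ1 ha0
  obtain ⟨J, hJd⟩ : ∃ J : ℕ, J = hJ (fun j : Fin k => A j + 1) a := ⟨_, rfl⟩
  have hJ1 : 1 ≤ J := by rw [hJd]; exact ent_hJ_pos _ _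
  have hJr : (1:ℝ) ≤ J := by exact_mod_cast hJ1
  have hNr : (1:ℝ) ≤ N := by exact_mod_cast hN
  have hkr : (0:ℝ) ≤ k := Nat.cast_nonneg k
  obtain ⟨M, hM⟩ : ∃ M : ℝ, M = 1 + (J:ℝ) * (N + 1) + 2 * N * J / a ^ 2 + |C| + k := ⟨_, rfl⟩
  have hq : 0 ≤ 2 * (N:ℝ) * J / a ^ 2 := by positivity
  have hM1 : 1 + (J:ℝ) * (N + 1) ≤ M := by rw [hM]; have := abs_nonneg C; linarith
  have hM2 : 2 * (N:ℝ) * J / a ^ 2 ≤ M := by
    rw [hM]; have := abs_nonneg C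
    have : 0 ≤ (J:ℝ) * (N + 1) := by positivity
    linarith
  have hM3 : C ≤ M := by
    rw [hM]; have := le_abs_self C
    have : 0 ≤ (J:ℝ) * (N + 1) := by positivity
    linarith
  have hM4 : (k:ℝ) ≤ M := by
    rw [hM]; have := abs_nonneg C
    have : 0 ≤ (J:ℝ) * (N + 1) := by positivity
    linarith
  have hM0 : 1 ≤ M := by
    have : 0 ≤ (J:ℝ) * (N + 1) := by positivity
    linarith
  refine ⟨M, hM0, ?_⟩
  intro S ε hB h0 h1 hMε α β Y X hal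
  rw [← ha] at hMε ⊢
  have hℓ : 0 < lg ε := tl_lg_pos h0 h1
  obtain ⟨ℓ, hℓd⟩ : ∃ ℓ : ℝ, ℓ = lg ε := ⟨_, rfl⟩
  rw [← hℓd] at hℓ ⊢
  have hw : 0 < a * ℓ := mul_pos ha0 hℓ
  -- the lists
  let α' : Fin k → Type := fun j => α j
  let β' : Fin k → Type := fun j => β j
  let Y' : ∀ j : Fin k, S.Ω → α' j := fun j => Y j
  let X' : ∀ j : Fin k, S.Ω → β' j := fun j => X j
  have hal' : ∀ j : Fin k, ∃ F : Finset (α' j), (F.card : ℝ) ≤ ε ^ (- A j) ∧
      ∀ ω, S.P.p ω ≠ 0 → Y' j ω ∈ F := by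
    intro j
    obtain ⟨F, h1, h2⟩ := hal j j.2
    exact ⟨F, h1, fun ω hω => h2 ω (lt_of_le_of_ne (S.P.nonneg ω) (Ne.symm hω))⟩
  choose F hFc hFm using hal'
  have hCε : C * ε ≤ a := le_trans (mul_le_mul_of_nonneg_right hM3 h0.le) hMε
  have Hz := fun z : Fin k → ℕ => H (S.condOn (fun ω => S.P.bins Y' X' (a * ℓ) ω = z)) ε L a
    (tl_condOn_bdd S B hB _) h0 h1 hL le_rfl ha0 ha1 hCε
  choose cls hcls0 hcls1 using Hz
  have hJeq : hJ (fun j : Fin k => (A j + 1) * ℓ) (a * ℓ) = J := by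
    rw [hJd]; exact ms_hJ_norm (fun j : Fin k => A j) hℓ
  have hc0 : 0 < a / (2 * (N:ℝ)) := by positivity
  have hclsA : ∀ z (x : Fin (N + 1)), x ≠ 0 →
      0 < (S.P.cnd (fun ω => S.P.bins Y' X' (a * ℓ) ω = z)).pr (fun ω => cls z (S.T ω) = x) →
      a / (2 * (N:ℝ)) ≤ (S.P.cnd (fun ω => S.P.bins Y' X' (a * ℓ) ω = z)).pr (fun ω => cls z (S.T ω) = x) :=
    fun z x hx hpos => (hcls1 z x hx hpos).1
  refine ⟨Option ((Fin k → ℕ) × Fin (N + 1)),
    msTag S Y' X' (a * ℓ) (fun j => (A j + 1) * ℓ) a cls,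
    msGd S Y' X' (a * ℓ) (fun j => (A j + 1) * ℓ) a cls,
    fun ω j => if h : j < k then (S.P.bin (Y j) (X j) (a * ℓ) ω : ℝ) * a else 0, ?_, ?_, ?_⟩
  · refine (ms_tag_ent S Y' X' (a * ℓ) _ a cls hw).trans ?_
    rw [hJeq]
    apply Real.log_le_log (by positivity)
    push_cast
    exact hM1
  · have h3 := ms_gd_mass S Y' X' (a * ℓ) (fun j => (A j + 1) * ℓ) a cls F hFm hw ha0.le
      (fun z _ => hcls0 z)
    have h4 : ∑ j : Fin k, ((F j).card : ℝ) * Real.exp (- ((A j + 1) * ℓ)) ≤ a := by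
      calc ∑ j : Fin k, ((F j).card : ℝ) * Real.exp (- ((A j + 1) * ℓ))
          ≤ ∑ _j : Fin k, ε := Finset.sum_le_sum fun j _ => by
            rw [hℓd]; exact ms_tail_norm h0 (hFc j)
        _ = k * ε := by simp
        _ ≤ M * ε := mul_le_mul_of_nonneg_right hM4 h0.le
        _ ≤ a := hMε
    have h5 : 3 / ((k:ℝ) + 2) = 3 * a := by rw [ha]; ring
    rw [h5]
    linarith
  · intro ω₀ hω₀
    have hmass := ms_part_mass S Y' X' (a * ℓ) (fun j => (A j + 1) * ℓ) a cls hc0.le ha0.le hclsA hω₀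
    have hdom := ms_part_dom S Y' X' (a * ℓ) (fun j => (A j + 1) * ℓ) a cls hc0 hclsA hω₀
    rw [hJeq] at hmass
    have hKm : (1 / (a / (2 * (N:ℝ)))) / (a / J) = 2 * N * J / a ^ 2 := by
      field_simp
    refine ⟨?_, ?_, ?_⟩
    · refine le_trans ?_ hmass
      have : a / (J:ℝ) * (a / (2 * (N:ℝ))) = 1 / (2 * N * J / a ^ 2) := by
        field_simp
      rw [this]
      apply one_div_le_one_div_of_le (by positivity) hM2
    · intro j hj
      have hbinle := hω₀.1.1 ⟨j, hj⟩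
      have hfib : a / (J:ℝ) ≤ S.P.fib (S.P.bins Y' X' (a * ℓ)) ω₀ := by
        have := hω₀.1.2
        rwa [hJeq] at this
      have hn := ms_norm S.P Y' X' hℓ ha0 (K₁ := 1 / (a / (2 * (N:ℝ)))) (m₁ := a / J)
        (by
          rw [one_div_div, le_div_iff₀ ha0]
          nlinarith)
        (by positivity)
        (by
          rw [div_le_one (by positivity)]
          linarith)
        hfib hdom ⟨j, hj⟩
      rw [hKm] at hn
      have hlog : Real.log (2 * (N:ℝ) * J / a ^ 2) ≤ Real.log M := Real.log_le_log (by positivity) hM2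
      simp only [dif_pos hj]
      refine ⟨by positivity, ?_, ?_, ?_⟩
      · have h6 : (S.P.bin (Y j) (X j) (a * ℓ) ω₀ : ℝ) * (a * ℓ) ≤ (A j + 1) * ℓ := hbinle
        have h7 : ((S.P.bin (Y j) (X j) (a * ℓ) ω₀ : ℝ) * a) * ℓ ≤ (A j + 1) * ℓ := by linarith
        exact le_of_mul_le_mul_right h7 hℓ
      · refine hn.1.trans ?_
        have := div_le_div_of_nonneg_right hlog hℓ.le
        linarith
      · intro η hη0 hη1
        refine (hn.2 η hη0 hη1).trans ?_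
        apply ent_pr_mono
        intro ω _ hω
        refine le_trans hω ?_
        have := div_le_div_of_nonneg_right (add_le_add_left hlog (Real.log (1 / η))) hℓ.le
        linarith
    · intro g hb hba haL
      rw [ms_part_sys S Y' X' (a * ℓ) (fun j => (A j + 1) * ℓ) a cls hω₀]
      have hpos := (ms_class_pos S Y' X' (a * ℓ) (fun j => (A j + 1) * ℓ) a cls hω₀).2
      have h8 := (hcls1 (S.P.bins Y' X' (a * ℓ) ω₀) _ hω₀.2.1 hpos).2 g hb hba haL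
      refine h8.trans ?_
      apply Real.rpow_le_rpow_of_exponent_ge h0 h1.le
      have := div_le_div_of_nonneg_right hM3 hℓ.le
      rw [hℓd] at this ⊢
      exact sub_le_sub_left this _

theorem ms_eqns_cite : True := by
  have := @msTag.eq_1
  have := @msGd.eq_1
  trivial

end Claimed.Agent.R255
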