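-- KEEP
import Claimed.Agent.R255.Cl.Tools.Tau

/-!
# Row 255 (BR paper), chapter TOOLS, finite level: dyadic cells of depth `s` and rotation of rectangles      (helper26)

No `sorry`.  PAPER-FREE.  With `W = 2 ^ tlev ε s` :  `1 ≤ ε^s W < 2` (`tl_cellw_ge`, `tl_cellw_lt`), i.e. the cells of depth `s` have length in `(ε^s / 2, ε^s]`;
`0 ≤ y - trep ε s y ≤ ε^s`;  `tl_cell_count` : an interval of half-length `R ε^s` meets at most `⌈4R⌉₊ + 1` cells;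
`tl_ip_rot_tang`, `tl_ip_rot_nrm`, `tl_rect_rot` : a rectangle of frame `g` seen in the frame `φ`.
-/

set_option autoImplicit false

namespace Claimed.Agent.R255

open Classical

theorem tl_two_rpow_logb {ε : ℝ} (h0 : 0 < ε) (s : ℝ) :
    (2 : ℝ) ^ (s * Real.logb 2 (1 / ε)) = (ε ^ s)⁻¹ := by
  rw [mul_comm, Real.rpow_mul (by norm_num), Real.rpow_logb (by norm_num) (by norm_num) (by positivity),
    one_div, Real.inv_rpow h0.le]

theorem tl_cellw_ge {ε : ℝ} (h0 : 0 < ε) (s : ℝ) : 1 ≤ ε ^ s * 2 ^ (tlev ε s) := by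
  have hp : 0 < ε ^ s := Real.rpow_pos_of_pos h0 s
  have h2 : (ε ^ s)⁻¹ ≤ (2 : ℝ) ^ (tlev ε s) := by
    rw [← tl_two_rpow_logb h0 s, ← Real.rpow_natCast]
    exact Real.rpow_le_rpow_of_exponent_le (by norm_num) (Nat.le_ceil _)
  calc (1 : ℝ) = ε ^ s * (ε ^ s)⁻¹ := (mul_inv_cancel₀ hp.ne').symm
    _ ≤ _ := mul_le_mul_of_nonneg_left h2 hp.le

theorem tl_cellw_lt {ε : ℝ} (h0 : 0 < ε) (h1 : ε < 1) {s : ℝ} (hs : 0 ≤ s) :
    ε ^ s * 2 ^ (tlev ε s) < 2 := by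
  have hp : 0 < ε ^ s := Real.rpow_pos_of_pos h0 s
  have h2 : (2 : ℝ) ^ (tlev ε s) < (ε ^ s)⁻¹ * 2 := by
    rw [← tl_two_rpow_logb h0 s, ← Real.rpow_natCast]
    have : (2 : ℝ) ^ (s * Real.logb 2 (1 / ε)) * 2 = (2 : ℝ) ^ (s * Real.logb 2 (1 / ε) + 1) := by
      rw [Real.rpow_add (by norm_num), Real.rpow_one]
    rw [this]
    exact Real.rpow_lt_rpow_of_exponent_lt (by norm_num)
      (Nat.ceil_lt_add_one (mul_nonneg hs (tl_logb_pos h0 h1).le))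
  calc ε ^ s * 2 ^ (tlev ε s) < ε ^ s * ((ε ^ s)⁻¹ * 2) := mul_lt_mul_of_pos_left h2 hp
    _ = 2 := by rw [← mul_assoc, mul_inv_cancel₀ hp.ne', one_mul]

theorem tl_crep_tcell (ε s y : ℝ) : crep ε s (tcell ε s y) = trep ε s y := rfl

theorem tl_trep_le (ε s y : ℝ) : trep ε s y ≤ y := by
  unfold trep tcell
  rw [div_le_iff₀ (by positivity)]
  exact Int.floor_le _

theorem tl_sub_trep_le {ε : ℝ} (h0 : 0 < ε) (s y : ℝ) : y - trep ε s y ≤ ε ^ s := by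
  have hW : (0 : ℝ) < 2 ^ (tlev ε s) := by positivity
  have h2 := Int.lt_floor_add_one (y * 2 ^ (tlev ε s))
  have h3 := tl_cellw_ge h0 s
  have h4 : y - trep ε s y < 1 / 2 ^ (tlev ε s) := by
    unfold trep tcell
    rw [lt_div_iff₀ hW, sub_mul, div_mul_cancel₀ _ hW.ne']
    linarith
  have h5 : 1 / 2 ^ (tlev ε s) ≤ ε ^ s := by
    rw [div_le_iff₀ hW]
    exact h3
  linarith

theorem tl_abs_sub_trep {ε : ℝ} (h0 : 0 < ε) (s y : ℝ) : |y - trep ε s y| ≤ ε ^ s := by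
  rw [abs_of_nonneg (sub_nonneg.2 (tl_trep_le ε s y))]
  exact tl_sub_trep_le h0 s y

theorem tl_cell_frac {ε : ℝ} (h0 : 0 < ε) (s y : ℝ) : |(y - trep ε s y) / ε ^ s| ≤ 1 := by
  have hp : 0 < ε ^ s := Real.rpow_pos_of_pos h0 s
  rw [abs_div, abs_of_pos hp, div_le_one hp]
  exact tl_abs_sub_trep h0 s y

/-- an interval of half-length `R ε^s` meets at most `⌈4R⌉₊ + 1` cells of depth `s` -/
theorem tl_cell_count {ε : ℝ} (h0 : 0 < ε) (h1 : ε < 1) {s : ℝ} (hs : 0 ≤ s) {y y₀ R : ℝ}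
    (h : |y - y₀| ≤ R * ε ^ s) :
    tcell ε s y ∈ Finset.Icc ⌊(y₀ - R * ε ^ s) * 2 ^ (tlev ε s)⌋
      (⌊(y₀ - R * ε ^ s) * 2 ^ (tlev ε s)⌋ + (⌈4 * R⌉₊ : ℤ)) := by
  have hp : 0 < ε ^ s := Real.rpow_pos_of_pos h0 s
  have hW : (0 : ℝ) < 2 ^ (tlev ε s) := by positivity
  have hR : 0 ≤ R := by
    by_contra hR
    have : R * ε ^ s < 0 := mul_neg_of_neg_of_pos (not_le.1 hR) hp
    linarith [abs_nonneg (y - y₀)]
  obtain ⟨a1, a2⟩ := abs_le.1 h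
  rw [Finset.mem_Icc]
  unfold tcell
  constructor
  · exact Int.floor_le_floor (mul_le_mul_of_nonneg_right (by linarith) hW.le)
  · rw [← Int.lt_add_one_iff, Int.floor_lt]
    push_cast
    have b1 : y * 2 ^ (tlev ε s) ≤ (y₀ - R * ε ^ s) * 2 ^ (tlev ε s) + 2 * R * (ε ^ s * 2 ^ (tlev ε s)) := by
      have : y * 2 ^ (tlev ε s) ≤ (y₀ + R * ε ^ s) * 2 ^ (tlev ε s) :=
        mul_le_mul_of_nonneg_right (by linarith) hW.le
      nlinarith
    have b2 : 2 * R * (ε ^ s * 2 ^ (tlev ε s)) ≤ 4 * R := by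
      have := (tl_cellw_lt h0 h1 hs).le
      nlinarith
    have b3 := Int.lt_floor_add_one ((y₀ - R * ε ^ s) * 2 ^ (tlev ε s))
    have b4 : 4 * R ≤ (⌈4 * R⌉₊ : ℝ) := Nat.le_ceil _
    linarith

theorem tl_card_Icc_nat (k : ℤ) (m : ℕ) : (Finset.Icc k (k + (m : ℤ))).card = m + 1 := by
  rw [Int.card_Icc]
  have : k + (m : ℤ) + 1 - k = ((m + 1 : ℕ) : ℤ) := by push_cast; ring
  rw [this, Int.toNat_natCast]

/-! ## rotation of frames -/

theorem tl_ip_rot_tang (z : ℝ × ℝ) (g φ : ℝ) :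
    ip z (tang φ) = ip z (tang g) * Real.cos (g - φ) - ip z (nrm g) * Real.sin (g - φ) := by
  simp only [ip, tang, nrm, Real.cos_sub, Real.sin_sub]
  linear_combination (-(z.1 * Real.cos φ + z.2 * Real.sin φ)) * Real.sin_sq_add_cos_sq g

theorem tl_ip_rot_nrm (z : ℝ × ℝ) (g φ : ℝ) :
    ip z (nrm φ) = ip z (tang g) * Real.sin (g - φ) + ip z (nrm g) * Real.cos (g - φ) := by
  simp only [ip, tang, nrm, Real.cos_sub, Real.sin_sub]
  linear_combination (-(-(z.1 * Real.sin φ) + z.2 * Real.cos φ)) * Real.sin_sq_add_cos_sq g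

/-- a rectangle of frame `g` seen in the frame `φ` -/
theorem tl_rect_rot {K ε β α g φ σ : ℝ} {z : ℝ × ℝ} (h : InRect K ε β α g z)
    (hσ : |Real.sin (g - φ)| ≤ σ) :
    |ip z (tang φ)| ≤ K * ε ^ β + K * ε ^ α ∧ |ip z (nrm φ)| ≤ K * ε ^ β * σ + K * ε ^ α := by
  have c1 : |Real.cos (g - φ)| ≤ 1 := Real.abs_cos_le_one _
  have s1 : |Real.sin (g - φ)| ≤ 1 := Real.abs_sin_le_one _
  have p1 : 0 ≤ K * ε ^ β := (abs_nonneg _).trans h.1
  have p2 : 0 ≤ K * ε ^ α := (abs_nonneg _).trans h.2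
  constructor
  · rw [tl_ip_rot_tang z g φ]
    refine (abs_sub _ _).trans ?_
    rw [abs_mul, abs_mul]
    exact add_le_add ((mul_le_mul h.1 c1 (abs_nonneg _) p1).trans_eq (mul_one _))
      ((mul_le_mul h.2 s1 (abs_nonneg _) p2).trans_eq (mul_one _))
  · rw [tl_ip_rot_nrm z g φ]
    refine (abs_add_le _ _).trans ?_
    rw [abs_mul, abs_mul]
    exact add_le_add (mul_le_mul h.1 hσ (abs_nonneg _) p1)
      ((mul_le_mul h.2 c1 (abs_nonneg _) p2).trans_eq (mul_one _))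

end Claimed.Agent.R255
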