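-- KEEP
import Claimed.Agent.R255.Cl.Tools.Tau

/-!
# Row 255 (BR paper), chapter TOOLS, finite level: KERNEL FORM of root tests and GLUING of kernels      (helper240, for chief helper216)

Sorry-free helper library for `tl_loc_assemble` (LocB.lean) and `tl_split_tau` (Split.lean).
* `tl_asm_law_ev / _comp / _ent / _mi` : `ev`, laws of functions, `ent`, `mi` depend only on the (joint) LAW of the observations (two different spaces).
* `tl_asm_ext_joint`   : joint law of `(T, new label)` when the kernel depends on `T` only.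
* `tl_asm_test_kernel` : every `x ∈ S.tauSet γ ε L` is the value of a label drawn ON `S` ITSELF from a kernel `kk : Ker S.ι Γ` (`Γ` finite) depending on the particle only.
* `tl_asm_glue`        : kernels `kk j : Ker ι (Γ j)`, one for each value `j` of an observation `J`, are glued into ONE kernel `κ : Ker Ω (Σ a, Γ a)` depending on `(T, J)`;
                         `E w - I(T ; label | J)/l` of the glued label = average over `J` of the values `E w_j - I(T ; label_j)/l` on the conditional laws `P.cnd (J = j)`.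
-/

set_option autoImplicit false

namespace Claimed.Agent.R255

open Classical

/-- expectations of functions of observations with the same law -/
theorem tl_asm_law_ev {Ω Ω' α : Type} [Fintype Ω] [Fintype Ω'] (P : FLaw Ω) (Q : FLaw Ω') (X : Ω → α) (Y : Ω' → α)
    (h : ∀ a, P.pr (fun ω => X ω = a) = Q.pr (fun ω => Y ω = a)) (F : α → ℝ) :
    P.ev (fun ω => F (X ω)) = Q.ev (fun ω => F (Y ω)) := by
  obtain ⟨U, hU⟩ : ∃ U : Finset α, U = Finset.univ.image X ∪ Finset.univ.image Y := ⟨_, rfl⟩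
  rw [ent_ev_comp P X U (fun ω _ => by
      rw [hU]; exact Finset.mem_union_left _ (Finset.mem_image_of_mem _ (Finset.mem_univ _))) F,
    ent_ev_comp Q Y U (fun ω _ => by
      rw [hU]; exact Finset.mem_union_right _ (Finset.mem_image_of_mem _ (Finset.mem_univ _))) F]
  exact Finset.sum_congr rfl fun a _ => by rw [h a]

/-- functions of observations with the same law have the same law -/
theorem tl_asm_law_comp {Ω Ω' α β : Type} [Fintype Ω] [Fintype Ω'] (P : FLaw Ω) (Q : FLaw Ω') (X : Ω → α) (Y : Ω' → α)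
    (h : ∀ a, P.pr (fun ω => X ω = a) = Q.pr (fun ω => Y ω = a)) (f : α → β) (b : β) :
    P.pr (fun ω => f (X ω) = b) = Q.pr (fun ω => f (Y ω) = b) := by
  rw [ent_pr_eq_ev, ent_pr_eq_ev]
  exact tl_asm_law_ev P Q X Y h (fun a => if f a = b then 1 else 0)

/-- observations with the same law have the same entropy -/
theorem tl_asm_law_ent {Ω Ω' α : Type} [Fintype Ω] [Fintype Ω'] (P : FLaw Ω) (Q : FLaw Ω') (X : Ω → α) (Y : Ω' → α)
    (h : ∀ a, P.pr (fun ω => X ω = a) = Q.pr (fun ω => Y ω = a)) : P.ent X = Q.ent Y := by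
  obtain ⟨U, hU⟩ : ∃ U : Finset α, U = Finset.univ.image X ∪ Finset.univ.image Y := ⟨_, rfl⟩
  rw [ent_eq_sum P X U (fun ω _ => by
      rw [hU]; exact Finset.mem_union_left _ (Finset.mem_image_of_mem _ (Finset.mem_univ _))),
    ent_eq_sum Q Y U (fun ω _ => by
      rw [hU]; exact Finset.mem_union_right _ (Finset.mem_image_of_mem _ (Finset.mem_univ _)))]
  exact Finset.sum_congr rfl fun a _ => by rw [h a]

/-- pairs with the same joint law have the same mutual information -/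
theorem tl_asm_law_mi {Ω Ω' α β : Type} [Fintype Ω] [Fintype Ω'] (P : FLaw Ω) (Q : FLaw Ω') (X : Ω → α) (X2 : Ω → β)
    (Y : Ω' → α) (Y2 : Ω' → β)
    (h : ∀ z, P.pr (fun ω => FLaw.pair X X2 ω = z) = Q.pr (fun ω => FLaw.pair Y Y2 ω = z)) :
    P.mi X X2 = Q.mi Y Y2 := by
  unfold FLaw.mi
  rw [tl_asm_law_ent P Q _ _ h,
    tl_asm_law_ent P Q X Y (fun a => tl_asm_law_comp P Q _ _ h Prod.fst a),
    tl_asm_law_ent P Q X2 Y2 (fun a => tl_asm_law_comp P Q _ _ h Prod.snd a)]

/-- joint law of an old observation and a new label drawn from a kernel which depends on that observation only -/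
theorem tl_asm_ext_joint {Ω ι Γ : Type} [Fintype Ω] [Fintype Γ] (P : FLaw Ω) (T : Ω → ι) (kk : FLaw.Ker ι Γ) (i : ι) (g : Γ) :
    (P.ext ⟨fun ω => kk.k (T ω), fun _ => kk.nonneg _, fun _ => kk.sum_one _⟩).pr
      (fun x => FLaw.pair (fun x : Ω × Γ => T x.1) (fun x => x.2) x = (i, g)) = P.pr (fun ω => T ω = i) * kk.k i g := by
  unfold FLaw.pr FLaw.ext FLaw.pair
  rw [Fintype.sum_prod_type, Finset.sum_mul]
  refine Finset.sum_congr rfl fun ω _ => ?_
  simp only [Prod.mk.injEq]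
  by_cases hT : T ω = i
  · simp only [hT, true_and, if_true]
    rw [Finset.sum_ite_eq' Finset.univ g (fun g' => P.p ω * kk.k i g')]
    simp
  · simp [hT]

/-- KERNEL FORM of a root test: the label is drawn from a kernel depending on the particle only -/
theorem tl_asm_test_kernel (S : CSys) (γ ε L x : ℝ) (hx : x ∈ S.tauSet γ ε L) :
    ∃ (Γ : Type) (_ : Fintype Γ) (kk : FLaw.Ker S.ι Γ) (geo : Γ → Geo),
      (∀ i g, 0 < S.P.pr (fun ω => S.T ω = i) → 0 < kk.k i g → (geo g).RootCompat 1 ε L (S.V i) (S.A i)) ∧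
      x = (S.P.ext ⟨fun ω => kk.k (S.T ω), fun _ => kk.nonneg _, fun _ => kk.sum_one _⟩).ev
            (fun y => wt γ (geo y.2))
        - (S.P.ext ⟨fun ω => kk.k (S.T ω), fun _ => kk.nonneg _, fun _ => kk.sum_one _⟩).mi
            (fun y => S.T y.1) (fun y => y.2) / lg ε := by
  obtain ⟨Ω', inst, P', T', Γ₀, D, geo₀, hlaw, hcomp, rfl⟩ := hx
  have hne : Nonempty Ω' := by
    obtain ⟨ω, _⟩ := ent_exists_supp P'
    exact ⟨ω⟩
  obtain ⟨U, hU⟩ : ∃ U : Ω' → Ω', ∀ ω, U ω = Function.invFun D (D ω) := ⟨_, fun _ => rfl⟩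
  have hDU : ∀ ω, D (U ω) = D ω := fun ω => by
    rw [hU]
    exact Function.invFun_eq ⟨ω, rfl⟩
  have hUU : ∀ ω ω', D ω = D ω' ↔ U ω = U ω' := fun ω ω' => by
    constructor
    · intro h
      rw [hU, hU, h]
    · intro h
      rw [← hDU ω, ← hDU ω', h]
  have hsum1 : ∀ i, ∑ g, P'.pr (fun ω => T' ω = i ∧ U ω = g) = P'.pr (fun ω => T' ω = i) := fun i =>
    (ent_pr_sum_values P' (fun ω => T' ω = i) U Finset.univ (fun _ _ _ => Finset.mem_univ _)).symm
  have hsum2 : ∑ g, P'.pr (fun ω => U ω = g) = 1 := by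
    have h := ent_pr_sum_values P' (fun _ => True) U Finset.univ (fun _ _ _ => Finset.mem_univ _)
    rw [ent_pr_true] at h
    simpa using h.symm
  obtain ⟨kk, hkk⟩ : ∃ kk : FLaw.Ker S.ι Ω', ∀ i g, kk.k i g =
      if 0 < P'.pr (fun ω => T' ω = i) then P'.pr (fun ω => T' ω = i ∧ U ω = g) / P'.pr (fun ω => T' ω = i)
      else P'.pr (fun ω => U ω = g) := by
    refine ⟨⟨fun i g => if 0 < P'.pr (fun ω => T' ω = i) then
      P'.pr (fun ω => T' ω = i ∧ U ω = g) / P'.pr (fun ω => T' ω = i) else P'.pr (fun ω => U ω = g), ?_, ?_⟩,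
      fun _ _ => rfl⟩
    · intro i g
      split_ifs
      · exact div_nonneg (ent_pr_nonneg _ _) (ent_pr_nonneg _ _)
      · exact ent_pr_nonneg _ _
    · intro i
      by_cases h : 0 < P'.pr (fun ω => T' ω = i)
      · simp only [h, if_true]
        rw [← Finset.sum_div, hsum1, div_self h.ne']
      · simp only [h, if_false]
        exact hsum2
  have hjoint : ∀ z : S.ι × Ω',
      (S.P.ext ⟨fun ω => kk.k (S.T ω), fun _ => kk.nonneg _, fun _ => kk.sum_one _⟩).pr
        (fun y => FLaw.pair (fun y : S.Ω × Ω' => S.T y.1) (fun y => y.2) y = z)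
      = P'.pr (fun ω => FLaw.pair T' U ω = z) := by
    rintro ⟨i, g⟩
    rw [tl_asm_ext_joint S.P S.T kk i g, ← hlaw i, hkk]
    have h1 : P'.pr (fun ω => FLaw.pair T' U ω = (i, g)) = P'.pr (fun ω => T' ω = i ∧ U ω = g) := by
      refine ent_pr_congr P' fun ω _ => ?_
      simp only [FLaw.pair, Prod.mk.injEq]
    rw [h1]
    by_cases h : 0 < P'.pr (fun ω => T' ω = i)
    · simp only [h, if_true]
      field_simp
    · have h0 : P'.pr (fun ω => T' ω = i) = 0 := le_antisymm (not_lt.1 h) (ent_pr_nonneg _ _)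
      have h2 : P'.pr (fun ω => T' ω = i ∧ U ω = g) ≤ P'.pr (fun ω => T' ω = i) :=
        ent_pr_mono P' fun ω _ h => h.1
      rw [h0, zero_mul]
      exact le_antisymm (ent_pr_nonneg _ _) (h0 ▸ h2)
  refine ⟨Ω', inst, kk, fun g => geo₀ (D g), ?_, ?_⟩
  · intro i g hi hg
    rw [← hlaw i] at hi
    rw [hkk, if_pos hi] at hg
    have h1 : 0 < P'.pr (fun ω => T' ω = i ∧ U ω = g) := by
      by_contra hcon
      have h0 : P'.pr (fun ω => T' ω = i ∧ U ω = g) = 0 := le_antisymm (not_lt.1 hcon) (ent_pr_nonneg _ _)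
      rw [h0, zero_div] at hg
      exact lt_irrefl _ hg
    obtain ⟨ω, ⟨hω1, hω2⟩, hω3⟩ := (ent_pr_pos_iff P' _).1 h1
    have h2 := hcomp ω (lt_of_le_of_ne (P'.nonneg ω) (Ne.symm hω3))
    rw [hω1, ← hDU ω, hω2] at h2
    exact h2
  · have e1 : P'.ev (fun ω => wt γ (geo₀ (D ω))) = P'.ev (fun ω => wt γ (geo₀ (D (FLaw.pair T' U ω).2))) := by
      refine ent_ev_congr P' fun ω _ => ?_
      simp only [FLaw.pair]
      rw [hDU]
    have e2 := tl_asm_law_ev _ P' _ _ hjoint (fun z => wt γ (geo₀ (D z.2)))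
    have e3 : P'.mi T' D = P'.mi T' U :=
      ent_mi_congr P' T' T' D U (fun _ _ _ _ => Iff.rfl) (fun ω ω' _ _ => hUU ω ω')
    have e4 := tl_asm_law_mi _ P' _ _ _ _ hjoint
    rw [e1, e3, ← e2, ← e4]
    rfl

/-- expectation of an old observable on an extension -/
theorem tl_asm_ext_ev_fst {Ω Γ : Type} [Fintype Ω] [Fintype Γ] (P : FLaw Ω) (κ : FLaw.Ker Ω Γ) (f : Ω → ℝ) :
    (P.ext κ).ev (fun x => f x.1) = P.ev f := by
  have h := ent_map_ev (P.ext κ) Prod.fst f
  rw [ent_ext_map_fst] at h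
  exact h.symm

/-- probability of an old event on an extension -/
theorem tl_asm_ext_pr_fst {Ω Γ : Type} [Fintype Ω] [Fintype Γ] (P : FLaw Ω) (κ : FLaw.Ker Ω Γ) (E : Ω → Prop) :
    (P.ext κ).pr (fun x => E x.1) = P.pr E := by
  have h := ent_map_pr (P.ext κ) Prod.fst E
  rw [ent_ext_map_fst] at h
  exact h.symm

/-- GLUING of kernels `kk j` (one for each value `j` of `J`) into one kernel depending on `(T, J)`; the value of the glued label is the average of the values -/
theorem tl_asm_glue {Ω ι JJ : Type} [Fintype Ω] (P : FLaw Ω) (T : Ω → ι) (J : Ω → JJ) (Γ : JJ → Type)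
    [∀ j, Fintype (Γ j)] (kk : ∀ j, FLaw.Ker ι (Γ j)) (w : ∀ j, Γ j → ℝ) (l : ℝ) :
    ∃ κ : FLaw.Ker Ω (Σ a : ↥(Finset.univ.image J), Γ a.1),
      (∀ ω a g, κ.k ω ⟨a, g⟩ = if a.1 = J ω then (kk a.1).k (T ω) g else 0) ∧
      (P.ext κ).ev (fun x => w x.2.1.1 x.2.2)
          - (P.ext κ).miC (fun x => T x.1) (fun x => x.2) (fun x => J x.1) / l
        = P.ev (fun ω =>
            ((P.cnd (fun ω' => J ω' = J ω)).ext
              ⟨fun ω' => (kk (J ω)).k (T ω'), fun _ => (kk _).nonneg _, fun _ => (kk _).sum_one _⟩).ev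
                (fun y => w (J ω) y.2)
            - ((P.cnd (fun ω' => J ω' = J ω)).ext
              ⟨fun ω' => (kk (J ω)).k (T ω'), fun _ => (kk _).nonneg _, fun _ => (kk _).sum_one _⟩).mi
                (fun y => T y.1) (fun y => y.2) / l) := by
  have hmem : ∀ ω, J ω ∈ Finset.univ.image J := fun ω => Finset.mem_image_of_mem _ (Finset.mem_univ _)
  obtain ⟨κ, hκ⟩ : ∃ κ : FLaw.Ker Ω (Σ a : ↥(Finset.univ.image J), Γ a.1),
      ∀ ω a g, κ.k ω ⟨a, g⟩ = if a.1 = J ω then (kk a.1).k (T ω) g else 0 := by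
    refine ⟨⟨fun ω x => if x.1.1 = J ω then (kk x.1.1).k (T ω) x.2 else 0, ?_, ?_⟩, fun _ _ _ => rfl⟩
    · intro ω x
      split_ifs
      · exact (kk _).nonneg _ _
      · exact le_rfl
    · intro ω
      rw [Fintype.sum_sigma]
      rw [Finset.sum_eq_single (⟨J ω, hmem ω⟩ : ↥(Finset.univ.image J))]
      · simp only [if_true]
        exact (kk _).sum_one _
      · intro a _ ha
        have : a.1 ≠ J ω := fun h => ha (Subtype.ext h)
        simp [this]
      · intro h
        exact absurd (Finset.mem_univ _) h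
  refine ⟨κ, hκ, ?_⟩
  obtain ⟨Q, hQ⟩ : ∃ Q : FLaw (Ω × (Σ a : ↥(Finset.univ.image J), Γ a.1)), Q = P.ext κ := ⟨_, rfl⟩
  rw [← hQ]
  -- the conditional laws of the extension
  have hkey : ∀ ω₀ : Ω, P.p ω₀ ≠ 0 → Q.cnd (fun x => J x.1 = J ω₀) =
      ((P.cnd (fun ω' => J ω' = J ω₀)).ext
        ⟨fun ω' => (kk (J ω₀)).k (T ω'), fun _ => (kk _).nonneg _, fun _ => (kk _).sum_one _⟩).map
        (fun y => (y.1, (⟨⟨J ω₀, hmem ω₀⟩, y.2⟩ : Σ a : ↥(Finset.univ.image J), Γ a.1))) := by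
    intro ω₀ hω₀
    have hpos : 0 < P.pr (fun ω' => J ω' = J ω₀) := (ent_pr_pos_iff P _).2 ⟨ω₀, rfl, hω₀⟩
    have hposQ : Q.pr (fun x => J x.1 = J ω₀) = P.pr (fun ω' => J ω' = J ω₀) := by
      rw [hQ]
      exact tl_asm_ext_pr_fst P κ (fun ω' => J ω' = J ω₀)
    refine ent_law_ext _ _ ?_
    rintro ⟨ω, a, g⟩
    rw [ent_cnd_p Q _ (hposQ ▸ hpos), hposQ]
    have hQp : Q.p (ω, ⟨a, g⟩) = P.p ω * (if a.1 = J ω then (kk a.1).k (T ω) g else 0) := by
      rw [hQ, ← hκ]
      rfl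
    rw [hQp]
    obtain ⟨m, hm⟩ : ∃ m : ℝ, m = P.pr (fun ω' => J ω' = J ω₀) := ⟨_, rfl⟩
    rw [← hm]
    show _ = FLaw.pr _ _
    unfold FLaw.pr
    by_cases ha : a = ⟨J ω₀, hmem ω₀⟩
    · subst ha
      rw [Finset.sum_eq_single (ω, g)]
      · simp only [if_true]
        show _ = (P.cnd (fun ω' => J ω' = J ω₀)).p ω * (kk (J ω₀)).k (T ω) g
        rw [ent_cnd_p P _ hpos, ← hm]
        by_cases hJ : J ω = J ω₀
        · simp only [hJ, if_true]
          ring
        · simp [hJ]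
      · rintro ⟨ω', g'⟩ _ hne
        rw [if_neg]
        intro h
        apply hne
        simp only [Prod.mk.injEq, Sigma.mk.injEq, heq_eq_eq, true_and] at h
        rw [h.1, h.2]
      · intro h
        exact absurd (Finset.mem_univ _) h
    · rw [Finset.sum_eq_zero]
      · by_cases hJ : J ω = J ω₀
        · have : a.1 ≠ J ω := fun h => ha (Subtype.ext (h.trans hJ))
          simp [this]
        · simp [hJ]
      · rintro ⟨ω', g'⟩ _
        rw [if_neg]
        intro h
        simp only [Prod.mk.injEq, Sigma.mk.injEq] at h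
        exact ha h.2.1.symm
  have e1 := ent_ev_tower Q (fun x => J x.1) (fun x => w x.2.1.1 x.2.2)
  have e2 := ent_miC_eq_avg Q (fun x => T x.1) (fun x => x.2) (fun x => J x.1)
  rw [e1, e2, div_eq_inv_mul, ← ent_ev_mul_left, ← ent_ev_sub]
  rw [← tl_asm_ext_ev_fst P κ, ← hQ]
  refine ent_ev_congr Q fun x hx => ?_
  have hx1 : P.p x.1 ≠ 0 := by
    intro h
    apply hx
    rw [hQ]
    show P.p x.1 * _ = 0
    rw [h, zero_mul]
  have e3 : Q.cfib (fun x => J x.1) x = Q.cnd (fun y => J y.1 = J x.1) := rfl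
  rw [e3, hkey x.1 hx1, ent_map_ev, ent_map_mi, div_eq_inv_mul]
  congr 2
  refine ent_mi_congr _ _ _ _ _ (fun _ _ _ _ => Iff.rfl) (fun y y' _ _ => ?_)
  simp only [Sigma.mk.injEq, heq_eq_eq, true_and]

end Claimed.Agent.R255
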