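-- KEEP
import Claimed.Agent.R255.Cl.Tools.Tau
import Claimed.Agent.R255.Cl.Tools.Cells

/-!
# Row 255 (BR paper), chapter TOOLS (Sec. 4.1-4.3), finite level: package TL-LOC-A (Lemma 4.5, geometry)      (chief helper216)

One finite system, one precision `ε`, explicit errors `C / lg ε`.  No limits.  STATEMENTS ARE FROZEN (ask helper216); provers replace the `sorry`s IN PLACE, helper lemmas go above (prefix `tl_`, names must be new).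
You may use every statement of the imported files (also sorried ones) and every EARLIER statement of this file.  Entropy calculus: `R255/Ent/Basic.lean`.
-/

set_option autoImplicit false

namespace Claimed.Agent.R255

open Classical

/-! ### helper lemmas for TL-LOC-A1 (helper26) -/

theorem tl_inRect_cell {ε : ℝ} (h0 : 0 < ε) (s s' φ : ℝ) (z : ℝ × ℝ) :
    InRect 1 ε s s' φ (z - (trep ε s (ip z (tang φ)) • tang φ + trep ε s' (ip z (nrm φ)) • nrm φ)) := by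
  constructor
  · rw [tl_ip_sub, tl_ip_add, tl_ip_smul, tl_ip_smul, tl_ip_tang_tang, tl_ip_nrm_tang, mul_one, mul_zero,
      add_zero, one_mul]
    exact tl_abs_sub_trep h0 _ _
  · rw [tl_ip_sub, tl_ip_add, tl_ip_smul, tl_ip_smul, tl_ip_tang_nrm, tl_ip_nrm_nrm, mul_one, mul_zero,
      zero_add, one_mul]
    exact tl_abs_sub_trep h0 _ _

/-- bounded ambiguity of a cell observation -/
theorem tl_nval_cell {Ω α : Type} [Fintype Ω] (P : FLaw Ω) (A : Ω → α) (y : Ω → ℝ) {ε s R : ℝ}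
    (h0 : 0 < ε) (h1 : ε < 1) (hs : 0 ≤ s)
    (h : ∀ ω₀, ∃ y₀ : ℝ, ∀ ω, P.p ω ≠ 0 → A ω = A ω₀ → |y ω - y₀| ≤ R * ε ^ s) :
    P.entC (fun ω => tcell ε s (y ω)) A ≤ Real.log ((⌈4 * R⌉₊ : ℝ) + 1) := by
  refine ent_entC_le_log_nval P _ _ fun ω₀ => ?_
  obtain ⟨y₀, hy₀⟩ := h ω₀
  refine ⟨Finset.Icc ⌊(y₀ - R * ε ^ s) * 2 ^ (tlev ε s)⌋
      (⌊(y₀ - R * ε ^ s) * 2 ^ (tlev ε s)⌋ + (⌈4 * R⌉₊ : ℤ)), ?_, fun ω hω _ hA => ?_⟩
  · rw [tl_card_Icc_nat]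
    push_cast
    exact le_refl _
  · exact tl_cell_count h0 h1 hs (hy₀ ω hω hA)

theorem tl_det_arith5 {K Eb Ea Et Er u v dc : ℝ} (hK : 0 ≤ K) (Eb0 : 0 ≤ Eb) (Er0 : 0 ≤ Er)
    (Ea0 : 0 ≤ Ea) (Et0 : 0 ≤ Et) (hEa : Ea ≤ Eb) (hEt : Et ≤ Er)
    (h1 : |u| ≤ K * (Eb * Et) + K * (Ea * Et)) (h2 : |v| ≤ K * Eb + K * Ea)
    (h3 : |dc| ≤ (K + 1) * Er) : |u + dc * v| ≤ 2 * K * (K + 2) * (Eb * Er) := by
  have a1 : K * (Eb * Et) ≤ K * (Eb * Er) :=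
    mul_le_mul_of_nonneg_left (mul_le_mul_of_nonneg_left hEt Eb0) hK
  have a2 : K * (Ea * Et) ≤ K * (Eb * Er) :=
    mul_le_mul_of_nonneg_left (mul_le_mul hEa hEt Et0 Eb0) hK
  have a3 : K * Eb + K * Ea ≤ 2 * K * Eb := by nlinarith
  have a4 : |dc * v| ≤ (K + 1) * Er * (2 * K * Eb) := by
    rw [abs_mul]
    exact mul_le_mul h3 (h2.trans a3) (abs_nonneg _) (by positivity)
  calc |u + dc * v| ≤ |u| + |dc * v| := abs_add_le _ _
    _ ≤ (K * (Eb * Er) + K * (Eb * Er)) + (K + 1) * Er * (2 * K * Eb) := by linarith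
    _ = 2 * K * (K + 2) * (Eb * Er) := by ring

theorem tl_det_arith6 {K Eb Ed Ea Et Er u v dc : ℝ} (hK : 0 ≤ K) (Eb0 : 0 ≤ Eb) (Ed0 : 0 ≤ Ed)
    (Er0 : 0 ≤ Er) (Ea0 : 0 ≤ Ea) (Et0 : 0 ≤ Et) (hEa : Ea ≤ Eb * Ed) (hEt : Et ≤ Er)
    (h1 : |u| ≤ K * (Eb * Et) * (K * Ed) + K * (Ea * Et)) (h2 : |v| ≤ K * Eb * (K * Ed) + K * Ea)
    (h3 : |dc| ≤ (K + 1) * Er) : |u + dc * v| ≤ (K ^ 2 + K) * (K + 2) * (Eb * Ed * Er) := by
  have a1 : K * (Eb * Et) * (K * Ed) ≤ K * (Eb * Er) * (K * Ed) :=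
    mul_le_mul_of_nonneg_right
      (mul_le_mul_of_nonneg_left (mul_le_mul_of_nonneg_left hEt Eb0) hK) (by positivity)
  have a2 : K * (Ea * Et) ≤ K * (Eb * Ed * Er) :=
    mul_le_mul_of_nonneg_left (mul_le_mul hEa hEt Et0 (by positivity)) hK
  have a3 : K * Eb * (K * Ed) + K * Ea ≤ (K ^ 2 + K) * (Eb * Ed) := by nlinarith
  have a4 : |dc * v| ≤ (K + 1) * Er * ((K ^ 2 + K) * (Eb * Ed)) := by
    rw [abs_mul]
    exact mul_le_mul h3 (h2.trans a3) (abs_nonneg _) (by positivity)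
  calc |u + dc * v| ≤ |u| + |dc * v| := abs_add_le _ _
    _ ≤ (K * (Eb * Er) * (K * Ed) + K * (Eb * Ed * Er)) + (K + 1) * Er * ((K ^ 2 + K) * (Eb * Ed)) := by
        linarith
    _ = (K ^ 2 + K) * (K + 2) * (Eb * Ed * Er) := by ring

/-- the five cells of `J` are located by the final label and the coarse frame -/
theorem tl_det_core {K ε t L b a d r : ℝ} (h0 : 0 < ε) (h1 : ε < 1) (g : Geo) (V A : ℝ × ℝ) (c φ : ℝ)
    (hc : g.Compat K ε t L V A c) (hgb : g.b = b) (hga : g.a = a) (hd0 : 0 ≤ d) (hd : d ≤ a - b)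
    (hr : r ≤ t) (hs : |Real.sin (g.th - φ)| ≤ K * ε ^ d) :
    |c - g.tc| ≤ K * ε ^ r ∧
    |ip V (tang φ) - ip g.vc (tang φ)| ≤ (2 * K) * ε ^ b ∧
    |ip V (nrm φ) - ip g.vc (nrm φ)| ≤ (K ^ 2 + K) * ε ^ (b + d) ∧
    |ip (A + trep ε r c • V) (tang φ) - ip (g.xc + (trep ε r c - g.tc) • g.vc) (tang φ)|
      ≤ (2 * K * (K + 2)) * ε ^ (b + r) ∧
    |ip (A + trep ε r c • V) (nrm φ) - ip (g.xc + (trep ε r c - g.tc) • g.vc) (nrm φ)|
      ≤ ((K ^ 2 + K) * (K + 2)) * ε ^ (b + d + r) := by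
  obtain ⟨c1, c2, c3, c4, c5, c6⟩ := hc
  rw [hgb, hga] at c5 c6
  have Eb : 0 < ε ^ b := Real.rpow_pos_of_pos h0 b
  have Ea : 0 < ε ^ a := Real.rpow_pos_of_pos h0 a
  have Ed : 0 < ε ^ d := Real.rpow_pos_of_pos h0 d
  have Er : 0 < ε ^ r := Real.rpow_pos_of_pos h0 r
  have Et : 0 < ε ^ t := Real.rpow_pos_of_pos h0 t
  have hK : 0 ≤ K := by
    by_contra hK
    have : K * ε ^ t < 0 := mul_neg_of_neg_of_pos (not_le.1 hK) Et
    linarith [abs_nonneg (c - g.tc)]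
  have hEt : ε ^ t ≤ ε ^ r := Real.rpow_le_rpow_of_exponent_ge h0 h1.le hr
  have hEa : ε ^ a ≤ ε ^ b * ε ^ d := by
    rw [← Real.rpow_add h0]
    exact Real.rpow_le_rpow_of_exponent_ge h0 h1.le (by linarith)
  have hEd1 : ε ^ d ≤ 1 := Real.rpow_le_one h0.le h1.le hd0
  have hEab : ε ^ a ≤ ε ^ b := hEa.trans (by nlinarith)
  have hct : |c - g.tc| ≤ K * ε ^ r := c4.trans (mul_le_mul_of_nonneg_left hEt hK)
  obtain ⟨v1, v2⟩ := tl_rect_rot c5 hs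
  obtain ⟨x1, x2⟩ := tl_rect_rot c6 hs
  rw [Real.rpow_add h0, Real.rpow_add h0] at x1 x2
  have hdc : |trep ε r c - g.tc| ≤ (K + 1) * ε ^ r := by
    have e1 : trep ε r c - g.tc = (c - g.tc) - (c - trep ε r c) := by ring
    rw [e1]
    refine (abs_sub _ _).trans ?_
    have := tl_abs_sub_trep h0 r c
    linarith
  have key : ∀ w : ℝ × ℝ, ip (A + trep ε r c • V) w - ip (g.xc + (trep ε r c - g.tc) • g.vc) w =
      ip (A + g.tc • V - g.xc) w + (trep ε r c - g.tc) * ip (V - g.vc) w := by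
    intro w
    simp only [tl_ip_sub, tl_ip_add, tl_ip_smul]
    ring
  refine ⟨hct, ?_, ?_, ?_, ?_⟩
  · rw [← tl_ip_sub]
    refine v1.trans ?_
    nlinarith
  · rw [← tl_ip_sub, Real.rpow_add h0]
    refine v2.trans ?_
    nlinarith
  · rw [key, Real.rpow_add h0]
    exact tl_det_arith5 hK Eb.le Er.le Ea.le Et.le hEab hEt x1 v1 hdc
  · rw [key, Real.rpow_add h0, Real.rpow_add h0]
    exact tl_det_arith6 hK Eb.le Ed.le Er.le Ea.le Et.le hEa hEt x2 v2 hdc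

/-! `th : S.Ω → ℝ` is ANY angle observation whose depth-`d` prefix frame is within `K ε^d` of the frame of the final label.
Typical choices: `th = (geo (G ·)).th`;  `th = 0` if `d = 0`;  the terminal orientation of a path. -/

/-- the local systems live in the unit box -/
theorem tl_loc_bdd (S : CSys) (ε : ℝ) (p : LocPar) (th : S.Ω → ℝ) (h0 : 0 < ε) (h1 : ε < 1)
    (hb : 0 ≤ p.b) (hd : 0 ≤ p.d) (hr : 0 ≤ p.r) (ω₀ : S.Ω) (hω : 0 < S.P.p ω₀) :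
    (S.loc ε p th (S.J ε p th ω₀)).Bdd 1 := by
  intro ω hω'
  have hpos : 0 < S.P.pr (fun ω => S.J ε p th ω = S.J ε p th ω₀) :=
    (ent_pr_pos_iff _ _).2 ⟨ω₀, rfl, hω.ne'⟩
  have hJ : S.J ε p th ω = S.J ε p th ω₀ := ((ent_cnd_supp S.P _ hpos).1 (ne_of_gt hω')).1
  rw [← hJ]
  exact ⟨tl_cell_frac h0 _ _, tl_cell_frac h0 _ _, tl_cell_frac h0 _ _, tl_cell_frac h0 _ _,
    tl_cell_frac h0 _ _⟩

/-- `J` itself is an aperture label at duration `r` of shape `(b, b + d)` -/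
theorem tl_loc_J_label (S : CSys) (ε L : ℝ) (p : LocPar) (th : S.Ω → ℝ) (h0 : 0 < ε) (h1 : ε < 1)
    (hb : 0 ≤ p.b) (hd : 0 ≤ p.d) (hr : 0 ≤ p.r) (hL : p.b + p.d + p.r ≤ L) :
    ∃ geoJ : ℤ × ℤ × ℤ × ℤ × ℤ × ℤ → Geo, (∀ j, (geoJ j).b = p.b ∧ (geoJ j).a = p.b + p.d ∧
        (geoJ j).th = crep ε p.d j.2.1 ∧ (geoJ j).tc = crep ε p.r j.1) ∧
      S.IsLabel 1 ε p.r L (S.J ε p th) geoJ := by
  refine ⟨fun j => ⟨p.b, p.b + p.d, crep ε p.r j.1, crep ε p.d j.2.1,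
    crep ε p.b j.2.2.1 • tang (crep ε p.d j.2.1) + crep ε (p.b + p.d) j.2.2.2.1 • nrm (crep ε p.d j.2.1),
    crep ε (p.b + p.r) j.2.2.2.2.1 • tang (crep ε p.d j.2.1)
      + crep ε (p.b + p.d + p.r) j.2.2.2.2.2 • nrm (crep ε p.d j.2.1)⟩,
    fun j => ⟨rfl, rfl, rfl, rfl⟩, fun ω _ => ?_⟩
  refine ⟨hb, by show p.b ≤ p.b + p.d; linarith, hL, ?_, ?_, ?_⟩
  · rw [one_mul]
    exact tl_abs_sub_trep h0 _ _
  · exact tl_inRect_cell h0 _ _ _ _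
  · exact tl_inRect_cell h0 _ _ _ _

/-! ### plane geometry (prefix `tl_g_`) -/

theorem tl_g_angle (c s : ℝ) (h : c ^ 2 + s ^ 2 = 1) : ∃ th : ℝ, Real.cos th = c ∧ Real.sin th = s := by
  have hn : ‖(⟨c, s⟩ : ℂ)‖ = 1 := by
    rw [Complex.norm_def, Complex.normSq_mk, Real.sqrt_eq_one]
    nlinarith
  have h0 : (⟨c, s⟩ : ℂ) ≠ 0 := by
    intro h0
    rw [h0, norm_zero] at hn
    exact zero_ne_one hn
  refine ⟨Complex.arg ⟨c, s⟩, ?_, ?_⟩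
  · rw [Complex.cos_arg h0, hn, div_one]
  · rw [Complex.sin_arg, hn, div_one]

theorem tl_g_rot (Z : ℝ × ℝ) (α β : ℝ) :
    ip Z (tang (α + β)) = ip (ip Z (tang α), ip Z (nrm α)) (tang β) ∧
    ip Z (nrm (α + β)) = ip (ip Z (tang α), ip Z (nrm α)) (nrm β) := by
  simp only [ip, tang, nrm, Real.cos_add, Real.sin_add]
  constructor <;> ring

/-- a parallelogram with edges `u`, `w` lies in a rectangle in the frame of `u` -/
theorem tl_g_par (u w : ℝ × ℝ) (hu : 0 < u.1 ^ 2 + u.2 ^ 2) : ∃ th : ℝ, ∀ x y : ℝ,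
    |ip (x * u.1 + y * w.1, x * u.2 + y * w.2) (tang th)| ≤
      |x| * Real.sqrt (u.1 ^ 2 + u.2 ^ 2) + |y| * Real.sqrt (w.1 ^ 2 + w.2 ^ 2) ∧
    |ip (x * u.1 + y * w.1, x * u.2 + y * w.2) (nrm th)| =
      |y| * (|u.1 * w.2 - u.2 * w.1| / Real.sqrt (u.1 ^ 2 + u.2 ^ 2)) := by
  obtain ⟨n, hn⟩ : ∃ n, n = Real.sqrt (u.1 ^ 2 + u.2 ^ 2) := ⟨_, rfl⟩
  obtain ⟨k, hk⟩ : ∃ k, k = Real.sqrt (w.1 ^ 2 + w.2 ^ 2) := ⟨_, rfl⟩
  have hn0 : 0 < n := by rw [hn]; exact Real.sqrt_pos.2 hu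
  have hk0 : 0 ≤ k := by rw [hk]; exact Real.sqrt_nonneg _
  have hn2 : n ^ 2 = u.1 ^ 2 + u.2 ^ 2 := by rw [hn]; exact Real.sq_sqrt hu.le
  have hk2 : k ^ 2 = w.1 ^ 2 + w.2 ^ 2 := by rw [hk]; exact Real.sq_sqrt (by positivity)
  obtain ⟨th, hc, hs⟩ := tl_g_angle (u.1 / n) (u.2 / n) (by
    rw [div_pow, div_pow, ← add_div, ← hn2]
    exact div_self (by positivity))
  refine ⟨th, fun x y => ?_⟩
  rw [← hn, ← hk]
  simp only [ip, tang, nrm, hc, hs]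
  constructor
  · have e : (x * u.1 + y * w.1) * (u.1 / n) + (x * u.2 + y * w.2) * (u.2 / n) =
        x * n + y * ((u.1 * w.1 + u.2 * w.2) / n) := by
      field_simp
      rw [hn2]
      ring
    rw [e]
    have hcs : |(u.1 * w.1 + u.2 * w.2) / n| ≤ k := by
      rw [abs_div, abs_of_pos hn0, div_le_iff₀ hn0]
      refine abs_le_of_sq_le_sq ?_ (by positivity)
      rw [mul_pow, hn2, hk2]
      nlinarith [sq_nonneg (u.1 * w.2 - u.2 * w.1)]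
    calc |x * n + y * ((u.1 * w.1 + u.2 * w.2) / n)|
        ≤ |x * n| + |y * ((u.1 * w.1 + u.2 * w.2) / n)| := abs_add_le _ _
      _ = |x| * n + |y| * |(u.1 * w.1 + u.2 * w.2) / n| := by
          rw [abs_mul, abs_mul, abs_of_pos hn0]
      _ ≤ |x| * n + |y| * k := by
          have := mul_le_mul_of_nonneg_left hcs (abs_nonneg y)
          linarith
  · have e : (x * u.1 + y * w.1) * -(u.2 / n) + (x * u.2 + y * w.2) * (u.1 / n) =
        y * ((u.1 * w.2 - u.2 * w.1) / n) := by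
      field_simp
      ring
    rw [e, abs_mul, abs_div, abs_of_pos hn0]


/-- core of the final aperture in local coordinates -/
theorem tl_g_label_core (θ Ed Ee K : ℝ) (hd0 : 0 < Ed) (hd1 : Ed ≤ 1) (he0 : 0 < Ee) (he1 : Ee ≤ 1) :
    ∃ th' : ℝ, |Real.sin θ| ≤ K * Ed → ∀ x y X : ℝ, |x| ≤ X → |y| ≤ X * (Ed * Ee) →
      |ip (x * Real.cos θ - y * Real.sin θ, (x * Real.sin θ + y * Real.cos θ) / Ed) (tang th')|
        ≤ (K + 2) * X ∧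
      |ip (x * Real.cos θ - y * Real.sin θ, (x * Real.sin θ + y * Real.cos θ) / Ed) (nrm th')|
        ≤ X * Ee := by
  have hcs := Real.sin_sq_add_cos_sq θ
  have hge : Real.sin θ ^ 2 ≤ (Real.sin θ / Ed) ^ 2 := by
    rw [div_pow, le_div_iff₀ (by positivity)]
    have : Ed ^ 2 ≤ 1 := by nlinarith
    nlinarith [sq_nonneg (Real.sin θ)]
  have hu1 : 1 ≤ Real.cos θ ^ 2 + (Real.sin θ / Ed) ^ 2 := by linarith
  obtain ⟨th, hth⟩ := tl_g_par (Real.cos θ, Real.sin θ / Ed)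
    (-(Ed * Ee * Real.sin θ), Ee * Real.cos θ) (by
      show 0 < Real.cos θ ^ 2 + (Real.sin θ / Ed) ^ 2
      linarith)
  refine ⟨th, fun hsin x y X hx hy => ?_⟩
  have hX : 0 ≤ X := le_trans (abs_nonneg _) hx
  have hK : 0 ≤ K := by
    by_contra hK
    push Not at hK
    have : K * Ed < 0 := mul_neg_of_neg_of_pos hK hd0
    linarith [abs_nonneg (Real.sin θ)]
  obtain ⟨h1, h2⟩ := hth x (y / (Ed * Ee))
  simp only at h1 h2
  have e1 : x * Real.cos θ + y / (Ed * Ee) * -(Ed * Ee * Real.sin θ) =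
      x * Real.cos θ - y * Real.sin θ := by
    field_simp
    ring
  have e2 : x * (Real.sin θ / Ed) + y / (Ed * Ee) * (Ee * Real.cos θ) =
      (x * Real.sin θ + y * Real.cos θ) / Ed := by
    field_simp
  rw [e1, e2] at h1 h2
  have hy' : |y / (Ed * Ee)| ≤ X := by
    rw [abs_div, abs_of_pos (by positivity : 0 < Ed * Ee), div_le_iff₀ (by positivity)]
    exact hy
  have hn1 : 1 ≤ Real.sqrt (Real.cos θ ^ 2 + (Real.sin θ / Ed) ^ 2) := by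
    rw [Real.le_sqrt' (by norm_num)]
    linarith
  have hn2 : Real.sqrt (Real.cos θ ^ 2 + (Real.sin θ / Ed) ^ 2) ≤ 1 + K := by
    rw [Real.sqrt_le_iff]
    refine ⟨by linarith, ?_⟩
    have h3 : |Real.sin θ / Ed| ≤ K := by
      rw [abs_div, abs_of_pos hd0, div_le_iff₀ hd0]
      exact hsin
    have h4 : (Real.sin θ / Ed) ^ 2 ≤ K ^ 2 := sq_le_sq' (by linarith [(abs_le.1 h3).1]) (abs_le.1 h3).2
    nlinarith [sq_nonneg (Real.sin θ)]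
  have hk1 : Real.sqrt ((-(Ed * Ee * Real.sin θ)) ^ 2 + (Ee * Real.cos θ) ^ 2) ≤ 1 := by
    rw [Real.sqrt_le_iff]
    refine ⟨by norm_num, ?_⟩
    have a1 : (Ed * Ee) ^ 2 ≤ 1 := by
      have : Ed * Ee ≤ 1 := by nlinarith
      have : 0 < Ed * Ee := by positivity
      nlinarith
    have a2 : Ee ^ 2 ≤ 1 := by nlinarith
    nlinarith [sq_nonneg (Real.sin θ), sq_nonneg (Real.cos θ)]
  have hdet : Real.cos θ * (Ee * Real.cos θ) - Real.sin θ / Ed * -(Ed * Ee * Real.sin θ) = Ee := by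
    field_simp
    nlinarith
  constructor
  · refine h1.trans ?_
    have b1 := mul_le_mul hx hn2 (Real.sqrt_nonneg _) hX
    have b2 := mul_le_mul hy' hk1 (Real.sqrt_nonneg _) hX
    linarith
  · rw [h2, hdet, abs_of_pos he0]
    have b3 : Ee / Real.sqrt (Real.cos θ ^ 2 + (Real.sin θ / Ed) ^ 2) ≤ Ee :=
      div_le_self he0.le hn1
    exact mul_le_mul hy' b3 (by positivity) hX

/-- core of the composition of apertures -/
theorem tl_g_comp_core (φ Eb Ed EB EA : ℝ) (hb : 0 < Eb) (hd0 : 0 < Ed) (hd1 : Ed ≤ 1) (hB : 0 < EB)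
    (hA : 0 < EA) (hAB : EA ≤ EB) :
    ∃ th m : ℝ, 0 < m ∧ m ≤ Eb * EB ∧ Eb ^ 2 * Ed * EA * EB ≤ m ^ 2 ∧
      ∀ x y X : ℝ, |x| ≤ X * EB → |y| ≤ X * EA →
      |ip (Eb * (x * Real.cos φ - y * Real.sin φ), Eb * Ed * (x * Real.sin φ + y * Real.cos φ))
        (tang th)| ≤ 2 * X * m ∧
      |ip (Eb * (x * Real.cos φ - y * Real.sin φ), Eb * Ed * (x * Real.sin φ + y * Real.cos φ))
        (nrm th)| ≤ X * (Eb ^ 2 * Ed * EA * EB / m) := by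
  have hcs := Real.sin_sq_add_cos_sq φ
  obtain ⟨U, hU⟩ : ∃ U : ℝ × ℝ, U = (EB * Eb * Real.cos φ, EB * Eb * Ed * Real.sin φ) := ⟨_, rfl⟩
  obtain ⟨W, hW⟩ : ∃ W : ℝ × ℝ, W = (-(EA * Eb * Real.sin φ), EA * Eb * Ed * Real.cos φ) := ⟨_, rfl⟩
  have hd2 : Ed ^ 2 ≤ 1 := by nlinarith
  have hU2 : U.1 ^ 2 + U.2 ^ 2 = (EB * Eb) ^ 2 * (Real.cos φ ^ 2 + Ed ^ 2 * Real.sin φ ^ 2) := by
    rw [hU]; ring
  have hW2 : W.1 ^ 2 + W.2 ^ 2 = (EA * Eb) ^ 2 * (Real.sin φ ^ 2 + Ed ^ 2 * Real.cos φ ^ 2) := by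
    rw [hW]; ring
  have c1 : 0 < Real.cos φ ^ 2 + Ed ^ 2 * Real.sin φ ^ 2 := by
    have : 0 < Ed ^ 2 := by positivity
    nlinarith [sq_nonneg (Real.cos φ), sq_nonneg (Real.sin φ)]
  have c2 : 0 < Real.sin φ ^ 2 + Ed ^ 2 * Real.cos φ ^ 2 := by
    have : 0 < Ed ^ 2 := by positivity
    nlinarith [sq_nonneg (Real.cos φ), sq_nonneg (Real.sin φ)]
  have c3 : Real.cos φ ^ 2 + Ed ^ 2 * Real.sin φ ^ 2 ≤ 1 := by nlinarith [sq_nonneg (Real.sin φ)]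
  have c4 : Real.sin φ ^ 2 + Ed ^ 2 * Real.cos φ ^ 2 ≤ 1 := by nlinarith [sq_nonneg (Real.cos φ)]
  have hUpos : 0 < U.1 ^ 2 + U.2 ^ 2 := by rw [hU2]; positivity
  have hWpos : 0 < W.1 ^ 2 + W.2 ^ 2 := by rw [hW2]; positivity
  obtain ⟨nU, hnU⟩ : ∃ n, n = Real.sqrt (U.1 ^ 2 + U.2 ^ 2) := ⟨_, rfl⟩
  obtain ⟨nW, hnW⟩ : ∃ n, n = Real.sqrt (W.1 ^ 2 + W.2 ^ 2) := ⟨_, rfl⟩
  have hnU0 : 0 < nU := by rw [hnU]; exact Real.sqrt_pos.2 hUpos
  have hnW0 : 0 < nW := by rw [hnW]; exact Real.sqrt_pos.2 hWpos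
  have hnU2 : nU ^ 2 = U.1 ^ 2 + U.2 ^ 2 := by rw [hnU]; exact Real.sq_sqrt hUpos.le
  have hnW2 : nW ^ 2 = W.1 ^ 2 + W.2 ^ 2 := by rw [hnW]; exact Real.sq_sqrt hWpos.le
  have hEE : 0 < Eb * EB := by positivity
  have hnUle : nU ≤ Eb * EB := by
    refine abs_le_of_sq_le_sq ?_ hEE.le |> le_trans (le_abs_self _)
    rw [hnU2, hU2]
    have : 0 ≤ (EB * Eb) ^ 2 := by positivity
    nlinarith
  have hnWle : nW ≤ Eb * EB := by
    refine abs_le_of_sq_le_sq ?_ hEE.le |> le_trans (le_abs_self _)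
    rw [hnW2, hW2]
    have h1 : 0 ≤ (EA * Eb) ^ 2 := by positivity
    have h2 : (EA * Eb) ^ 2 ≤ (Eb * EB) ^ 2 := by
      apply pow_le_pow_left₀ (by positivity)
      nlinarith
    nlinarith
  have hdet : U.1 * W.2 - U.2 * W.1 = Eb ^ 2 * Ed * EA * EB := by
    rw [hU, hW]
    simp only
    linear_combination (Eb ^ 2 * Ed * EA * EB) * hcs
  have hD0 : 0 < Eb ^ 2 * Ed * EA * EB := by positivity
  have hdetle : Eb ^ 2 * Ed * EA * EB ≤ nU * nW := by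
    refine abs_le_of_sq_le_sq ?_ (by positivity) |> le_trans (le_abs_self _)
    rw [← hdet, mul_pow, hnU2, hnW2]
    nlinarith [sq_nonneg (U.1 * W.1 + U.2 * W.2)]
  have hvec1 : ∀ x y : ℝ, x / EB * U.1 + y / EA * W.1 = Eb * (x * Real.cos φ - y * Real.sin φ) := by
    intro x y
    rw [hU, hW]
    simp only
    field_simp
    ring
  have hvec2 : ∀ x y : ℝ, x / EB * U.2 + y / EA * W.2 =
      Eb * Ed * (x * Real.sin φ + y * Real.cos φ) := by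
    intro x y
    rw [hU, hW]
    simp only
    field_simp
  have hxs : ∀ x X : ℝ, |x| ≤ X * EB → |x / EB| ≤ X := by
    intro x X hx
    rw [abs_div, abs_of_pos hB, div_le_iff₀ hB]
    exact hx
  have hys : ∀ y X : ℝ, |y| ≤ X * EA → |y / EA| ≤ X := by
    intro y X hy
    rw [abs_div, abs_of_pos hA, div_le_iff₀ hA]
    exact hy
  rcases le_total nW nU with hc | hc
  · obtain ⟨th, hth⟩ := tl_g_par U W hUpos
    refine ⟨th, nU, hnU0, hnUle, hdetle.trans (by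
      rw [sq]; exact mul_le_mul_of_nonneg_left hc hnU0.le), fun x y X hx hy => ?_⟩
    obtain ⟨h1, h2⟩ := hth (x / EB) (y / EA)
    rw [hvec1, hvec2, ← hnU] at h1 h2
    rw [← hnW] at h1
    have hx' := hxs x X hx
    have hy' := hys y X hy
    have hX : 0 ≤ X := le_trans (abs_nonneg _) hx'
    constructor
    · refine h1.trans ?_
      have b1 := mul_le_mul_of_nonneg_right hx' hnU0.le
      have b2 := mul_le_mul hy' hc hnW0.le hX
      linarith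
    · rw [h2, hdet, abs_of_pos hD0]
      exact mul_le_mul_of_nonneg_right hy' (by positivity)
  · obtain ⟨th, hth⟩ := tl_g_par W U hWpos
    refine ⟨th, nW, hnW0, hnWle, hdetle.trans (by
      rw [sq]; exact mul_le_mul_of_nonneg_right hc hnW0.le), fun x y X hx hy => ?_⟩
    obtain ⟨h1, h2⟩ := hth (y / EA) (x / EB)
    rw [add_comm (y / EA * W.1), add_comm (y / EA * W.2), hvec1, hvec2, ← hnW] at h1 h2
    rw [← hnU] at h1
    have hx' := hxs x X hx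
    have hy' := hys y X hy
    have hX : 0 ≤ X := le_trans (abs_nonneg _) hx'
    constructor
    · refine h1.trans ?_
      have b1 := mul_le_mul_of_nonneg_right hy' hnW0.le
      have b2 := mul_le_mul hx' hc hnU0.le hX
      linarith
    · have hdet' : W.1 * U.2 - W.2 * U.1 = -(Eb ^ 2 * Ed * EA * EB) := by rw [← hdet]; ring
      rw [h2, hdet', abs_neg, abs_of_pos hD0]
      exact mul_le_mul_of_nonneg_right hx' (by positivity)


theorem tl_g_ip_sub (u v w : ℝ × ℝ) : ip (u - v) w = ip u w - ip v w := by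
  simp only [ip, Prod.fst_sub, Prod.snd_sub]
  ring

theorem tl_g_ip_add (u v w : ℝ × ℝ) : ip (u + v) w = ip u w + ip v w := by
  simp only [ip, Prod.fst_add, Prod.snd_add]
  ring

theorem tl_g_ip_smul (c : ℝ) (u w : ℝ × ℝ) : ip (c • u) w = c * ip u w := by
  simp only [ip, Prod.smul_fst, Prod.smul_snd, smul_eq_mul]
  ring

theorem tl_g_frame (α β th : ℝ) :
    ip (α • tang th + β • nrm th) (tang th) = α ∧ ip (α • tang th + β • nrm th) (nrm th) = β := by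
  have h := Real.sin_sq_add_cos_sq th
  simp only [ip, tang, nrm, Prod.fst_add, Prod.snd_add, Prod.smul_fst, Prod.smul_snd, smul_eq_mul]
  constructor
  · linear_combination α * h
  · linear_combination β * h

/-- coordinates in the frame `φ` recover the vector -/
theorem tl_g_unrot (ζ : ℝ × ℝ) (φ : ℝ) :
    ζ.1 = ip ζ (tang φ) * Real.cos φ - ip ζ (nrm φ) * Real.sin φ ∧
    ζ.2 = ip ζ (tang φ) * Real.sin φ + ip ζ (nrm φ) * Real.cos φ := by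
  have h := Real.sin_sq_add_cos_sq φ
  simp only [ip, tang, nrm]
  constructor
  · linear_combination (-ζ.1) * h
  · linear_combination (-ζ.2) * h

/-- transfer of one column to the local coordinates -/
theorem tl_g_label_col (thG thJ th' Ed Ee K s X : ℝ) (hd0 : 0 < Ed) (hs : 0 < s) (Z : ℝ × ℝ)
    (H : ∀ x y X : ℝ, |x| ≤ X → |y| ≤ X * (Ed * Ee) →
      |ip (x * Real.cos (thG - thJ) - y * Real.sin (thG - thJ),
          (x * Real.sin (thG - thJ) + y * Real.cos (thG - thJ)) / Ed) (tang th')| ≤ (K + 2) * X ∧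
      |ip (x * Real.cos (thG - thJ) - y * Real.sin (thG - thJ),
          (x * Real.sin (thG - thJ) + y * Real.cos (thG - thJ)) / Ed) (nrm th')| ≤ X * Ee)
    (h1 : |ip Z (tang thG)| ≤ X * s) (h2 : |ip Z (nrm thG)| ≤ X * s * (Ed * Ee)) :
    |ip (ip Z (tang thJ) / s, ip Z (nrm thJ) / (s * Ed)) (tang th')| ≤ (K + 2) * X ∧
    |ip (ip Z (tang thJ) / s, ip Z (nrm thJ) / (s * Ed)) (nrm th')| ≤ X * Ee := by
  obtain ⟨r1, r2⟩ := tl_g_rot Z thG (-(thG - thJ))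
  have e : thG + -(thG - thJ) = thJ := by ring
  rw [e] at r1 r2
  simp only [ip, tang, nrm, Real.cos_neg, Real.sin_neg] at r1 r2
  have hx : |ip Z (tang thG) / s| ≤ X := by
    rw [abs_div, abs_of_pos hs, div_le_iff₀ hs]
    exact h1
  have hy : |ip Z (nrm thG) / s| ≤ X * (Ed * Ee) := by
    rw [abs_div, abs_of_pos hs, div_le_iff₀ hs]
    linarith
  have h3 := H _ _ X hx hy
  have e1 : ip Z (tang thJ) / s = ip Z (tang thG) / s * Real.cos (thG - thJ)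
      - ip Z (nrm thG) / s * Real.sin (thG - thJ) := by
    simp only [ip, tang, nrm]
    rw [r1]
    field_simp
    ring
  have e2 : ip Z (nrm thJ) / (s * Ed) = (ip Z (tang thG) / s * Real.sin (thG - thJ)
      + ip Z (nrm thG) / s * Real.cos (thG - thJ)) / Ed := by
    simp only [ip, tang, nrm]
    rw [r2]
    field_simp
  rw [e1, e2]
  exact h3


set_option maxHeartbeats 800000 in
/-- the final label in local coordinates, one read-out -/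
theorem tl_g_label_pt (K ε t : ℝ) (p : LocPar) (j : ℤ × ℤ × ℤ × ℤ × ℤ × ℤ) (g : Geo) (h0 : 0 < ε)
    (h1 : ε < 1) (hb : p.b = g.b) (hd0 : 0 ≤ p.d) (hd : p.d ≤ g.a - g.b) :
    ∃ g' : Geo, g'.b = 0 ∧ g'.a = g.a - g.b - p.d ∧ ∀ (L : ℝ) (V A : ℝ × ℝ) (c : ℝ),
      g.Compat K ε t L V A c → |Real.sin (g.th - crep ε p.d j.2.1)| ≤ K * ε ^ p.d →
      g'.Compat (K * (K + 2)) ε (t - p.r) (g.a - g.b - p.d + t - p.r) (locV ε p j V)
        (locA ε p j V A) (locC ε p j c) := by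
  obtain ⟨Eb, hEb⟩ : ∃ E, E = ε ^ p.b := ⟨_, rfl⟩
  obtain ⟨Ed, hEd⟩ : ∃ E, E = ε ^ p.d := ⟨_, rfl⟩
  obtain ⟨Er, hEr⟩ : ∃ E, E = ε ^ p.r := ⟨_, rfl⟩
  obtain ⟨Ee, hEe⟩ : ∃ E, E = ε ^ (g.a - g.b - p.d) := ⟨_, rfl⟩
  obtain ⟨Et, hEt⟩ : ∃ E, E = ε ^ (t - p.r) := ⟨_, rfl⟩
  have pEb : 0 < Eb := by rw [hEb]; exact Real.rpow_pos_of_pos h0 _
  have pEd : 0 < Ed := by rw [hEd]; exact Real.rpow_pos_of_pos h0 _
  have pEr : 0 < Er := by rw [hEr]; exact Real.rpow_pos_of_pos h0 _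
  have pEe : 0 < Ee := by rw [hEe]; exact Real.rpow_pos_of_pos h0 _
  have pEt : 0 < Et := by rw [hEt]; exact Real.rpow_pos_of_pos h0 _
  have lEd : Ed ≤ 1 := by rw [hEd]; exact Real.rpow_le_one h0.le h1.le hd0
  have lEe : Ee ≤ 1 := by rw [hEe]; exact Real.rpow_le_one h0.le h1.le (by linarith)
  have r1 : ε ^ (p.b + p.d) = Eb * Ed := by rw [Real.rpow_add h0, hEb, hEd]
  have r2 : ε ^ (p.b + p.r) = Eb * Er := by rw [Real.rpow_add h0, hEb, hEr]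
  have r3 : ε ^ (p.b + p.d + p.r) = Eb * Er * Ed := by
    rw [Real.rpow_add h0, Real.rpow_add h0, hEb, hEr, hEd]; ring
  have r4 : ε ^ g.b = Eb := by rw [← hb, hEb]
  have r5 : ε ^ g.a = Eb * (Ed * Ee) := by
    rw [hEb, hEd, hEe, ← Real.rpow_add h0, ← Real.rpow_add h0, hb]
    congr 1; ring
  have r6 : ε ^ t = Er * Et := by
    rw [hEr, hEt, ← Real.rpow_add h0]
    congr 1; ring
  have r7 : ε ^ (g.b + t) = Eb * (Er * Et) := by rw [Real.rpow_add h0, r4, r6]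
  have r8 : ε ^ (g.a + t) = Eb * (Ed * Ee) * (Er * Et) := by rw [Real.rpow_add h0, r5, r6]
  have r9 : ε ^ (0 + (t - p.r)) = Et := by rw [zero_add, hEt]
  have r10 : ε ^ (g.a - g.b - p.d + (t - p.r)) = Ee * Et := by rw [Real.rpow_add h0, hEe, hEt]
  obtain ⟨thJ, hthJ⟩ : ∃ x, x = crep ε p.d j.2.1 := ⟨_, rfl⟩
  obtain ⟨cJ, hcJ⟩ : ∃ x, x = crep ε p.r j.1 := ⟨_, rfl⟩
  obtain ⟨k3, hk3⟩ : ∃ x, x = crep ε p.b j.2.2.1 := ⟨_, rfl⟩
  obtain ⟨k4, hk4⟩ : ∃ x, x = crep ε (p.b + p.d) j.2.2.2.1 := ⟨_, rfl⟩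
  obtain ⟨k5, hk5⟩ : ∃ x, x = crep ε (p.b + p.r) j.2.2.2.2.1 := ⟨_, rfl⟩
  obtain ⟨k6, hk6⟩ : ∃ x, x = crep ε (p.b + p.d + p.r) j.2.2.2.2.2 := ⟨_, rfl⟩
  obtain ⟨th', hcore⟩ := tl_g_label_core (g.th - thJ) Ed Ee K pEd lEd pEe lEe
  refine ⟨⟨0, g.a - g.b - p.d, (g.tc - cJ) / Er, th',
    ((ip g.vc (tang thJ) - k3) / Eb, (ip g.vc (nrm thJ) - k4) / (Eb * Ed)),
    ((ip g.xc (tang thJ) - k5 - (g.tc - cJ) * k3) / (Eb * Er),
      (ip g.xc (nrm thJ) - k6 - (g.tc - cJ) * k4) / (Eb * Er * Ed))⟩, rfl, rfl, ?_⟩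
  intro L V A c hC hsin
  obtain ⟨-, -, -, c4, ⟨c5, c6⟩, ⟨c7, c8⟩⟩ := hC
  rw [← hthJ, ← hEd] at hsin
  have H := hcore hsin
  rw [r6] at c4
  rw [r4] at c5
  rw [r5] at c6
  rw [r7] at c7
  rw [r8] at c8
  have hK : 0 ≤ K := by
    by_contra hK
    push Not at hK
    have : K * Eb < 0 := mul_neg_of_neg_of_pos hK pEb
    linarith [abs_nonneg (ip (V - g.vc) (tang g.th))]
  have eV : locV ε p j V - ((ip g.vc (tang thJ) - k3) / Eb, (ip g.vc (nrm thJ) - k4) / (Eb * Ed)) =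
      (ip (V - g.vc) (tang thJ) / Eb, ip (V - g.vc) (nrm thJ) / (Eb * Ed)) := by
    unfold locV
    rw [← hthJ, ← hk3, ← hk4, ← hEb, r1, tl_g_ip_sub, tl_g_ip_sub]
    ext
    · simp only [Prod.fst_sub]
      ring
    · simp only [Prod.snd_sub]
      ring
  have eA : locA ε p j V A + ((g.tc - cJ) / Er) • locV ε p j V
      - ((ip g.xc (tang thJ) - k5 - (g.tc - cJ) * k3) / (Eb * Er),
        (ip g.xc (nrm thJ) - k6 - (g.tc - cJ) * k4) / (Eb * Er * Ed)) =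
      (ip (A + g.tc • V - g.xc) (tang thJ) / (Eb * Er),
        ip (A + g.tc • V - g.xc) (nrm thJ) / (Eb * Er * Ed)) := by
    unfold locV locA
    rw [← hthJ, ← hk3, ← hk4, ← hk5, ← hk6, ← hcJ, ← hEb, r1, r2, r3]
    simp only [tl_g_ip_sub, tl_g_ip_add, tl_g_ip_smul]
    ext
    · simp only [Prod.fst_sub, Prod.fst_add, Prod.smul_fst, smul_eq_mul]
      field_simp
      ring
    · simp only [Prod.snd_sub, Prod.snd_add, Prod.smul_snd, smul_eq_mul]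
      field_simp
      ring
  have hv := tl_g_label_col g.th thJ th' Ed Ee K Eb K pEd pEb (V - g.vc) H c5 (by linarith)
  have ha := tl_g_label_col g.th thJ th' Ed Ee K (Eb * Er) (K * Et) pEd (by positivity)
    (A + g.tc • V - g.xc) H (by linarith) (by linarith)
  refine ⟨le_rfl, by show (0 : ℝ) ≤ g.a - g.b - p.d; linarith,
    by show g.a - g.b - p.d + (t - p.r) ≤ _; linarith, ?_, ⟨?_, ?_⟩, ⟨?_, ?_⟩⟩
  · show |locC ε p j c - (g.tc - cJ) / Er| ≤ K * (K + 2) * ε ^ (t - p.r)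
    unfold locC
    rw [← hcJ, ← hEr, ← hEt, ← sub_div, abs_div, abs_of_pos pEr, div_le_iff₀ pEr]
    have e : c - cJ - (g.tc - cJ) = c - g.tc := by ring
    rw [e]
    refine c4.trans ?_
    have : 0 ≤ K * (K + 1) * (Er * Et) := by positivity
    have e2 : K * (K + 2) * Et * Er = K * (Er * Et) + K * (K + 1) * (Er * Et) := by ring
    rw [e2]
    linarith
  · show |ip (locV ε p j V - _) (tang th')| ≤ K * (K + 2) * ε ^ (0 : ℝ)
    rw [eV, Real.rpow_zero]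
    linarith [hv.1]
  · show |ip (locV ε p j V - _) (nrm th')| ≤ K * (K + 2) * ε ^ (g.a - g.b - p.d)
    rw [eV, ← hEe]
    refine hv.2.trans ?_
    have : 0 ≤ K * (K + 1) * Ee := by positivity
    have e2 : K * (K + 2) * Ee = K * Ee + K * (K + 1) * Ee := by ring
    rw [e2]
    linarith
  · show |ip (locA ε p j V A + ((g.tc - cJ) / Er) • locV ε p j V - _) (tang th')| ≤
      K * (K + 2) * ε ^ (0 + (t - p.r))
    rw [eA, r9]
    linarith [ha.1]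
  · show |ip (locA ε p j V A + ((g.tc - cJ) / Er) • locV ε p j V - _) (nrm th')| ≤
      K * (K + 2) * ε ^ (g.a - g.b - p.d + (t - p.r))
    rw [eA, r10]
    refine ha.2.trans ?_
    have : 0 ≤ K * (K + 1) * (Ee * Et) := by positivity
    have e2 : K * (K + 2) * (Ee * Et) = K * Et * Ee + K * (K + 1) * (Ee * Et) := by ring
    rw [e2]
    linarith


/-- one column of the composition -/
theorem tl_g_comp_col (φ thJ th Eb Ed EB EA m D X s : ℝ) (Z ζ : ℝ × ℝ)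
    (H : ∀ x y X : ℝ, |x| ≤ X * EB → |y| ≤ X * EA →
      |ip (Eb * (x * Real.cos φ - y * Real.sin φ), Eb * Ed * (x * Real.sin φ + y * Real.cos φ))
        (tang th)| ≤ 2 * X * m ∧
      |ip (Eb * (x * Real.cos φ - y * Real.sin φ), Eb * Ed * (x * Real.sin φ + y * Real.cos φ))
        (nrm th)| ≤ X * D)
    (hs : 0 ≤ s)
    (e1 : ip Z (tang thJ) = Eb * (s * ζ.1)) (e2 : ip Z (nrm thJ) = Eb * Ed * (s * ζ.2))
    (h1 : |ip ζ (tang φ)| ≤ X * EB) (h2 : |ip ζ (nrm φ)| ≤ X * EA) :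
    |ip Z (tang (thJ + th))| ≤ 2 * (X * s) * m ∧ |ip Z (nrm (thJ + th))| ≤ X * s * D := by
  obtain ⟨r1, r2⟩ := tl_g_rot Z thJ th
  obtain ⟨u1, u2⟩ := tl_g_unrot ζ φ
  have hx : |s * ip ζ (tang φ)| ≤ X * s * EB := by
    rw [abs_mul, abs_of_nonneg hs]
    have := mul_le_mul_of_nonneg_left h1 hs
    linarith
  have hy : |s * ip ζ (nrm φ)| ≤ X * s * EA := by
    rw [abs_mul, abs_of_nonneg hs]
    have := mul_le_mul_of_nonneg_left h2 hs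
    linarith
  have h3 := H _ _ _ hx hy
  have f1 : s * ip ζ (tang φ) * Real.cos φ - s * ip ζ (nrm φ) * Real.sin φ = s * ζ.1 := by
    rw [u1]
    ring
  have f2 : s * ip ζ (tang φ) * Real.sin φ + s * ip ζ (nrm φ) * Real.cos φ = s * ζ.2 := by
    rw [u2]
    ring
  rw [f1, f2, ← e1, ← e2] at h3
  rw [r1, r2]
  exact h3


set_option maxHeartbeats 1600000 in
/-- composition of `J` with a local root read-out, one read-out -/
theorem tl_g_comp_pt (K₁ B γ ε : ℝ) (p : LocPar) (j : ℤ × ℤ × ℤ × ℤ × ℤ × ℤ) (δ : Geo) (h0 : 0 < ε)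
    (h1 : ε < 1) (hγ0 : 0 < γ) (hd : 0 ≤ p.d) :
    ∃ gC : Geo, 2 * p.b + (1 - γ) * p.d + wt γ δ ≤ wt γ gC ∧
      (p.b + δ.b ≤ gC.b ∧ gC.a ≤ p.b + p.d + δ.a) ∧
      ∀ (L' : ℝ) (V A : ℝ × ℝ) (c : ℝ), 0 ≤ p.b → |c| ≤ B → 0 ≤ c - crep ε p.r j.1 →
        c - crep ε p.r j.1 ≤ ε ^ p.r →
        δ.RootCompat K₁ ε L' (locV ε p j V) (locA ε p j V A) →
        gC.Compat (2 * K₁ * (B + 2) + B + 1) ε p.r (p.b + p.d + L' + p.r) V A c ∧
        (p.r = 0 → gC.RootCompat (2 * K₁ * (B + 2) + B + 1) ε (p.b + p.d + L') V A) := by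
  by_cases hv : δ.b ≤ δ.a
  swap
  · refine ⟨⟨p.b + δ.b, p.b + p.d + δ.a, 0, 0, 0, 0⟩, ?_, ⟨le_rfl, le_rfl⟩, ?_⟩
    · simp only [wt]
      apply le_of_eq
      ring
    · intro L' V A c _ _ _ _ hC
      exact absurd hC.2.1 hv
  obtain ⟨Eb, hEb⟩ : ∃ E, E = ε ^ p.b := ⟨_, rfl⟩
  obtain ⟨Ed, hEd⟩ : ∃ E, E = ε ^ p.d := ⟨_, rfl⟩
  obtain ⟨Er, hEr⟩ : ∃ E, E = ε ^ p.r := ⟨_, rfl⟩
  obtain ⟨EB, hEB⟩ : ∃ E, E = ε ^ δ.b := ⟨_, rfl⟩
  obtain ⟨EA, hEA⟩ : ∃ E, E = ε ^ δ.a := ⟨_, rfl⟩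
  have pEb : 0 < Eb := by rw [hEb]; exact Real.rpow_pos_of_pos h0 _
  have pEd : 0 < Ed := by rw [hEd]; exact Real.rpow_pos_of_pos h0 _
  have pEr : 0 < Er := by rw [hEr]; exact Real.rpow_pos_of_pos h0 _
  have pEB : 0 < EB := by rw [hEB]; exact Real.rpow_pos_of_pos h0 _
  have pEA : 0 < EA := by rw [hEA]; exact Real.rpow_pos_of_pos h0 _
  have lEd : Ed ≤ 1 := by rw [hEd]; exact Real.rpow_le_one h0.le h1.le hd
  have lAB : EA ≤ EB := by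
    rw [hEA, hEB]
    exact (Real.rpow_le_rpow_left_iff_of_base_lt_one h0 h1).2 hv
  have r1 : ε ^ (p.b + p.d) = Eb * Ed := by rw [Real.rpow_add h0, hEb, hEd]
  have r2 : ε ^ (p.b + p.r) = Eb * Er := by rw [Real.rpow_add h0, hEb, hEr]
  have r3 : ε ^ (p.b + p.d + p.r) = Eb * Ed * Er := by
    rw [Real.rpow_add h0, Real.rpow_add h0, hEb, hEr, hEd]
  obtain ⟨th, m, hm0, hm1, hm2, H⟩ := tl_g_comp_core δ.th Eb Ed EB EA pEb pEd lEd pEB pEA lAB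
  obtain ⟨pp, hpp⟩ : ∃ pp, ε ^ pp = m := ⟨Real.logb ε m, Real.rpow_logb h0 h1.ne hm0⟩
  obtain ⟨D, hD⟩ : ∃ D, D = 2 * p.b + p.d + δ.a + δ.b := ⟨_, rfl⟩
  obtain ⟨Dm, hDm⟩ : ∃ x, x = Eb ^ 2 * Ed * EA * EB / m := ⟨_, rfl⟩
  rw [← hDm] at H
  have pDm : 0 < Dm := by rw [hDm]; positivity
  have hDε : ε ^ D = Eb ^ 2 * Ed * EA * EB := by
    rw [hD, Real.rpow_add h0, Real.rpow_add h0, Real.rpow_add h0, two_mul, Real.rpow_add h0, ← hEb,
      ← hEd, ← hEA, ← hEB]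
    ring
  have hp1 : p.b + δ.b ≤ pp := by
    have : ε ^ pp ≤ ε ^ (p.b + δ.b) := by
      rw [hpp, Real.rpow_add h0, ← hEb, ← hEB]
      exact hm1
    exact (Real.rpow_le_rpow_left_iff_of_base_lt_one h0 h1).1 this
  have hp2 : 2 * pp ≤ D := by
    have : ε ^ D ≤ ε ^ (2 * pp) := by
      rw [hDε, two_mul, Real.rpow_add h0, hpp, ← sq]
      exact hm2
    exact (Real.rpow_le_rpow_left_iff_of_base_lt_one h0 h1).1 this
  have hq : ε ^ (D - pp) = Dm := by rw [Real.rpow_sub h0, hDε, hpp, hDm]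
  have hppr : ε ^ (pp + p.r) = m * Er := by rw [Real.rpow_add h0, hpp, hEr]
  have hqr : ε ^ (D - pp + p.r) = Dm * Er := by rw [Real.rpow_add h0, hq, hEr]
  obtain ⟨thJ, hthJ⟩ : ∃ x, x = crep ε p.d j.2.1 := ⟨_, rfl⟩
  obtain ⟨cJ, hcJ⟩ : ∃ x, x = crep ε p.r j.1 := ⟨_, rfl⟩
  obtain ⟨k3, hk3⟩ : ∃ x, x = crep ε p.b j.2.2.1 := ⟨_, rfl⟩
  obtain ⟨k4, hk4⟩ : ∃ x, x = crep ε (p.b + p.d) j.2.2.2.1 := ⟨_, rfl⟩
  obtain ⟨k5, hk5⟩ : ∃ x, x = crep ε (p.b + p.r) j.2.2.2.2.1 := ⟨_, rfl⟩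
  obtain ⟨k6, hk6⟩ : ∃ x, x = crep ε (p.b + p.d + p.r) j.2.2.2.2.2 := ⟨_, rfl⟩
  obtain ⟨vC, hvC⟩ : ∃ v : ℝ × ℝ, v = (k3 + Eb * δ.vc.1) • tang thJ + (k4 + Eb * Ed * δ.vc.2) • nrm thJ :=
    ⟨_, rfl⟩
  obtain ⟨xC, hxC⟩ : ∃ v : ℝ × ℝ, v = (k5 + Eb * Er * δ.xc.1) • tang thJ
      + (k6 + Eb * Ed * Er * δ.xc.2) • nrm thJ := ⟨_, rfl⟩
  obtain ⟨tcC, htc⟩ : ∃ x : ℝ, x = if p.r = 0 then 0 else cJ := ⟨_, rfl⟩
  obtain ⟨xcC, hxc⟩ : ∃ x : ℝ × ℝ, x = if p.r = 0 then xC - cJ • vC else xC := ⟨_, rfl⟩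
  refine ⟨⟨pp, D - pp, tcC, thJ + th, vC, xcC⟩, ?_, ⟨hp1, by show D - pp ≤ _; linarith⟩, ?_⟩
  · have := mul_nonneg hγ0.le (sub_nonneg.2 hp1)
    simp only [wt]
    rw [hD]
    linarith
  intro L' V A c hb hcB hc0 hc1 hC
  obtain ⟨d1, d2, d3, ⟨d4, d5⟩, ⟨d6, d7⟩⟩ := hC
  rw [← hEB] at d4 d6
  rw [← hEA] at d5 d7
  rw [← hcJ] at hc0 hc1
  rw [← hEr] at hc1
  have hK : 0 ≤ K₁ := by
    by_contra hK
    push Not at hK
    have : K₁ * EB < 0 := mul_neg_of_neg_of_pos hK pEB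
    linarith [abs_nonneg (ip (locV ε p j V - δ.vc) (tang δ.th))]
  have hB : 0 ≤ B := le_trans (abs_nonneg _) hcB
  obtain ⟨Kc, hKc⟩ : ∃ x, x = 2 * K₁ * (B + 2) + B + 1 := ⟨_, rfl⟩
  rw [← hKc]
  have hKB : 0 ≤ K₁ * B := mul_nonneg hK hB
  have hKc1 : 1 ≤ Kc := by rw [hKc]; linarith
  have hKc2 : 2 * K₁ * (B + 2) ≤ Kc := by rw [hKc]; linarith
  have hKc3 : B ≤ Kc := by rw [hKc]; linarith
  have hKc4 : 2 * K₁ ≤ Kc := by linarith
  have hKc5 : K₁ ≤ Kc := by linarith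
  -- the velocity column
  have fv := tl_g_frame (k3 + Eb * δ.vc.1) (k4 + Eb * Ed * δ.vc.2) thJ
  rw [← hvC] at fv
  have ev1 : ip (V - vC) (tang thJ) = Eb * (1 * (locV ε p j V - δ.vc).1) := by
    rw [tl_g_ip_sub, fv.1]
    unfold locV
    rw [← hthJ, ← hk3, ← hEb]
    simp only [Prod.fst_sub]
    field_simp
    ring
  have ev2 : ip (V - vC) (nrm thJ) = Eb * Ed * (1 * (locV ε p j V - δ.vc).2) := by
    rw [tl_g_ip_sub, fv.2]
    unfold locV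
    rw [← hthJ, ← hk4, r1]
    simp only [Prod.snd_sub]
    field_simp
    ring
  obtain ⟨bv1, bv2⟩ := tl_g_comp_col δ.th thJ th Eb Ed EB EA m Dm K₁ 1 (V - vC) _ H zero_le_one
    ev1 ev2 d4 d5
  rw [mul_one] at bv1 bv2
  -- the position column
  have fx := tl_g_frame (k5 + Eb * Er * δ.xc.1) (k6 + Eb * Ed * Er * δ.xc.2) thJ
  rw [← hxC] at fx
  have ex1 : ip (A + cJ • V - xC) (tang thJ) = Eb * (Er * (locA ε p j V A - δ.xc).1) := by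
    rw [tl_g_ip_sub, fx.1]
    unfold locA
    rw [← hthJ, ← hk5, ← hcJ, r2]
    simp only [Prod.fst_sub]
    field_simp
    ring
  have ex2 : ip (A + cJ • V - xC) (nrm thJ) = Eb * Ed * (Er * (locA ε p j V A - δ.xc).2) := by
    rw [tl_g_ip_sub, fx.2]
    unfold locA
    rw [← hthJ, ← hk6, ← hcJ, r3]
    simp only [Prod.snd_sub]
    field_simp
    ring
  obtain ⟨bx1, bx2⟩ := tl_g_comp_col δ.th thJ th Eb Ed EB EA m Dm K₁ Er (A + cJ • V - xC) _ H pEr.le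
    ex1 ex2 d6 d7
  have g1 : (0 : ℝ) ≤ pp := by linarith
  have g2 : pp ≤ D - pp := by linarith
  have g3 : D - pp ≤ p.b + p.d + L' := by linarith
  have gv1 : |ip (V - vC) (tang (thJ + th))| ≤ Kc * ε ^ pp := by
    rw [hpp]
    exact bv1.trans (mul_le_mul_of_nonneg_right hKc4 hm0.le)
  have gv2 : |ip (V - vC) (nrm (thJ + th))| ≤ Kc * ε ^ (D - pp) := by
    rw [hq]
    exact bv2.trans (mul_le_mul_of_nonneg_right hKc5 pDm.le)
  by_cases hr0 : p.r = 0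
  · rw [if_pos hr0] at htc hxc
    have hEr1 : Er = 1 := by rw [hEr, hr0, Real.rpow_zero]
    rw [hEr1] at hc1 bx1 bx2
    rw [mul_one] at bx1 bx2
    have hcJB : |cJ| ≤ B + 1 := by
      have := abs_le.1 hcB
      rw [abs_le]
      constructor <;> linarith
    have eZ : A - xcC = (A + cJ • V - xC) - cJ • (V - vC) := by
      rw [hxc, smul_sub]
      abel
    have gx1 : |ip (A - xcC) (tang (thJ + th))| ≤ Kc * m := by
      rw [eZ, tl_g_ip_sub, tl_g_ip_smul]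
      have a1 := abs_sub (ip (A + cJ • V - xC) (tang (thJ + th))) (cJ * ip (V - vC) (tang (thJ + th)))
      rw [abs_mul] at a1
      have a2 := mul_le_mul hcJB bv1 (abs_nonneg _) (by linarith)
      have a3 := mul_le_mul_of_nonneg_right hKc2 hm0.le
      linarith
    have gx2 : |ip (A - xcC) (nrm (thJ + th))| ≤ Kc * Dm := by
      rw [eZ, tl_g_ip_sub, tl_g_ip_smul]
      have a1 := abs_sub (ip (A + cJ • V - xC) (nrm (thJ + th))) (cJ * ip (V - vC) (nrm (thJ + th)))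
      rw [abs_mul] at a1
      have a2 := mul_le_mul hcJB bv2 (abs_nonneg _) (by linarith)
      have a3 := mul_le_mul_of_nonneg_right hKc2 pDm.le
      have a4 : 0 ≤ K₁ * Dm := mul_nonneg hK pDm.le
      have a5 : 0 ≤ K₁ * B * Dm := mul_nonneg hKB pDm.le
      linarith
    refine ⟨⟨g1, g2, by show D - pp + p.r ≤ _; linarith, ?_, ⟨gv1, gv2⟩, ⟨?_, ?_⟩⟩,
      fun _ => ⟨g1, g2, g3, ⟨gv1, gv2⟩, ⟨?_, ?_⟩⟩⟩
    · show |c - tcC| ≤ Kc * ε ^ p.r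
      rw [htc, sub_zero, ← hEr, hEr1, mul_one]
      exact hcB.trans hKc3
    · show |ip (A + tcC • V - xcC) (tang (thJ + th))| ≤ Kc * ε ^ (pp + p.r)
      rw [htc, zero_smul, add_zero, hppr, hEr1, mul_one]
      exact gx1
    · show |ip (A + tcC • V - xcC) (nrm (thJ + th))| ≤ Kc * ε ^ (D - pp + p.r)
      rw [htc, zero_smul, add_zero, hqr, hEr1, mul_one]
      exact gx2
    · show |ip (A - xcC) (tang (thJ + th))| ≤ Kc * ε ^ pp
      rw [hpp]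
      exact gx1
    · show |ip (A - xcC) (nrm (thJ + th))| ≤ Kc * ε ^ (D - pp)
      rw [hq]
      exact gx2
  · rw [if_neg hr0] at htc hxc
    refine ⟨⟨g1, g2, by show D - pp + p.r ≤ _; linarith, ?_, ⟨gv1, gv2⟩, ⟨?_, ?_⟩⟩,
      fun h => absurd h hr0⟩
    · show |c - tcC| ≤ Kc * ε ^ p.r
      rw [htc, ← hEr, abs_of_nonneg hc0]
      exact hc1.trans (le_mul_of_one_le_left pEr.le hKc1)
    · show |ip (A + tcC • V - xcC) (tang (thJ + th))| ≤ Kc * ε ^ (pp + p.r)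
      rw [htc, hxc, hppr]
      refine bx1.trans ?_
      have := mul_le_mul_of_nonneg_right hKc4 (mul_pos hm0 pEr).le
      linarith
    · show |ip (A + tcC • V - xcC) (nrm (thJ + th))| ≤ Kc * ε ^ (D - pp + p.r)
      rw [htc, hxc, hqr]
      refine bx2.trans ?_
      have := mul_le_mul_of_nonneg_right hKc5 (mul_pos pDm pEr).le
      linarith


theorem tl_g_pow_tlev (ε d : ℝ) (h0 : 0 < ε) : (ε ^ d)⁻¹ ≤ (2 : ℝ) ^ (tlev ε d) := by
  have h2 : (2 : ℝ) ^ (d * Real.logb 2 (1 / ε)) = (ε ^ d)⁻¹ := by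
    rw [mul_comm, Real.rpow_mul (by norm_num), Real.rpow_logb (by norm_num) (by norm_num)
      (by positivity), one_div, Real.inv_rpow h0.le]
  rw [← h2, ← Real.rpow_natCast]
  exact Real.rpow_le_rpow_of_exponent_le (by norm_num) (Nat.le_ceil _)

/-- a point lies in its cell, of length at most `ε ^ d` -/
theorem tl_g_cell (ε d x : ℝ) (h0 : 0 < ε) :
    0 ≤ x - crep ε d (tcell ε d x) ∧ x - crep ε d (tcell ε d x) ≤ ε ^ d := by
  unfold crep tcell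
  obtain ⟨N, hN⟩ : ∃ N : ℝ, N = (2 : ℝ) ^ (tlev ε d) := ⟨_, rfl⟩
  have hle := tl_g_pow_tlev ε d h0
  rw [← hN] at hle ⊢
  have hN0 : 0 < N := by rw [hN]; positivity
  have hE : 0 < ε ^ d := Real.rpow_pos_of_pos h0 _
  have f1 := Int.floor_le (x * N)
  have f2 := Int.lt_floor_add_one (x * N)
  constructor
  · rw [sub_nonneg, div_le_iff₀ hN0]
    exact f1
  · have h3 : x - (⌊x * N⌋ : ℝ) / N ≤ 1 / N := by
      rw [sub_le_iff_le_add, ← add_div, le_div_iff₀ hN0]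
      linarith
    refine h3.trans ?_
    rw [one_div]
    exact inv_le_of_inv_le₀ hE hle

/-- the final label in the local systems: shape `(0, e - d)`, duration `t - r`, horizon `e - d + t - r` -/
theorem tl_loc_label (K : ℝ) : ∃ K' : ℝ, ∀ (S : CSys) (ε t L b a : ℝ) (p : LocPar) (th : S.Ω → ℝ)
    (Γ : Type) (G : S.Ω → Γ) (geo : Γ → Geo), 0 < ε → ε < 1 → S.IsLabel K ε t L G geo →
    (∀ g, (geo g).b = b ∧ (geo g).a = a) → p.b = b → 0 ≤ p.d → p.d ≤ a - b → 0 ≤ p.r → p.r ≤ t →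
    (∀ ω, 0 < S.P.p ω → |Real.sin ((geo (G ω)).th - trep ε p.d (th ω))| ≤ K * ε ^ p.d) →
    ∃ geo' : ℤ × ℤ × ℤ × ℤ × ℤ × ℤ → Γ → Geo,
      (∀ j g, (geo' j g).b = 0 ∧ (geo' j g).a = a - b - p.d) ∧
      ∀ ω₀, 0 < S.P.p ω₀ → (S.loc ε p th (S.J ε p th ω₀)).IsLabel K' ε (t - p.r) (a - b - p.d + t - p.r) G
        (geo' (S.J ε p th ω₀)) := by
  refine ⟨K * (K + 2), ?_⟩
  intro S ε t L b a p th Γ G geo h0 h1 hlab hshape hpb hd0 hd hr0 hr hsin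
  have hpt : ∀ (j : ℤ × ℤ × ℤ × ℤ × ℤ × ℤ) (g : Γ), ∃ g' : Geo, g'.b = 0 ∧ g'.a = a - b - p.d ∧
      ∀ (L : ℝ) (V A : ℝ × ℝ) (c : ℝ), (geo g).Compat K ε t L V A c →
        |Real.sin ((geo g).th - crep ε p.d j.2.1)| ≤ K * ε ^ p.d →
        g'.Compat (K * (K + 2)) ε (t - p.r) (a - b - p.d + t - p.r) (locV ε p j V)
          (locA ε p j V A) (locC ε p j c) := by
    intro j g
    have := tl_g_label_pt K ε t p j (geo g) h0 h1 (by rw [hpb, (hshape g).1]) hd0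
      (by rw [(hshape g).1, (hshape g).2]; exact hd)
    rw [(hshape g).1, (hshape g).2] at this
    exact this
  choose geo' hg1 hg2 hg3 using hpt
  refine ⟨geo', fun j g => ⟨hg1 j g, hg2 j g⟩, fun ω₀ hω₀ ω hω => ?_⟩
  have hpos : 0 < S.P.pr (fun ω' => S.J ε p th ω' = S.J ε p th ω₀) :=
    (ent_pr_pos_iff _ _).2 ⟨ω₀, rfl, hω₀.ne'⟩
  have hω' : (S.P.cnd (fun ω' => S.J ε p th ω' = S.J ε p th ω₀)).p ω ≠ 0 := ne_of_gt hω
  obtain ⟨hJ, hp⟩ := (ent_cnd_supp S.P _ hpos).1 hω'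
  have hp' : 0 < S.P.p ω := lt_of_le_of_ne (S.P.nonneg _) (Ne.symm hp)
  have hs := hsin ω hp'
  have e : trep ε p.d (th ω) = crep ε p.d (S.J ε p th ω₀).2.1 := by
    rw [← hJ]
    rfl
  rw [e] at hs
  exact hg3 (S.J ε p th ω₀) (G ω) L _ _ _ (hlab ω hp') hs

/-- `J` is determined by the final label and the angle prefix up to bounded ambiguity (also for `r = t`: common coarsening of Sec. 4.4) -/
theorem tl_loc_J_det (K : ℝ) : ∃ C : ℝ, ∀ (S : CSys) (ε t L b a : ℝ) (p : LocPar) (th : S.Ω → ℝ)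
    (Γ : Type) (G : S.Ω → Γ) (geo : Γ → Geo), 0 < ε → ε < 1 → S.IsLabel K ε t L G geo →
    (∀ g, (geo g).b = b ∧ (geo g).a = a) → p.b = b → 0 ≤ p.d → p.d ≤ a - b → 0 ≤ p.r → p.r ≤ t →
    (∀ ω, 0 < S.P.p ω → |Real.sin ((geo (G ω)).th - trep ε p.d (th ω))| ≤ K * ε ^ p.d) →
    S.P.entC (S.J ε p th) G ≤ C + S.P.entC (fun ω => tcell ε p.d (th ω)) G := by
  refine ⟨Real.log ((⌈4 * K⌉₊ : ℝ) + 1) + (Real.log ((⌈4 * (2 * K)⌉₊ : ℝ) + 1)
    + (Real.log ((⌈4 * (K ^ 2 + K)⌉₊ : ℝ) + 1) + (Real.log ((⌈4 * (2 * K * (K + 2))⌉₊ : ℝ) + 1)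
    + Real.log ((⌈4 * ((K ^ 2 + K) * (K + 2))⌉₊ : ℝ) + 1)))),
    fun S ε t L b a p th Γ G geo h0 h1 hlab hshape hpb hd0 hd hr0 hr hsin => ?_⟩
  obtain ⟨ω₁, hω₁⟩ := ent_exists_supp S.P
  have hb : 0 ≤ b := by
    have := (hlab ω₁ (lt_of_le_of_ne (S.P.nonneg ω₁) (Ne.symm hω₁))).1
    rwa [(hshape _).1] at this
  -- the core estimates at a sampled point
  have core : ∀ ω, S.P.p ω ≠ 0 → _ := fun ω hω =>
    tl_det_core (d := p.d) (r := p.r) h0 h1 (geo (G ω)) (S.V (S.T ω)) (S.A (S.T ω)) (S.c ω)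
      (trep ε p.d (th ω)) (hlab ω (lt_of_le_of_ne (S.P.nonneg ω) (Ne.symm hω))) (hshape _).1 (hshape _).2
      hd0 hd hr (hsin ω (lt_of_le_of_ne (S.P.nonneg ω) (Ne.symm hω)))
  set Θ : S.Ω → ℤ := fun ω => tcell ε p.d (th ω) with hΘ
  set Cr : S.Ω → ℤ := fun ω => tcell ε p.r (S.c ω) with hCr
  set J3 : S.Ω → ℤ := fun ω => tcell ε p.b (ip (S.V (S.T ω)) (tang (trep ε p.d (th ω)))) with hJ3
  set J4 : S.Ω → ℤ := fun ω => tcell ε (p.b + p.d) (ip (S.V (S.T ω)) (nrm (trep ε p.d (th ω)))) with hJ4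
  set J5 : S.Ω → ℤ := fun ω => tcell ε (p.b + p.r)
    (ip (S.A (S.T ω) + trep ε p.r (S.c ω) • S.V (S.T ω)) (tang (trep ε p.d (th ω)))) with hJ5
  set J6 : S.Ω → ℤ := fun ω => tcell ε (p.b + p.d + p.r)
    (ip (S.A (S.T ω) + trep ε p.r (S.c ω) • S.V (S.T ω)) (nrm (trep ε p.d (th ω)))) with hJ6
  have hφ : ∀ ω ω₀, Θ ω = Θ ω₀ → trep ε p.d (th ω) = trep ε p.d (th ω₀) := by
    intro ω ω₀ h
    unfold trep
    rw [show tcell ε p.d (th ω) = tcell ε p.d (th ω₀) from h]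
  have hcr : ∀ ω ω₀, Cr ω = Cr ω₀ → trep ε p.r (S.c ω) = trep ε p.r (S.c ω₀) := by
    intro ω ω₀ h
    unfold trep
    rw [show tcell ε p.r (S.c ω) = tcell ε p.r (S.c ω₀) from h]
  -- five bounded ambiguities
  have n1 : S.P.entC Cr (FLaw.pair Θ G) ≤ Real.log ((⌈4 * K⌉₊ : ℝ) + 1) := by
    refine tl_nval_cell S.P _ (fun ω => S.c ω) h0 h1 hr0 fun ω₀ => ⟨(geo (G ω₀)).tc, fun ω hω hA => ?_⟩
    have hG : G ω = G ω₀ := congrArg (fun x => x.2) hA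
    rw [← hG]
    exact (core ω hω).1
  have n3 : S.P.entC J3 (FLaw.pair Cr (FLaw.pair Θ G)) ≤ Real.log ((⌈4 * (2 * K)⌉₊ : ℝ) + 1) := by
    refine tl_nval_cell S.P _ (fun ω => ip (S.V (S.T ω)) (tang (trep ε p.d (th ω)))) h0 h1
      (by rw [hpb]; exact hb) fun ω₀ =>
      ⟨ip (geo (G ω₀)).vc (tang (trep ε p.d (th ω₀))), fun ω hω hA => ?_⟩
    have hG : G ω = G ω₀ := congrArg (fun x => x.2.2) hA
    have hT : Θ ω = Θ ω₀ := congrArg (fun x => x.2.1) hA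
    rw [← hG, ← hφ ω ω₀ hT, hpb]
    exact (core ω hω).2.1
  have n4 : S.P.entC J4 (FLaw.pair Cr (FLaw.pair Θ G)) ≤ Real.log ((⌈4 * (K ^ 2 + K)⌉₊ : ℝ) + 1) := by
    refine tl_nval_cell S.P _ (fun ω => ip (S.V (S.T ω)) (nrm (trep ε p.d (th ω)))) h0 h1
      (by rw [hpb]; linarith) fun ω₀ =>
      ⟨ip (geo (G ω₀)).vc (nrm (trep ε p.d (th ω₀))), fun ω hω hA => ?_⟩
    have hG : G ω = G ω₀ := congrArg (fun x => x.2.2) hA
    have hT : Θ ω = Θ ω₀ := congrArg (fun x => x.2.1) hA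
    rw [← hG, ← hφ ω ω₀ hT, hpb]
    exact (core ω hω).2.2.1
  have n5 : S.P.entC J5 (FLaw.pair Cr (FLaw.pair Θ G)) ≤
      Real.log ((⌈4 * (2 * K * (K + 2))⌉₊ : ℝ) + 1) := by
    refine tl_nval_cell S.P _ (fun ω => ip (S.A (S.T ω) + trep ε p.r (S.c ω) • S.V (S.T ω))
      (tang (trep ε p.d (th ω)))) h0 h1 (by rw [hpb]; linarith) fun ω₀ =>
      ⟨ip ((geo (G ω₀)).xc + (trep ε p.r (S.c ω₀) - (geo (G ω₀)).tc) • (geo (G ω₀)).vc)
        (tang (trep ε p.d (th ω₀))), fun ω hω hA => ?_⟩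
    have hG : G ω = G ω₀ := congrArg (fun x => x.2.2) hA
    have hT : Θ ω = Θ ω₀ := congrArg (fun x => x.2.1) hA
    have hC : Cr ω = Cr ω₀ := congrArg (fun x => x.1) hA
    rw [← hG, ← hφ ω ω₀ hT, ← hcr ω ω₀ hC, hpb]
    exact (core ω hω).2.2.2.1
  have n6 : S.P.entC J6 (FLaw.pair Cr (FLaw.pair Θ G)) ≤
      Real.log ((⌈4 * ((K ^ 2 + K) * (K + 2))⌉₊ : ℝ) + 1) := by
    refine tl_nval_cell S.P _ (fun ω => ip (S.A (S.T ω) + trep ε p.r (S.c ω) • S.V (S.T ω))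
      (nrm (trep ε p.d (th ω)))) h0 h1 (by rw [hpb]; linarith) fun ω₀ =>
      ⟨ip ((geo (G ω₀)).xc + (trep ε p.r (S.c ω₀) - (geo (G ω₀)).tc) • (geo (G ω₀)).vc)
        (nrm (trep ε p.d (th ω₀))), fun ω hω hA => ?_⟩
    have hG : G ω = G ω₀ := congrArg (fun x => x.2.2) hA
    have hT : Θ ω = Θ ω₀ := congrArg (fun x => x.2.1) hA
    have hC : Cr ω = Cr ω₀ := congrArg (fun x => x.1) hA
    rw [← hG, ← hφ ω ω₀ hT, ← hcr ω ω₀ hC, hpb]
    exact (core ω hω).2.2.2.2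
  -- entropy calculus
  have m0 : S.P.entC (S.J ε p th) G ≤
      S.P.entC (FLaw.pair Θ (FLaw.pair Cr (FLaw.pair J3 (FLaw.pair J4 (FLaw.pair J5 J6))))) G := by
    refine ent_entC_mono S.P _ _ G fun ω ω' _ _ h _ => ?_
    simp only [FLaw.pair, Prod.mk.injEq] at h
    obtain ⟨a1, a2, a3, a4, a5, a6⟩ := h
    show (Cr ω, Θ ω, J3 ω, J4 ω, J5 ω, J6 ω) = (Cr ω', Θ ω', J3 ω', J4 ω', J5 ω', J6 ω')
    rw [a1, a2, a3, a4, a5, a6]
  have m1 := ent_entC_chain S.P Θ (FLaw.pair Cr (FLaw.pair J3 (FLaw.pair J4 (FLaw.pair J5 J6)))) G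
  have m2 := ent_entC_chain S.P Cr (FLaw.pair J3 (FLaw.pair J4 (FLaw.pair J5 J6))) (FLaw.pair Θ G)
  have m3 := ent_entC_pair_le_add S.P J3 (FLaw.pair J4 (FLaw.pair J5 J6)) (FLaw.pair Cr (FLaw.pair Θ G))
  have m4 := ent_entC_pair_le_add S.P J4 (FLaw.pair J5 J6) (FLaw.pair Cr (FLaw.pair Θ G))
  have m5 := ent_entC_pair_le_add S.P J5 J6 (FLaw.pair Cr (FLaw.pair Θ G))
  linarith

/-- composition of `J` with local root labels: geometry (2x2 singular values; all four relations are EXACT).  An aperture label at duration `r`, horizon `b + d + L' + r`; a root label if `r = 0`. -/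
theorem tl_loc_compose (K₁ B : ℝ) : ∃ K'' : ℝ, ∀ (S : CSys) (γ ε L' : ℝ) (p : LocPar) (th : S.Ω → ℝ)
    (Γ' : Type) (D' : S.Ω → Γ') (geoD : ℤ × ℤ × ℤ × ℤ × ℤ × ℤ → Γ' → Geo),
    S.Bdd B → 0 < γ → γ < 1 → 0 < ε → ε < 1 → 0 ≤ p.b → 0 ≤ p.d → 0 ≤ p.r →
    (∀ ω, 0 < S.P.p ω → (geoD (S.J ε p th ω) (D' ω)).RootCompat K₁ ε L'
      (locV ε p (S.J ε p th ω) (S.V (S.T ω))) (locA ε p (S.J ε p th ω) (S.V (S.T ω)) (S.A (S.T ω)))) →
    ∃ geoC : (ℤ × ℤ × ℤ × ℤ × ℤ × ℤ) × Γ' → Geo,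
      (∀ j g, 2 * p.b + (1 - γ) * p.d + wt γ (geoD j g) ≤ wt γ (geoC (j, g))) ∧
      (∀ j g, p.b + (geoD j g).b ≤ (geoC (j, g)).b ∧ (geoC (j, g)).a ≤ p.b + p.d + (geoD j g).a) ∧
      S.IsLabel K'' ε p.r (p.b + p.d + L' + p.r) (FLaw.pair (S.J ε p th) D') geoC ∧
      (p.r = 0 → ∀ ω, 0 < S.P.p ω → (geoC (S.J ε p th ω, D' ω)).RootCompat K'' ε (p.b + p.d + L')
        (S.V (S.T ω)) (S.A (S.T ω))) := by
  refine ⟨2 * K₁ * (B + 2) + B + 1, ?_⟩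
  intro S γ ε L' p th Γ' D' geoD hB hγ0 hγ1 h0 h1 hb hd hr hC
  choose gC hg1 hg2 hg3 using fun (x : (ℤ × ℤ × ℤ × ℤ × ℤ × ℤ) × Γ') =>
    tl_g_comp_pt K₁ B γ ε p x.1 (geoD x.1 x.2) h0 h1 hγ0 hd
  have key : ∀ ω, 0 < S.P.p ω →
      (gC (S.J ε p th ω, D' ω)).Compat (2 * K₁ * (B + 2) + B + 1) ε p.r (p.b + p.d + L' + p.r)
        (S.V (S.T ω)) (S.A (S.T ω)) (S.c ω) ∧
      (p.r = 0 → (gC (S.J ε p th ω, D' ω)).RootCompat (2 * K₁ * (B + 2) + B + 1) ε (p.b + p.d + L')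
        (S.V (S.T ω)) (S.A (S.T ω))) := by
    intro ω hω
    have hcell := tl_g_cell ε p.r (S.c ω) h0
    exact hg3 (S.J ε p th ω, D' ω) L' _ _ (S.c ω) hb (hB ω hω).2.2.2.2 hcell.1 hcell.2 (hC ω hω)
  exact ⟨gC, fun j g => hg1 (j, g), fun j g => hg2 (j, g), fun ω hω => (key ω hω).1,
    fun h ω hω => (key ω hω).2 h⟩

end Claimed.Agent.R255
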