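-- KEEP
import Claimed.Agent.R255.Cl.Tools.LocA
import Claimed.Agent.R255.Cl.Tools.Split
import Claimed.Agent.R255.Cl.Tools.Glue

/-!
# Row 255 (BR paper), chapter TOOLS (Sec. 4.1-4.3), finite level: package TL-LOC-B (Lemma 4.5, chain rules and assembling)      (chief helper216)

One finite system, one precision `ε`, explicit errors `C / lg ε`.  No limits.  STATEMENTS ARE FROZEN (ask helper216); provers replace the `sorry`s IN PLACE, helper lemmas go above (prefix `tl_`, names must be new).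
You may use every statement of the imported files (also sorried ones) and every EARLIER statement of this file.  Entropy calculus: `R255/Ent/Basic.lean`.
-/

set_option autoImplicit false

namespace Claimed.Agent.R255

open Classical

/-! ### helper lemmas for TL-LOC-B1 (helper26) -/

/-- local time cells versus `C_t`: at most three cells `C_t` in one local cell -/
theorem tl_loc_time_cells {ε r t : ℝ} (h0 : 0 < ε) (h1 : ε < 1) (hr : r ≤ t) (ht : 0 ≤ t) (cJ : ℝ)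
    (k : ℤ) : ∃ x₀ : ℝ, ∀ c : ℝ, tcell ε (t - r) ((c - cJ) / ε ^ r) = k →
      tcell ε t c ∈ Finset.Icc ⌊x₀⌋ (⌊x₀⌋ + ((2 : ℕ) : ℤ)) := by
  have Er : 0 < ε ^ r := Real.rpow_pos_of_pos h0 r
  have Es : 0 < ε ^ (t - r) := Real.rpow_pos_of_pos h0 (t - r)
  set N : ℝ := 2 ^ (tlev ε t) with hN
  set M : ℝ := 2 ^ (tlev ε (t - r)) with hM
  have N0 : 0 < N := by positivity
  have M0 : 0 < M := by positivity
  have hNM : ε ^ r * N < 2 * M := by
    have a1 := tl_cellw_lt h0 h1 ht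
    have a2 := tl_cellw_ge h0 (t - r)
    have a3 : ε ^ t = ε ^ r * ε ^ (t - r) := by
      rw [← Real.rpow_add h0]
      congr 1
      ring
    rw [a3] at a1
    have a4 : (ε ^ r * N) * ε ^ (t - r) < (2 * M) * ε ^ (t - r) := by nlinarith
    exact lt_of_mul_lt_mul_right a4 Es.le
  refine ⟨(cJ + k * (ε ^ r / M)) * N, fun c hc => ?_⟩
  unfold tcell at hc ⊢
  have b1 := Int.floor_le ((c - cJ) / ε ^ r * M)
  have b2 := Int.lt_floor_add_one ((c - cJ) / ε ^ r * M)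
  rw [hc] at b1 b2
  have e : (c - cJ) / ε ^ r * M = (c - cJ) / (ε ^ r / M) := by
    field_simp
  have w0 : 0 < ε ^ r / M := by positivity
  rw [e] at b1 b2
  rw [le_div_iff₀ w0] at b1
  rw [div_lt_iff₀ w0] at b2
  have wN : ε ^ r / M * N < 2 := by
    rw [div_mul_eq_mul_div, div_lt_iff₀ M0]
    exact hNM
  rw [Finset.mem_Icc]
  constructor
  · exact Int.floor_le_floor (mul_le_mul_of_nonneg_right (by linarith) N0.le)
  · rw [← Int.lt_add_one_iff, Int.floor_lt]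
    push_cast
    have c1 : c * N < (cJ + k * (ε ^ r / M)) * N + ε ^ r / M * N := by
      have : c * N < (cJ + (k + 1) * (ε ^ r / M)) * N := mul_lt_mul_of_pos_right (by linarith) N0
      linarith
    have c2 := Int.lt_floor_add_one ((cJ + k * (ε ^ r / M)) * N)
    linarith

/-- (4.8) before the use of the universal bound: for ANY read-outs `geo'` of shape `(0, e - d)` -/
theorem tl_loc_first (K : ℝ) : ∃ C : ℝ, ∀ (S : CSys) (γ ε t L b a : ℝ) (p : LocPar) (th : S.Ω → ℝ)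
    (Γ : Type) (G : S.Ω → Γ) (geo : Γ → Geo) (geo' : ℤ × ℤ × ℤ × ℤ × ℤ × ℤ → Γ → Geo),
    0 < γ → γ < 1 → 0 < ε → ε < 1 → S.IsLabel K ε t L G geo →
    (∀ g, (geo g).b = b ∧ (geo g).a = a) → p.b = b → 0 ≤ p.d → p.d ≤ a - b → 0 ≤ p.r → p.r ≤ t →
    (∀ ω, 0 < S.P.p ω → |Real.sin ((geo (G ω)).th - trep ε p.d (th ω))| ≤ K * ε ^ p.d) →
    (∀ j g, (geo' j g).b = 0 ∧ (geo' j g).a = a - b - p.d) →
    S.score γ ε t G geo ≤ 2 * b + (1 - γ) * p.d - S.P.mi S.T (S.J ε p th) / lg ε + 2 * S.St ε p.r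
      + S.P.ev (fun ω => (S.loc ε p th (S.J ε p th ω)).score γ ε (t - p.r) G (geo' (S.J ε p th ω)))
      + 2 * S.P.entC (fun ω => tcell ε p.d (th ω)) (FLaw.pair S.T (S.Ct ε p.r)) / lg ε
      + S.P.entC (fun ω => tcell ε p.d (th ω)) G / lg ε + C / lg ε := by
  obtain ⟨C₁, hC₁⟩ := tl_loc_J_det K
  refine ⟨C₁ + 2 * Real.log ((2 : ℕ) + 1 : ℝ), fun S γ ε t L b a p th Γ G geo geo' hγ0 hγ1 h0 h1 hlab hshape
    hpb hd0 hd hr0 hr hsin hshape' => ?_⟩
  have hl := tl_tau_lg_pos h0 h1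
  have hdet := hC₁ S ε t L b a p th Γ G geo h0 h1 hlab hshape hpb hd0 hd hr0 hr hsin
  set J := S.J ε p th with hJ
  set Θ : S.Ω → ℤ := fun ω => tcell ε p.d (th ω) with hΘ
  set C' : S.Ω → ℤ := fun ω => tcell ε (t - p.r) (locC ε p (J ω) (S.c ω)) with hC'
  -- the average of the local scores
  have eloc : S.P.ev (fun ω => (S.loc ε p th (J ω)).score γ ε (t - p.r) G (geo' (J ω))) =
      (1 - γ) * (a - b - p.d) - S.P.miC S.T G J / lg ε
        + 2 * (S.P.entC C' (FLaw.pair S.T J) / lg ε) := by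
    rw [ent_miC_eq_avg, ent_entC_pair_eq_avg, ← ent_ev_const S.P ((1 - γ) * (a - b - p.d)),
      div_eq_mul_inv, mul_comm _ (lg ε)⁻¹, div_eq_mul_inv, mul_comm _ (lg ε)⁻¹, ← ent_ev_mul_left,
      ← ent_ev_mul_left, ← ent_ev_mul_left, ← ent_ev_sub, ← ent_ev_add]
    refine ent_ev_congr S.P fun ω₀ hω₀ => ?_
    have hpos : 0 < S.P.pr (fun ω => J ω = J ω₀) := (ent_pr_pos_iff _ _).2 ⟨ω₀, rfl, hω₀⟩
    have e1 : (S.P.cfib J ω₀).ev (fun ω => wt γ (geo' (J ω₀) (G ω))) = (1 - γ) * (a - b - p.d) := by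
      rw [← ent_ev_const (S.P.cfib J ω₀) ((1 - γ) * (a - b - p.d))]
      refine congrArg _ (funext fun ω => ?_)
      unfold wt
      rw [(hshape' _ _).1, (hshape' _ _).2]
      ring
    have e2 : (S.P.cfib J ω₀).entC (fun ω => tcell ε (t - p.r) (locC ε p (J ω₀) (S.c ω))) S.T =
        (S.P.cfib J ω₀).entC C' S.T := by
      have hs : ∀ ω, (S.P.cfib J ω₀).p ω ≠ 0 → J ω = J ω₀ := fun ω hω =>
        ((ent_cnd_supp S.P _ hpos).1 hω).1
      refine ent_entC_congr _ _ _ _ _ (fun _ _ _ _ => Iff.rfl) fun ω ω' h3 h4 _ => ?_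
      show _ ↔ tcell ε (t - p.r) (locC ε p (J ω) (S.c ω)) = tcell ε (t - p.r) (locC ε p (J ω') (S.c ω'))
      rw [hs ω h3, hs ω' h4]
    show (S.P.cfib J ω₀).ev (fun ω => wt γ (geo' (J ω₀) (G ω))) - (S.P.cfib J ω₀).mi S.T G / lg ε
      + 2 * ((S.P.cfib J ω₀).entC (fun ω => tcell ε (t - p.r) (locC ε p (J ω₀) (S.c ω))) S.T / lg ε) = _
    rw [e1, e2]
    ring
  -- the weight
  have ew : S.P.ev (fun ω => wt γ (geo (G ω))) = (1 + γ) * b + (1 - γ) * a := by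
    rw [← ent_ev_const S.P ((1 + γ) * b + (1 - γ) * a)]
    refine congrArg _ (funext fun ω => ?_)
    unfold wt
    rw [(hshape _).1, (hshape _).2]
  -- information
  have i1 := ent_mi_chain S.P S.T G J
  have i2 := ent_mi_chain S.P S.T J G
  have i3 : S.P.mi S.T (FLaw.pair G J) = S.P.mi S.T (FLaw.pair J G) := by
    refine ent_mi_congr _ _ _ _ _ (fun _ _ _ _ => Iff.rfl) fun ω ω' _ _ => ?_
    simp only [FLaw.pair, Prod.mk.injEq]
    exact and_comm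
  have i4 := ent_miC_le_right S.P S.T J G
  -- time
  have k1 := tl_St_chain S ε p.r t h0 h1 hr
  have k2 : S.P.entC (S.Ct ε t) (FLaw.pair S.T (S.Ct ε p.r)) ≤
      S.P.entC (FLaw.pair J (S.Ct ε t)) (FLaw.pair S.T (S.Ct ε p.r)) :=
    ent_entC_mono _ _ _ _ fun ω ω' _ _ h _ => congrArg Prod.snd h
  have k3 := ent_entC_chain S.P J (S.Ct ε t) (FLaw.pair S.T (S.Ct ε p.r))
  have k4 : S.P.entC J (FLaw.pair S.T (S.Ct ε p.r)) ≤ S.P.entC Θ (FLaw.pair S.T (S.Ct ε p.r)) := by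
    refine ent_entC_mono _ _ _ _ fun ω ω' _ _ h h' => ?_
    have hT : S.T ω = S.T ω' := congrArg Prod.fst h'
    have hc : tcell ε p.r (S.c ω) = tcell ε p.r (S.c ω') := congrArg Prod.snd h'
    have hth : tcell ε p.d (th ω) = tcell ε p.d (th ω') := h
    show locJ ε p _ _ _ _ = locJ ε p _ _ _ _
    unfold locJ trep
    rw [hT, hc, hth]
  have k5 : S.P.entC (S.Ct ε t) (FLaw.pair J (FLaw.pair S.T (S.Ct ε p.r))) ≤
      S.P.entC (S.Ct ε t) (FLaw.pair S.T J) :=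
    ent_entC_anti _ _ _ _ fun ω ω' _ _ h => by
      simp only [FLaw.pair, Prod.mk.injEq] at h ⊢
      exact ⟨h.2.1, h.1⟩
  have k6 : S.P.entC (S.Ct ε t) (FLaw.pair S.T J) ≤
      S.P.entC (FLaw.pair C' (S.Ct ε t)) (FLaw.pair S.T J) :=
    ent_entC_mono _ _ _ _ fun ω ω' _ _ h _ => congrArg Prod.snd h
  have k7 := ent_entC_chain S.P C' (S.Ct ε t) (FLaw.pair S.T J)
  have k8 : S.P.entC (S.Ct ε t) (FLaw.pair C' (FLaw.pair S.T J)) ≤ Real.log ((2 : ℕ) + 1 : ℝ) := by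
    refine ent_entC_le_log_nval S.P _ _ fun ω₀ => ?_
    obtain ⟨x₀, hx₀⟩ := tl_loc_time_cells h0 h1 hr (hr0.trans hr) (crep ε p.r (J ω₀).1) (C' ω₀)
    refine ⟨Finset.Icc ⌊x₀⌋ (⌊x₀⌋ + ((2 : ℕ) : ℤ)), ?_, fun ω _ _ hA => hx₀ (S.c ω) ?_⟩
    · rw [tl_card_Icc_nat]
      norm_num
    · have a1 : C' ω = C' ω₀ := congrArg Prod.fst hA
      have a2 : J ω = J ω₀ := congrArg (fun x => x.2.2) hA
      rw [← a1, ← a2]
      rfl
  -- assemble
  have fin1 : - S.P.mi S.T G + 2 * S.P.entC (S.Ct ε t) (FLaw.pair S.T (S.Ct ε p.r)) ≤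
      - S.P.mi S.T J - S.P.miC S.T G J + 2 * S.P.entC C' (FLaw.pair S.T J)
        + 2 * S.P.entC Θ (FLaw.pair S.T (S.Ct ε p.r)) + S.P.entC Θ G
        + (C₁ + 2 * Real.log ((2 : ℕ) + 1 : ℝ)) := by
    linarith
  have fin2 := div_le_div_of_nonneg_right fin1 hl.le
  rw [eloc]
  unfold CSys.score
  rw [ew]
  have k1' : S.St ε t = S.St ε p.r + S.P.entC (S.Ct ε t) (FLaw.pair S.T (S.Ct ε p.r)) / lg ε := by
    linarith
  rw [k1']
  have fin3 : (- S.P.mi S.T G + 2 * S.P.entC (S.Ct ε t) (FLaw.pair S.T (S.Ct ε p.r))) / lg ε =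
      - (S.P.mi S.T G / lg ε) + 2 * (S.P.entC (S.Ct ε t) (FLaw.pair S.T (S.Ct ε p.r)) / lg ε) := by
    ring
  have fin4 : (- S.P.mi S.T J - S.P.miC S.T G J + 2 * S.P.entC C' (FLaw.pair S.T J)
        + 2 * S.P.entC Θ (FLaw.pair S.T (S.Ct ε p.r)) + S.P.entC Θ G
        + (C₁ + 2 * Real.log ((2 : ℕ) + 1 : ℝ))) / lg ε =
      - (S.P.mi S.T J / lg ε) - S.P.miC S.T G J / lg ε + 2 * (S.P.entC C' (FLaw.pair S.T J) / lg ε)
        + 2 * S.P.entC Θ (FLaw.pair S.T (S.Ct ε p.r)) / lg ε + S.P.entC Θ G / lg ε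
        + (C₁ + 2 * Real.log ((2 : ℕ) + 1 : ℝ)) / lg ε := by
    ring
  rw [fin3, fin4] at fin2
  linarith

/-- assembling near-optimal local root tests into one label on an extension: `E τ'_J` is almost attained by a label `D'` drawn from a kernel depending on `(T, J)` only -/
theorem tl_loc_assemble (S : CSys) (γ ε L' η : ℝ) (p : LocPar) (th : S.Ω → ℝ)
    (hγ0 : 0 < γ) (hγ1 : γ < 1) (h0 : 0 < ε) (h1 : ε < 1) (hb : 0 ≤ p.b) (hd : 0 ≤ p.d) (hr : 0 ≤ p.r)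
    (hL : 0 ≤ L') (hη : 0 < η) :
    ∃ (Γ' : Type) (_ : Fintype Γ') (κ : FLaw.Ker S.Ω Γ') (geoD : ℤ × ℤ × ℤ × ℤ × ℤ × ℤ → Γ' → Geo),
      (∀ ω ω', S.T ω = S.T ω' → S.J ε p th ω = S.J ε p th ω' → κ.k ω = κ.k ω') ∧
      (∀ x : S.Ω × Γ', 0 < (S.P.ext κ).p x → (geoD (S.J ε p th x.1) x.2).RootCompat 1 ε L'
        (locV ε p (S.J ε p th x.1) (S.V (S.T x.1)))
        (locA ε p (S.J ε p th x.1) (S.V (S.T x.1)) (S.A (S.T x.1)))) ∧
      S.P.ev (fun ω => (S.loc ε p th (S.J ε p th ω)).tau γ ε L') - η ≤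
        (S.P.ext κ).ev (fun x => wt γ (geoD (S.J ε p th x.1) x.2))
          - (S.P.ext κ).miC (fun x => S.T x.1) (fun x => x.2) (fun x => S.J ε p th x.1) / lg ε := by
  have hdata : ∀ j : ℤ × ℤ × ℤ × ℤ × ℤ × ℤ, ∃ (Γ : Type) (_ : Fintype Γ) (kk : FLaw.Ker S.ι Γ) (geo : Γ → Geo),
      (∃ ω₀, 0 < S.P.p ω₀ ∧ S.J ε p th ω₀ = j) →
      (∀ i g, 0 < (S.P.cnd (fun ω => S.J ε p th ω = j)).pr (fun ω => S.T ω = i) → 0 < kk.k i g →
        (geo g).RootCompat 1 ε L' (locV ε p j (S.V i)) (locA ε p j (S.V i) (S.A i))) ∧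
      (S.loc ε p th j).tau γ ε L' - η ≤
        ((S.P.cnd (fun ω => S.J ε p th ω = j)).ext
          ⟨fun ω => kk.k (S.T ω), fun _ => kk.nonneg _, fun _ => kk.sum_one _⟩).ev (fun y => wt γ (geo y.2))
        - ((S.P.cnd (fun ω => S.J ε p th ω = j)).ext
          ⟨fun ω => kk.k (S.T ω), fun _ => kk.nonneg _, fun _ => kk.sum_one _⟩).mi
            (fun y => S.T y.1) (fun y => y.2) / lg ε := by
    intro j
    by_cases hj : ∃ ω₀, 0 < S.P.p ω₀ ∧ S.J ε p th ω₀ = j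
    · obtain ⟨ω₀, hω₀, rfl⟩ := hj
      have hB := tl_loc_bdd S ε p th h0 h1 hb hd hr ω₀ hω₀
      have hne := tl_tau_nonempty _ 1 γ ε L' hB h0 h1 hL
      obtain ⟨x, hx, hlt⟩ := exists_lt_of_lt_csSup hne
        (show (S.loc ε p th (S.J ε p th ω₀)).tau γ ε L' - η < sSup _ by
          unfold CSys.tau
          linarith)
      obtain ⟨Γ, inst, kk, geo, hc, hval⟩ := tl_asm_test_kernel _ γ ε L' x hx
      exact ⟨Γ, inst, kk, geo, fun _ => ⟨hc, by rw [hval] at hlt; exact hlt.le⟩⟩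
    · exact ⟨Unit, inferInstance, ⟨fun _ _ => 1, fun _ _ => zero_le_one, fun _ => by simp⟩,
        fun _ => ⟨0, 0, 0, 0, 0, 0⟩, fun h => absurd h hj⟩
  choose Γ inst kk geo hprop using hdata
  obtain ⟨κ, hκ, hval⟩ := tl_asm_glue S.P S.T (S.J ε p th) Γ kk (fun j g => wt γ (geo j g)) (lg ε)
  refine ⟨_, inferInstance, κ, fun _ x => geo x.1.1 x.2, ?_, ?_, ?_⟩
  · intro ω ω' hT hJ
    funext ⟨a, g⟩
    rw [hκ, hκ, hT, hJ]
  · rintro ⟨ω, a, g⟩ hx
    have hx' : 0 < S.P.p ω * κ.k ω ⟨a, g⟩ := hx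
    have hp : 0 < S.P.p ω := by
      rcases (S.P.nonneg ω).lt_or_eq with h | h
      · exact h
      · rw [← h, zero_mul] at hx'
        exact absurd hx' (lt_irrefl _)
    have hk : 0 < κ.k ω ⟨a, g⟩ := (mul_pos_iff_of_pos_left hp).1 hx'
    rw [hκ] at hk
    by_cases ha : a.1 = S.J ε p th ω
    · rw [if_pos ha] at hk
      have h2 := (hprop a.1 ⟨ω, hp, ha.symm⟩).1 (S.T ω) g ?_ hk
      · show (geo a.1 g).RootCompat 1 ε L' (locV ε p (S.J ε p th ω) (S.V (S.T ω)))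
          (locA ε p (S.J ε p th ω) (S.V (S.T ω)) (S.A (S.T ω)))
        rw [← ha]
        exact h2
      · have hpos : 0 < S.P.pr (fun ω' => S.J ε p th ω' = a.1) :=
          (ent_pr_pos_iff S.P _).2 ⟨ω, ha.symm, hp.ne'⟩
        rw [ent_cnd_pr S.P _ hpos]
        refine div_pos ?_ hpos
        exact (ent_pr_pos_iff S.P _).2 ⟨ω, ⟨ha.symm, rfl⟩, hp.ne'⟩
    · rw [if_neg ha] at hk
      exact absurd hk (lt_irrefl _)
  · rw [hval]
    have e1 : S.P.ev (fun ω => (S.loc ε p th (S.J ε p th ω)).tau γ ε L') - η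
        = S.P.ev (fun ω => (S.loc ε p th (S.J ε p th ω)).tau γ ε L' - η) := by
      rw [ent_ev_sub, ent_ev_const]
    rw [e1]
    refine ent_ev_mono S.P fun ω hω => ?_
    exact (hprop (S.J ε p th ω) ⟨ω, lt_of_le_of_ne (S.P.nonneg ω) (Ne.symm hω), rfl⟩).2

end Claimed.Agent.R255
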