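-- KEEP
import Claimed.Agent.R255.Cl.Tools.LocB

/-!
# Row 255 (BR paper), chapter TOOLS (Sec. 4.1-4.3), finite level: package TL-LOC2 (Lemma 4.5: (4.9), local deficits, predecessor; glue)      (chief helper216)

One finite system, one precision `ε`, explicit errors `C / lg ε`.  No limits.  STATEMENTS ARE FROZEN (ask helper216); provers replace the `sorry`s IN PLACE, helper lemmas go above (prefix `tl_`, names must be new).
You may use every statement of the imported files (also sorried ones) and every EARLIER statement of this file.  Entropy calculus: `R255/Ent/Basic.lean`.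
-/

set_option autoImplicit false

namespace Claimed.Agent.R255

open Classical

/-! ### helper lemmas of the glue (prefix `tl_l2_`) -/

theorem tl_l2_lg_pos (ε : ℝ) (h0 : 0 < ε) (h1 : ε < 1) : 0 < lg ε :=
  Real.log_pos (by rw [lt_div_iff₀ h0]; linarith)

/-- errors `C / ℓ` are small -/
theorem tl_l2_small (C ν : ℝ) (hν : 0 < ν) :
    ∃ ε₀ : ℝ, 0 < ε₀ ∧ ε₀ < 1 ∧ ∀ ε : ℝ, 0 < ε → ε < ε₀ → C / lg ε ≤ ν := by
  have hq : 0 ≤ |C| / ν := by positivity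
  refine ⟨Real.exp (-(|C| / ν + 1)), Real.exp_pos _, ?_, ?_⟩
  · rw [Real.exp_lt_one_iff]
    linarith
  · intro ε h0 h1
    have hl : |C| / ν + 1 < lg ε := by
      unfold lg
      rw [one_div, Real.log_inv]
      have := Real.log_lt_log h0 h1
      rw [Real.log_exp] at this
      linarith
    have hpos : 0 < lg ε := by linarith
    rw [div_le_iff₀ hpos]
    have h2 : |C| / ν * ν = |C| := by field_simp
    nlinarith [le_abs_self C]

theorem tl_l2_adj_pos (S : CSys) {Γ : Type} [Fintype Γ] (κ : FLaw.Ker S.Ω Γ) (x : S.Ω × Γ)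
    (hx : 0 < (S.P.ext κ).p x) : 0 < S.P.p x.1 := by
  have hx' : 0 < S.P.p x.1 * κ.k x.1 x.2 := hx
  exact lt_of_le_of_ne (S.P.nonneg _) (fun h => by rw [← h, zero_mul] at hx'; exact lt_irrefl _ hx')

theorem tl_l2_adj_bdd (S : CSys) (B : ℝ) (hB : S.Bdd B) {Γ : Type} [Fintype Γ]
    (κ : FLaw.Ker S.Ω Γ) : (S.adjoin κ).Bdd B :=
  fun x hx => hB x.1 (tl_l2_adj_pos S κ x hx)

theorem tl_l2_adj_St (S : CSys) (ε r : ℝ) {Γ : Type} [Fintype Γ] (κ : FLaw.Ker S.Ω Γ) :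
    (S.adjoin κ).St ε r = S.St ε r := by
  have h : (S.P.ext κ).entC (fun x => S.Ct ε r x.1) (fun x => S.T x.1) = S.P.entC (S.Ct ε r) S.T := by
    rw [← ent_map_entC, ent_ext_map_fst]
  show (S.P.ext κ).entC (fun x => S.Ct ε r x.1) (fun x => S.T x.1) / lg ε = _
  rw [h]
  rfl

/-- value of a composed label `(J, D')` on the extension -/
theorem tl_l2_comp_value (S : CSys) (γ ε : ℝ) (p : LocPar) (th : S.Ω → ℝ) (h0 : 0 < ε) (h1 : ε < 1)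
    {Γ' : Type} [Fintype Γ'] (κ : FLaw.Ker S.Ω Γ') (geoD : ℤ × ℤ × ℤ × ℤ × ℤ × ℤ → Γ' → Geo)
    (geoC : (ℤ × ℤ × ℤ × ℤ × ℤ × ℤ) × Γ' → Geo)
    (hw : ∀ j g, 2 * p.b + (1 - γ) * p.d + wt γ (geoD j g) ≤ wt γ (geoC (j, g))) :
    2 * p.b + (1 - γ) * p.d - S.P.mi S.T (S.J ε p th) / lg ε
      + ((S.P.ext κ).ev (fun x => wt γ (geoD (S.J ε p th x.1) x.2))
        - (S.P.ext κ).miC (fun x => S.T x.1) (fun x => x.2) (fun x => S.J ε p th x.1) / lg ε) ≤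
    (S.P.ext κ).ev (fun x => wt γ (geoC (S.J ε p th x.1, x.2)))
      - (S.P.ext κ).mi (fun x => S.T x.1) (fun x => (S.J ε p th x.1, x.2)) / lg ε := by
  have hl := tl_l2_lg_pos ε h0 h1
  have e1 : 2 * p.b + (1 - γ) * p.d + (S.P.ext κ).ev (fun x => wt γ (geoD (S.J ε p th x.1) x.2)) ≤
      (S.P.ext κ).ev (fun x => wt γ (geoC (S.J ε p th x.1, x.2))) := by
    rw [← ent_ev_const (S.P.ext κ) (2 * p.b + (1 - γ) * p.d), ← ent_ev_add]
    exact ent_ev_mono _ fun x _ => hw _ _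
  have e2 : (S.P.ext κ).mi (fun x => S.T x.1) (fun x => (S.J ε p th x.1, x.2)) =
      S.P.mi S.T (S.J ε p th)
        + (S.P.ext κ).miC (fun x => S.T x.1) (fun x => x.2) (fun x => S.J ε p th x.1) := by
    have h3 : (S.P.ext κ).mi (fun x => S.T x.1) (fun x => S.J ε p th x.1) = S.P.mi S.T (S.J ε p th) := by
      rw [← ent_map_mi, ent_ext_map_fst]
    rw [← h3, ← ent_mi_chain]
    refine ent_mi_congr _ _ _ _ _ (fun _ _ _ _ => Iff.rfl) (fun x y _ _ => ?_)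
    simp only [FLaw.pair, Prod.mk.injEq]
    exact and_comm
  rw [e2, add_div]
  linarith

/-- (4.9) -/
theorem tl_loc_second (γ B Lmax tmin ν : ℝ) (hγ0 : 0 < γ) (hγ1 : γ < 1) (ht : 0 < tmin) (hν : 0 < ν) :
    ∃ ε₀ : ℝ, 0 < ε₀ ∧ ε₀ < 1 ∧ ∀ (S : CSys) (ε L L' : ℝ) (p : LocPar) (th : S.Ω → ℝ), 0 < ε → ε < ε₀ →
      S.Bdd B → 0 ≤ p.b → 0 ≤ p.d → (p.r = 0 ∨ tmin ≤ p.r) → 0 ≤ L' → p.b + p.d + L' + p.r ≤ L → L ≤ Lmax →
      2 * p.b + (1 - γ) * p.d - S.P.mi S.T (S.J ε p th) / lg ε + 2 * S.St ε p.r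
        + S.P.ev (fun ω => (S.loc ε p th (S.J ε p th ω)).tau γ ε L') ≤ beta γ * p.r + S.tau γ ε L + ν := by
  obtain ⟨K'', hcomp⟩ := tl_loc_compose 1 B
  obtain ⟨ε₁, hε₁0, hε₁1, hub⟩ :=
    tl_univBound_beta γ hγ0 hγ1 K'' B Lmax tmin (ν / 4) ht (by linarith)
  obtain ⟨C1, hroot⟩ := tl_root_le_tau K''
  obtain ⟨C2, hSt⟩ := tl_St_le B
  obtain ⟨ε₂, hε₂0, hε₂1, hsm⟩ := tl_l2_small (C1 + 2 * C2) (ν / 4) (by linarith)
  refine ⟨min ε₁ ε₂, lt_min hε₁0 hε₂0, lt_of_le_of_lt (min_le_left _ _) hε₁1, ?_⟩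
  intro S ε L L' p th h0 hε hB hb hd hr hL' hL hLmax
  have h1 : ε < 1 := lt_trans (lt_of_lt_of_le hε (min_le_left _ _)) hε₁1
  have hl := tl_l2_lg_pos ε h0 h1
  have hr0 : 0 ≤ p.r := by rcases hr with h | h <;> linarith
  obtain ⟨Γ', _, κ, geoD, -, hcompat, hval⟩ :=
    tl_loc_assemble S γ ε L' (ν / 4) p th hγ0 hγ1 h0 h1 hb hd hr0 hL' (by linarith)
  obtain ⟨geoC, hw, -, hlab, hrt⟩ := hcomp (S.adjoin κ) γ ε L' p (fun x => th x.1) Γ'
    (fun x => x.2) geoD (tl_l2_adj_bdd S B hB κ) hγ0 hγ1 h0 h1 hb hd hr0 hcompat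
  have hv := tl_l2_comp_value S γ ε p th h0 h1 κ geoD geoC hw
  have htau : (S.adjoin κ).tau γ ε L = S.tau γ ε L := tl_tau_adjoin S γ ε L Γ' κ
  rcases hr with hr | hr
  · have h2 := hroot (S.adjoin κ) γ ε L _ (fun x => (S.J ε p th x.1, x.2)) geoC hγ0 hγ1 h0 h1
      (fun x hx => by
        obtain ⟨a1, a2, a3, a4, a5⟩ := hrt hr x hx
        exact ⟨a1, a2, le_trans a3 (by linarith), a4, a5⟩)
    have h3 := hSt S ε p.r hB h0 h1 hr0
    have h4 := hsm ε h0 (lt_of_lt_of_le hε (min_le_right _ _))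
    rw [htau] at h2
    have h2' : (S.P.ext κ).ev (fun x => wt γ (geoC (S.J ε p th x.1, x.2)))
        - (S.P.ext κ).mi (fun x => S.T x.1) (fun x => (S.J ε p th x.1, x.2)) / lg ε
        ≤ S.tau γ ε L + C1 / lg ε := h2
    rw [add_div, mul_div_assoc] at h4
    rw [hr] at h3 ⊢
    linarith
  · have h2 := hub ε h0 (lt_of_lt_of_le hε (min_le_left _ _)) p.r L hr (by linarith) hLmax
      (S.adjoin κ) _ (fun x => (S.J ε p th x.1, x.2)) geoC (tl_l2_adj_bdd S B hB κ)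
      (fun x hx => by
        obtain ⟨a1, a2, a3, a4, a5, a6⟩ := hlab x hx
        exact ⟨a1, a2, le_trans a3 hL, a4, a5, a6⟩)
    rw [htau] at h2
    have h2' : (S.P.ext κ).ev (fun x => wt γ (geoC (S.J ε p th x.1, x.2)))
        - (S.P.ext κ).mi (fun x => S.T x.1) (fun x => (S.J ε p th x.1, x.2)) / lg ε
        + 2 * (S.adjoin κ).St ε p.r ≤ S.tau γ ε L + beta γ * p.r + ν / 4 := h2
    rw [tl_l2_adj_St] at h2'
    linarith

/-- the mean local deficit is controlled by the global one: "typical conditional systems are saturated" -/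
theorem tl_loc_deficit (γ K B Lmax tmin ν : ℝ) (hγ0 : 0 < γ) (hγ1 : γ < 1) (ht : 0 < tmin) (hν : 0 < ν) :
    ∃ ε₀ : ℝ, 0 < ε₀ ∧ ε₀ < 1 ∧ ∀ (S : CSys) (ε t L b a : ℝ) (p : LocPar) (th : S.Ω → ℝ)
      (Γ : Type) (G : S.Ω → Γ) (geo : Γ → Geo) (geo' : ℤ × ℤ × ℤ × ℤ × ℤ × ℤ → Γ → Geo), 0 < ε → ε < ε₀ →
      S.Bdd B → S.IsLabel K ε t L G geo → L ≤ Lmax →
      (∀ g, (geo g).b = b ∧ (geo g).a = a) → p.b = b → 0 ≤ p.d → p.d ≤ a - b → (p.r = 0 ∨ tmin ≤ p.r) →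
      p.r ≤ t →
      (∀ ω, 0 < S.P.p ω → |Real.sin ((geo (G ω)).th - trep ε p.d (th ω))| ≤ K * ε ^ p.d) →
      (∀ j g, (geo' j g).b = 0 ∧ (geo' j g).a = a - b - p.d) →
      S.P.ev (fun ω => (S.loc ε p th (S.J ε p th ω)).deficit γ ε (t - p.r) (a - b - p.d + t - p.r) G
          (geo' (S.J ε p th ω))) ≤
        S.deficit γ ε t L G geo
          + 2 * S.P.entC (fun ω => tcell ε p.d (th ω)) (FLaw.pair S.T (S.Ct ε p.r)) / lg ε
          + S.P.entC (fun ω => tcell ε p.d (th ω)) G / lg ε + ν := by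
  obtain ⟨C, hfirst⟩ := tl_loc_first K
  obtain ⟨ε₁, hε₁0, hε₁1, hsec⟩ := tl_loc_second γ B Lmax tmin (ν / 2) hγ0 hγ1 ht (by linarith)
  obtain ⟨ε₂, hε₂0, hε₂1, hsm⟩ := tl_l2_small C (ν / 2) (by linarith)
  refine ⟨min ε₁ ε₂, lt_min hε₁0 hε₂0, lt_of_le_of_lt (min_le_left _ _) hε₁1, ?_⟩
  intro S ε t L b a p th Γ G geo geo' h0 hε hB hlab hLmax hshape hpb hd hda hr hrt hsin hshape'
  have h1 : ε < 1 := lt_trans (lt_of_lt_of_le hε (min_le_left _ _)) hε₁1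
  have hr0 : 0 ≤ p.r := by rcases hr with h | h <;> linarith
  obtain ⟨ω₀, hω₀⟩ := ent_exists_supp S.P
  have hω₀' : 0 < S.P.p ω₀ := lt_of_le_of_ne (S.P.nonneg _) (Ne.symm hω₀)
  obtain ⟨c1, c2, c3, -⟩ := hlab ω₀ hω₀'
  rw [(hshape _).1] at c1 c2
  rw [(hshape _).2] at c2 c3
  have f1 := hfirst S γ ε t L b a p th Γ G geo geo' hγ0 hγ1 h0 h1 hlab hshape hpb hd hda hr0 hrt
    hsin hshape'
  have f2 := hsec S ε L (a - b - p.d + t - p.r) p th h0 (lt_of_lt_of_le hε (min_le_left _ _)) hB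
    (by rw [hpb]; exact c1) hd hr (by linarith) (by rw [hpb]; linarith) hLmax
  have f3 := hsm ε h0 (lt_of_lt_of_le hε (min_le_right _ _))
  have e : S.P.ev (fun ω => (S.loc ε p th (S.J ε p th ω)).deficit γ ε (t - p.r)
        (a - b - p.d + t - p.r) G (geo' (S.J ε p th ω))) =
      beta γ * (t - p.r)
        + S.P.ev (fun ω => (S.loc ε p th (S.J ε p th ω)).tau γ ε (a - b - p.d + t - p.r))
        - S.P.ev (fun ω => (S.loc ε p th (S.J ε p th ω)).score γ ε (t - p.r) G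
            (geo' (S.J ε p th ω))) := by
    unfold CSys.deficit
    rw [ent_ev_sub, ent_ev_add, ent_ev_const]
  rw [e]
  unfold CSys.deficit
  rw [hpb] at f2
  linarith

/-- the saturated predecessor at `r > 0`: a label `(J, D')` on an extension by a kernel depending on `(T, J)` only -/
theorem tl_loc_pred (γ K B Lmax tmin ν : ℝ) (hγ0 : 0 < γ) (hγ1 : γ < 1) (ht : 0 < tmin) (hν : 0 < ν) :
    ∃ (ε₀ K'' : ℝ), 0 < ε₀ ∧ ε₀ < 1 ∧ ∀ (S : CSys) (ε t L b a : ℝ) (p : LocPar) (th : S.Ω → ℝ)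
      (Γ : Type) (G : S.Ω → Γ) (geo : Γ → Geo), 0 < ε → ε < ε₀ →
      S.Bdd B → S.IsLabel K ε t L G geo → L ≤ Lmax →
      (∀ g, (geo g).b = b ∧ (geo g).a = a) → p.b = b → 0 ≤ p.d → p.d ≤ a - b → tmin ≤ p.r →
      p.r + tmin ≤ t →
      (∀ ω, 0 < S.P.p ω → |Real.sin ((geo (G ω)).th - trep ε p.d (th ω))| ≤ K * ε ^ p.d) →
      ∃ (Γ' : Type) (_ : Fintype Γ') (κ : FLaw.Ker S.Ω Γ') (geoC : (ℤ × ℤ × ℤ × ℤ × ℤ × ℤ) × Γ' → Geo),
        (∀ ω ω', S.T ω = S.T ω' → S.J ε p th ω = S.J ε p th ω' → κ.k ω = κ.k ω') ∧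
        (∀ x, b ≤ (geoC x).b ∧ (geoC x).a + p.r ≤ a + t) ∧
        (S.adjoin κ).IsLabel K'' ε p.r L (fun x => (S.J ε p th x.1, x.2)) geoC ∧
        (S.adjoin κ).deficit γ ε p.r L (fun x => (S.J ε p th x.1, x.2)) geoC ≤
          S.deficit γ ε t L G geo
            + 2 * S.P.entC (fun ω => tcell ε p.d (th ω)) (FLaw.pair S.T (S.Ct ε p.r)) / lg ε
            + S.P.entC (fun ω => tcell ε p.d (th ω)) G / lg ε + ν := by
  obtain ⟨K', hlabel⟩ := tl_loc_label K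
  obtain ⟨K'', hcomp⟩ := tl_loc_compose 1 B
  obtain ⟨C, hfirst⟩ := tl_loc_first K
  obtain ⟨ε₁, hε₁0, hε₁1, hub⟩ :=
    tl_univBound_beta γ hγ0 hγ1 K' 1 Lmax tmin (ν / 4) ht (by linarith)
  obtain ⟨ε₂, hε₂0, hε₂1, hsm⟩ := tl_l2_small C (ν / 4) (by linarith)
  refine ⟨min ε₁ ε₂, K'', lt_min hε₁0 hε₂0, lt_of_le_of_lt (min_le_left _ _) hε₁1, ?_⟩
  intro S ε t L b a p th Γ G geo h0 hε hB hlab hLmax hshape hpb hd hda hr hrt hsin
  have h1 : ε < 1 := lt_trans (lt_of_lt_of_le hε (min_le_left _ _)) hε₁1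
  have hr0 : 0 ≤ p.r := by linarith
  obtain ⟨ω₀, hω₀⟩ := ent_exists_supp S.P
  have hω₀' : 0 < S.P.p ω₀ := lt_of_le_of_ne (S.P.nonneg _) (Ne.symm hω₀)
  obtain ⟨c1, c2, c3, -⟩ := hlab ω₀ hω₀'
  rw [(hshape _).1] at c1 c2
  rw [(hshape _).2] at c2 c3
  have hb : 0 ≤ p.b := by rw [hpb]; exact c1
  obtain ⟨geo', hshape', hlab'⟩ := hlabel S ε t L b a p th Γ G geo h0 h1 hlab hshape hpb hd hda hr0
    (by linarith) hsin
  obtain ⟨L', hL'⟩ : ∃ L' : ℝ, L' = a - b - p.d + t - p.r := ⟨_, rfl⟩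
  rw [← hL'] at hlab'
  have hL'0 : 0 ≤ L' := by rw [hL']; linarith
  have f1 := hfirst S γ ε t L b a p th Γ G geo geo' hγ0 hγ1 h0 h1 hlab hshape hpb hd hda hr0
    (by linarith) hsin hshape'
  have f2 : S.P.ev (fun ω => (S.loc ε p th (S.J ε p th ω)).score γ ε (t - p.r) G
        (geo' (S.J ε p th ω))) ≤
      S.P.ev (fun ω => (S.loc ε p th (S.J ε p th ω)).tau γ ε L') + (beta γ * (t - p.r) + ν / 4) := by
    rw [← ent_ev_const S.P (beta γ * (t - p.r) + ν / 4), ← ent_ev_add]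
    refine ent_ev_mono _ fun ω hω => ?_
    have hω' : 0 < S.P.p ω := lt_of_le_of_ne (S.P.nonneg _) (Ne.symm hω)
    have := hub ε h0 (lt_of_lt_of_le hε (min_le_left _ _)) (t - p.r) L' (by linarith)
      (by rw [hL']; linarith) (by rw [hL']; linarith) (S.loc ε p th (S.J ε p th ω)) Γ G
      (geo' (S.J ε p th ω)) (tl_loc_bdd S ε p th h0 h1 hb hd hr0 ω hω') (hlab' ω hω')
    linarith
  have f3 := hsm ε h0 (lt_of_lt_of_le hε (min_le_right _ _))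
  obtain ⟨Γ', _, κ, geoD, hκ, hcompat, hval⟩ :=
    tl_loc_assemble S γ ε L' (ν / 4) p th hγ0 hγ1 h0 h1 hb hd hr0 hL'0 (by linarith)
  -- sanitise the read-outs off the support
  obtain ⟨geoD₂, hD2⟩ : ∃ geoD₂ : ℤ × ℤ × ℤ × ℤ × ℤ × ℤ → Γ' → Geo, geoD₂ = fun j g =>
      if 0 ≤ (geoD j g).b ∧ (geoD j g).a ≤ L' then geoD j g else ⟨0, 0, 0, 0, 0, 0⟩ := ⟨_, rfl⟩
  have hD2a : ∀ j g, 0 ≤ (geoD₂ j g).b ∧ (geoD₂ j g).a ≤ L' := by
    intro j g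
    rw [hD2]
    show 0 ≤ (if 0 ≤ (geoD j g).b ∧ (geoD j g).a ≤ L' then geoD j g else ⟨0, 0, 0, 0, 0, 0⟩ : Geo).b ∧
      (if 0 ≤ (geoD j g).b ∧ (geoD j g).a ≤ L' then geoD j g else ⟨0, 0, 0, 0, 0, 0⟩ : Geo).a ≤ L'
    split_ifs with h
    · exact h
    · exact ⟨le_rfl, hL'0⟩
  have hD2b : ∀ x : S.Ω × Γ', 0 < (S.P.ext κ).p x →
      geoD₂ (S.J ε p th x.1) x.2 = geoD (S.J ε p th x.1) x.2 := by
    intro x hx
    obtain ⟨a1, -, a3, -⟩ := hcompat x hx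
    rw [hD2]
    exact if_pos ⟨a1, a3⟩
  have hcompat₂ : ∀ x : S.Ω × Γ', 0 < (S.P.ext κ).p x →
      (geoD₂ (S.J ε p th x.1) x.2).RootCompat 1 ε L'
        (locV ε p (S.J ε p th x.1) (S.V (S.T x.1)))
        (locA ε p (S.J ε p th x.1) (S.V (S.T x.1)) (S.A (S.T x.1))) := by
    intro x hx
    rw [hD2b x hx]
    exact hcompat x hx
  have hev : (S.P.ext κ).ev (fun x => wt γ (geoD₂ (S.J ε p th x.1) x.2)) =
      (S.P.ext κ).ev (fun x => wt γ (geoD (S.J ε p th x.1) x.2)) := by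
    refine ent_ev_congr _ fun x hx => ?_
    rw [hD2b x (lt_of_le_of_ne ((S.P.ext κ).nonneg _) (Ne.symm hx))]
  obtain ⟨geoC, hw, hsh, hlabC, -⟩ := hcomp (S.adjoin κ) γ ε L' p (fun x => th x.1) Γ'
    (fun x => x.2) geoD₂ (tl_l2_adj_bdd S B hB κ) hγ0 hγ1 h0 h1 hb hd hr0 hcompat₂
  have hv := tl_l2_comp_value S γ ε p th h0 h1 κ geoD₂ geoC hw
  rw [hev] at hv
  have htau : (S.adjoin κ).tau γ ε L = S.tau γ ε L := tl_tau_adjoin S γ ε L Γ' κ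
  refine ⟨Γ', inferInstance, κ, geoC, hκ, ?_, ?_, ?_⟩
  · rintro ⟨j, g⟩
    obtain ⟨s1, s2⟩ := hsh j g
    obtain ⟨d1, d2⟩ := hD2a j g
    rw [hpb] at s1 s2
    constructor
    · linarith
    · rw [hL'] at d2
      linarith
  · intro x hx
    obtain ⟨a1, a2, a3, a4, a5, a6⟩ := hlabC x hx
    refine ⟨a1, a2, le_trans a3 ?_, a4, a5, a6⟩
    rw [hL', hpb]
    linarith
  · have e : (S.adjoin κ).deficit γ ε p.r L (fun x => (S.J ε p th x.1, x.2)) geoC =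
        beta γ * p.r + S.tau γ ε L
          - ((S.P.ext κ).ev (fun x => wt γ (geoC (S.J ε p th x.1, x.2)))
            - (S.P.ext κ).mi (fun x => S.T x.1) (fun x => (S.J ε p th x.1, x.2)) / lg ε
            + 2 * S.St ε p.r) := by
      rw [← htau, ← tl_l2_adj_St S ε p.r κ]
      rfl
    rw [e]
    unfold CSys.deficit
    rw [hpb] at hv
    linarith

end Claimed.Agent.R255
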