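-- KEEP
import Claimed.Agent.R255.Cl.ToolsDefs

/-!
# Row 255 (BR paper), chapter TOOLS (Sec. 4.1-4.3), finite level: package TL-RECT (intersection of two apertures, Sec. 4.4; the common coarsening is `S.J ε ⟨b, v, t⟩ th₁`, see `tl_loc_J_det` with `r = t`)      (chief helper216)

One finite system, one precision `ε`, explicit errors `C / lg ε`.  No limits.  STATEMENTS ARE FROZEN (ask helper216); provers replace the `sorry`s IN PLACE, helper lemmas go above (prefix `tl_`, names must be new).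
You may use every statement of the imported files (also sorried ones) and every EARLIER statement of this file.  Entropy calculus: `R255/Ent/Basic.lean`.
-/

set_option autoImplicit false

namespace Claimed.Agent.R255

open Classical

/-- (4.10) -/
theorem tl_rect_gain (γ b e v : ℝ) :
    ((1 + γ) * (b + e - v) + (1 - γ) * (b + e)) + ((1 + γ) * b + (1 - γ) * (b + v))
      - 2 * ((1 + γ) * b + (1 - γ) * (b + e)) = 2 * γ * (e - v) := by
  ring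

/-- core of `tl_rect_inter`: two strips of half-width `K ε^a` with angular separation `≥ ε^v` -/
theorem tl_rect_core (K ε a v th₁ th₂ : ℝ) (h0 : 0 < ε) (hs : ε ^ v ≤ |Real.sin (th₁ - th₂)|) (c₁ c₂ : ℝ × ℝ) :
    ∃ c : ℝ × ℝ, ∀ (z : ℝ × ℝ) (b : ℝ), InRect K ε b a th₁ (z - c₁) → InRect K ε b a th₂ (z - c₂) →
      InRect (2 * K) ε (a - v) a th₁ (z - c) := by
  obtain ⟨α₁, hα₁⟩ : ∃ α₁, α₁ = ip c₁ (nrm th₁) := ⟨_, rfl⟩
  obtain ⟨α₂, hα₂⟩ : ∃ α₂, α₂ = ip c₂ (nrm th₂) := ⟨_, rfl⟩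
  obtain ⟨s, hsdef⟩ : ∃ s, s = Real.sin (th₂ - th₁) := ⟨_, rfl⟩
  obtain ⟨co, hcodef⟩ : ∃ co, co = Real.cos (th₂ - th₁) := ⟨_, rfl⟩
  have hεv : 0 < ε ^ v := Real.rpow_pos_of_pos h0 v
  have hεa : 0 < ε ^ a := Real.rpow_pos_of_pos h0 a
  have hs' : ε ^ v ≤ |s| := by
    rw [hsdef, ← abs_neg, ← Real.sin_neg, neg_sub]
    exact hs
  have hs0 : s ≠ 0 := by
    intro h
    rw [h, abs_zero] at hs'
    linarith
  have hco : |co| ≤ 1 := by rw [hcodef]; exact Real.abs_cos_le_one _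
  obtain ⟨β, hβ⟩ : ∃ β, β = (co * α₁ - α₂) / s := ⟨_, rfl⟩
  have hsβ : s * β = co * α₁ - α₂ := by rw [hβ]; field_simp
  have h1 := Real.sin_sq_add_cos_sq th₁
  refine ⟨(β * Real.cos th₁ - α₁ * Real.sin th₁, β * Real.sin th₁ + α₁ * Real.cos th₁), ?_⟩
  intro z b hz₁ hz₂
  have hu : |ip z (nrm th₁) - α₁| ≤ K * ε ^ a := by
    have := hz₁.2
    have e : ip (z - c₁) (nrm th₁) = ip z (nrm th₁) - α₁ := by
      rw [hα₁]; simp only [ip, nrm, Prod.fst_sub, Prod.snd_sub]; ring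
    rwa [e] at this
  have hw : |ip z (nrm th₂) - α₂| ≤ K * ε ^ a := by
    have := hz₂.2
    have e : ip (z - c₂) (nrm th₂) = ip z (nrm th₂) - α₂ := by
      rw [hα₂]; simp only [ip, nrm, Prod.fst_sub, Prod.snd_sub]; ring
    rwa [e] at this
  have hK : 0 ≤ K * ε ^ a := (abs_nonneg _).trans hu
  have e1 : ip (z - (β * Real.cos th₁ - α₁ * Real.sin th₁, β * Real.sin th₁ + α₁ * Real.cos th₁)) (tang th₁)
      = ip z (tang th₁) - β := by
    simp only [ip, tang, Prod.fst_sub, Prod.snd_sub]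
    linear_combination (-β) * h1
  have e2 : ip (z - (β * Real.cos th₁ - α₁ * Real.sin th₁, β * Real.sin th₁ + α₁ * Real.cos th₁)) (nrm th₁)
      = ip z (nrm th₁) - α₁ := by
    simp only [ip, nrm, Prod.fst_sub, Prod.snd_sub]
    linear_combination (-α₁) * h1
  have e3 : ip z (nrm th₂) = - s * ip z (tang th₁) + co * ip z (nrm th₁) := by
    rw [hsdef, hcodef, Real.sin_sub, Real.cos_sub]
    simp only [ip, tang, nrm]
    linear_combination (z.1 * Real.sin th₂ - z.2 * Real.cos th₂) * h1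
  refine ⟨?_, ?_⟩
  · rw [e1]
    have e4 : s * (ip z (tang th₁) - β) = co * (ip z (nrm th₁) - α₁) - (ip z (nrm th₂) - α₂) := by
      rw [mul_sub, hsβ, e3]; ring
    have h2 : |s| * |ip z (tang th₁) - β| ≤ 2 * (K * ε ^ a) := by
      rw [← abs_mul, e4]
      refine (abs_sub _ _).trans ?_
      rw [abs_mul]
      have : |co| * |ip z (nrm th₁) - α₁| ≤ 1 * (K * ε ^ a) :=
        mul_le_mul hco hu (abs_nonneg _) zero_le_one
      linarith
    have h3 : ε ^ v * |ip z (tang th₁) - β| ≤ 2 * (K * ε ^ a) :=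
      (mul_le_mul_of_nonneg_right hs' (abs_nonneg _)).trans h2
    rw [Real.rpow_sub h0, mul_div_assoc', le_div_iff₀ hεv]
    linarith
  · rw [e2]
    linarith

/-- two compatible read-outs of shape `(b, a)`, same time representative, angular separation `≥ ε^v`: the data lie in an aperture of shape `(a - v, a)` in the first frame -/
theorem tl_rect_inter (K ε t v : ℝ) (h0 : 0 < ε) (h1 : ε < 1) (g₁ g₂ : Geo) (hb : g₂.b = g₁.b)
    (ha : g₂.a = g₁.a) (htc : g₂.tc = g₁.tc) (hv0 : 0 ≤ v) (hv : v ≤ g₁.a - g₁.b)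
    (hs : ε ^ v ≤ |Real.sin (g₁.th - g₂.th)|) :
    ∃ g : Geo, g.b = g₁.a - v ∧ g.a = g₁.a ∧ g.tc = g₁.tc ∧ g.th = g₁.th ∧
      ∀ (L : ℝ) (V A : ℝ × ℝ) (c : ℝ), g₁.Compat K ε t L V A c → g₂.Compat K ε t L V A c →
        g.Compat (2 * K) ε t L V A c := by
  obtain ⟨vc, hvc⟩ := tl_rect_core K ε g₁.a v g₁.th g₂.th h0 hs g₁.vc g₂.vc
  obtain ⟨xc, hxc⟩ := tl_rect_core K ε (g₁.a + t) v g₁.th g₂.th h0 hs g₁.xc g₂.xc
  refine ⟨⟨g₁.a - v, g₁.a, g₁.tc, g₁.th, vc, xc⟩, rfl, rfl, rfl, rfl, ?_⟩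
  rintro L V A c ⟨p1, p2, p3, p4, p5, p6⟩ ⟨-, -, -, -, q5, q6⟩
  rw [hb, ha] at q5
  rw [hb, ha, htc] at q6
  have hεt : 0 < ε ^ t := Real.rpow_pos_of_pos h0 t
  have hK : 0 ≤ K * ε ^ t := (abs_nonneg _).trans p4
  refine ⟨by show 0 ≤ g₁.a - v; linarith, by show g₁.a - v ≤ g₁.a; linarith, p3, ?_, hvc V _ p5 q5, ?_⟩
  · show |c - g₁.tc| ≤ 2 * K * ε ^ t
    linarith
  · have := hxc _ _ p6 q6
    show InRect (2 * K) ε (g₁.a - v + t) (g₁.a + t) g₁.th (A + g₁.tc • V - xc)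
    rwa [show g₁.a - v + t = g₁.a + t - v by ring]

/-- the same for root read-outs -/
theorem tl_rect_inter_root (K ε v : ℝ) (h0 : 0 < ε) (h1 : ε < 1) (g₁ g₂ : Geo) (hb : g₂.b = g₁.b)
    (ha : g₂.a = g₁.a) (hv0 : 0 ≤ v) (hv : v ≤ g₁.a - g₁.b)
    (hs : ε ^ v ≤ |Real.sin (g₁.th - g₂.th)|) :
    ∃ g : Geo, g.b = g₁.a - v ∧ g.a = g₁.a ∧ g.th = g₁.th ∧
      ∀ (L : ℝ) (V A : ℝ × ℝ), g₁.RootCompat K ε L V A → g₂.RootCompat K ε L V A →
        g.RootCompat (2 * K) ε L V A := by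
  obtain ⟨vc, hvc⟩ := tl_rect_core K ε g₁.a v g₁.th g₂.th h0 hs g₁.vc g₂.vc
  obtain ⟨xc, hxc⟩ := tl_rect_core K ε g₁.a v g₁.th g₂.th h0 hs g₁.xc g₂.xc
  refine ⟨⟨g₁.a - v, g₁.a, g₁.tc, g₁.th, vc, xc⟩, rfl, rfl, rfl, ?_⟩
  rintro L V A ⟨p1, p2, p3, p5, p6⟩ ⟨-, -, -, q5, q6⟩
  rw [hb, ha] at q5 q6
  exact ⟨by show 0 ≤ g₁.a - v; linarith, by show g₁.a - v ≤ g₁.a; linarith, p3, hvc V _ p5 q5, hxc A _ p6 q6⟩

end Claimed.Agent.R255
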