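-- KEEP
import Claimed.Agent.R255.Cl.Tools.Tau

/-!
# Row 255 (BR paper), chapter TOOLS (Sec. 4.1-4.3), finite level: package TL-RELABEL (monotonicity, refinement to enlargement one, change of shape)      (chief helper216)

One finite system, one precision `ε`, explicit errors.  No limits.  STATEMENTS ARE FROZEN (ask helper216); provers replace the `sorry`s IN PLACE, helper lemmas go above (prefix `tl_`, names must be new).
The new labels are always `(G, I)` with an index `I` computed from the sample point, so `G` is a function of the new label and `mi T (G, I) ≤ mi T G + entC I G`.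
-/

set_option autoImplicit false

namespace Claimed.Agent.R255

open Classical

/-! ### elementary facts -/

theorem tl_rl_mul_anti {K K' ε x y z : ℝ} (h0 : 0 < ε) (h1 : ε < 1) (h : x ≤ y) (hK : K ≤ K')
    (hz : |z| ≤ K * ε ^ y) : |z| ≤ K' * ε ^ x := by
  have hy : 0 < ε ^ y := Real.rpow_pos_of_pos h0 y
  have hx : 0 < ε ^ x := Real.rpow_pos_of_pos h0 x
  have hK0 : 0 ≤ K := by
    by_contra hc
    have : K * ε ^ y < 0 := mul_neg_of_neg_of_pos (not_le.1 hc) hy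
    linarith [abs_nonneg z]
  have hxy : ε ^ y ≤ ε ^ x := Real.rpow_le_rpow_of_exponent_ge h0 h1.le h
  calc |z| ≤ K * ε ^ y := hz
    _ ≤ K * ε ^ x := mul_le_mul_of_nonneg_left hxy hK0
    _ ≤ K' * ε ^ x := mul_le_mul_of_nonneg_right hK hx.le

theorem tl_rl_inRect_mono {K K' ε b a b' a' th : ℝ} {z : ℝ × ℝ} (h0 : 0 < ε) (h1 : ε < 1) (hb : b' ≤ b)
    (ha : a' ≤ a) (hK : K ≤ K') (H : InRect K ε b a th z) : InRect K' ε b' a' th z :=
  ⟨tl_rl_mul_anti h0 h1 hb hK H.1, tl_rl_mul_anti h0 h1 ha hK H.2⟩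

theorem tl_rl_ip_sub_frame (z : ℝ × ℝ) (th s u : ℝ) :
    ip (z - (s • tang th + u • nrm th)) (tang th) = ip z (tang th) - s ∧
      ip (z - (s • tang th + u • nrm th)) (nrm th) = ip z (nrm th) - u := by
  constructor
  · simp only [ip, tang, nrm, Prod.fst_sub, Prod.snd_sub, Prod.fst_add, Prod.snd_add, Prod.smul_fst,
      Prod.smul_snd, smul_eq_mul]
    linear_combination (-s) * Real.cos_sq_add_sin_sq th
  · simp only [ip, tang, nrm, Prod.fst_sub, Prod.snd_sub, Prod.fst_add, Prod.snd_add, Prod.smul_fst,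
      Prod.smul_snd, smul_eq_mul]
    linear_combination (-u) * Real.cos_sq_add_sin_sq th

theorem tl_rl_ip_add (u v w : ℝ × ℝ) : ip (u + v) w = ip u w + ip v w := by
  simp only [ip, Prod.fst_add, Prod.snd_add]; ring

theorem tl_rl_ip_smul (s : ℝ) (u w : ℝ × ℝ) : ip (s • u) w = s * ip u w := by
  simp only [ip, Prod.smul_fst, Prod.smul_snd, smul_eq_mul]; ring

theorem tl_rl_round_err (x w : ℝ) (hw : 0 < w) : |x - (round (x / w) : ℝ) * w| ≤ 1 * w := by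
  have h := abs_sub_round (x / w)
  have e : x - (round (x / w) : ℝ) * w = (x / w - round (x / w)) * w := by
    field_simp
  rw [e, abs_mul, abs_of_pos hw]
  exact mul_le_mul_of_nonneg_right (h.trans (by norm_num)) hw.le

/-- the interval of indices -/
noncomputable def tl_rlI (M : ℝ) : Finset ℤ := Finset.Icc (-((⌈M⌉₊ : ℤ) + 1)) ((⌈M⌉₊ : ℤ) + 1)

theorem tl_rl_round_mem (x w M : ℝ) (hw : 0 < w) (h : |x| ≤ M * w) : round (x / w) ∈ tl_rlI M := by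
  have h1 : |x / w| ≤ M := by
    rw [abs_div, abs_of_pos hw, div_le_iff₀ hw]; exact h
  have h2 := abs_sub_round (x / w)
  have h3 : M ≤ (⌈M⌉₊ : ℝ) := Nat.le_ceil M
  rw [abs_le] at h1 h2
  unfold tl_rlI
  rw [Finset.mem_Icc]
  constructor
  · have : (-(((⌈M⌉₊ : ℤ) + 1 : ℤ) : ℝ)) ≤ (round (x / w) : ℝ) := by
      push_cast; linarith [h1.1, h2.2]
    exact_mod_cast this
  · have : (round (x / w) : ℝ) ≤ (((⌈M⌉₊ : ℤ) + 1 : ℤ) : ℝ) := by
      push_cast; linarith [h1.2, h2.1]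
    exact_mod_cast this

theorem tl_rl_card (M : ℝ) (hM : 0 ≤ M) : ((tl_rlI M).card : ℝ) ≤ 2 * M + 5 := by
  unfold tl_rlI
  rw [Int.card_Icc]
  have h : ((⌈M⌉₊ : ℤ) + 1 + 1 - -((⌈M⌉₊ : ℤ) + 1)).toNat = 2 * ⌈M⌉₊ + 3 := by omega
  rw [h]
  have h3 : (⌈M⌉₊ : ℝ) < M + 1 := Nat.ceil_lt_add_one hM
  push_cast
  linarith

theorem tl_rl_zero_mem (M : ℝ) : (0 : ℤ) ∈ tl_rlI M := by
  unfold tl_rlI
  rw [Finset.mem_Icc]
  constructor <;> omega

/-! ### the refinement by actual cells -/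

/-- the refined read-out: index `(k, i, j, p, q)` = (time, two velocity indices, two position indices) -/
noncomputable def tl_rlGeo (ε r b' a' : ℝ) (g : Geo) (I : ℤ × ℤ × ℤ × ℤ × ℤ) : Geo where
  b := b'
  a := a'
  tc := g.tc + (I.1 : ℝ) * ε ^ r
  th := g.th
  vc := g.vc + (((I.2.1 : ℝ) * ε ^ b') • tang g.th + ((I.2.2.1 : ℝ) * ε ^ a') • nrm g.th)
  xc := g.xc + ((I.1 : ℝ) * ε ^ r) •
        (g.vc + (((I.2.1 : ℝ) * ε ^ b') • tang g.th + ((I.2.2.1 : ℝ) * ε ^ a') • nrm g.th))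
      + (((I.2.2.2.1 : ℝ) * ε ^ (b' + r)) • tang g.th + ((I.2.2.2.2 : ℝ) * ε ^ (a' + r)) • nrm g.th)

/-- the intermediate position vector -/
noncomputable def tl_rlY (ε r b' a' : ℝ) (g : Geo) (V A : ℝ × ℝ) (c : ℝ) : ℝ × ℝ :=
  A + (g.tc + (round ((c - g.tc) / ε ^ r) : ℝ) * ε ^ r) • V -
    (g.xc + ((round ((c - g.tc) / ε ^ r) : ℝ) * ε ^ r) •
      (g.vc + (((round (ip (V - g.vc) (tang g.th) / ε ^ b') : ℝ) * ε ^ b') • tang g.th
        + ((round (ip (V - g.vc) (nrm g.th) / ε ^ a') : ℝ) * ε ^ a') • nrm g.th)))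

/-- the index of the actual cell -/
noncomputable def tl_rlIdx (ε r b' a' : ℝ) (g : Geo) (V A : ℝ × ℝ) (c : ℝ) : ℤ × ℤ × ℤ × ℤ × ℤ :=
  (round ((c - g.tc) / ε ^ r), round (ip (V - g.vc) (tang g.th) / ε ^ b'),
    round (ip (V - g.vc) (nrm g.th) / ε ^ a'),
    round (ip (tl_rlY ε r b' a' g V A c) (tang g.th) / ε ^ (b' + r)),
    round (ip (tl_rlY ε r b' a' g V A c) (nrm g.th) / ε ^ (a' + r)))

/-- the refined read-out is compatible with enlargement one, whatever the old read-out was -/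
theorem tl_rl_compat (ε r L' b' a' : ℝ) (h0 : 0 < ε) (g : Geo) (V A : ℝ × ℝ) (c : ℝ) (hb : 0 ≤ b')
    (hba : b' ≤ a') (hL : a' + r ≤ L') :
    (tl_rlGeo ε r b' a' g (tl_rlIdx ε r b' a' g V A c)).Compat 1 ε r L' V A c := by
  have p : ∀ x : ℝ, 0 < ε ^ x := fun x => Real.rpow_pos_of_pos h0 x
  refine ⟨hb, hba, hL, ?_, ⟨?_, ?_⟩, ⟨?_, ?_⟩⟩
  · have := tl_rl_round_err (c - g.tc) (ε ^ r) (p r)
    have e : c - (tl_rlGeo ε r b' a' g (tl_rlIdx ε r b' a' g V A c)).tc =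
        c - g.tc - (round ((c - g.tc) / ε ^ r) : ℝ) * ε ^ r := by
      simp only [tl_rlGeo, tl_rlIdx]; ring
    rw [e]; exact this
  · have := tl_rl_round_err (ip (V - g.vc) (tang g.th)) (ε ^ b') (p b')
    have e : V - (tl_rlGeo ε r b' a' g (tl_rlIdx ε r b' a' g V A c)).vc =
        (V - g.vc) - (((round (ip (V - g.vc) (tang g.th) / ε ^ b') : ℝ) * ε ^ b') • tang g.th
        + ((round (ip (V - g.vc) (nrm g.th) / ε ^ a') : ℝ) * ε ^ a') • nrm g.th) := by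
      simp only [tl_rlGeo, tl_rlIdx]; abel
    show |ip (V - (tl_rlGeo ε r b' a' g (tl_rlIdx ε r b' a' g V A c)).vc) (tang g.th)| ≤ 1 * ε ^ b'
    rw [e, (tl_rl_ip_sub_frame _ _ _ _).1]; exact this
  · have := tl_rl_round_err (ip (V - g.vc) (nrm g.th)) (ε ^ a') (p a')
    have e : V - (tl_rlGeo ε r b' a' g (tl_rlIdx ε r b' a' g V A c)).vc =
        (V - g.vc) - (((round (ip (V - g.vc) (tang g.th) / ε ^ b') : ℝ) * ε ^ b') • tang g.th
        + ((round (ip (V - g.vc) (nrm g.th) / ε ^ a') : ℝ) * ε ^ a') • nrm g.th) := by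
      simp only [tl_rlGeo, tl_rlIdx]; abel
    show |ip (V - (tl_rlGeo ε r b' a' g (tl_rlIdx ε r b' a' g V A c)).vc) (nrm g.th)| ≤ 1 * ε ^ a'
    rw [e, (tl_rl_ip_sub_frame _ _ _ _).2]; exact this
  · have := tl_rl_round_err (ip (tl_rlY ε r b' a' g V A c) (tang g.th)) (ε ^ (b' + r)) (p _)
    have e : A + (tl_rlGeo ε r b' a' g (tl_rlIdx ε r b' a' g V A c)).tc • V
          - (tl_rlGeo ε r b' a' g (tl_rlIdx ε r b' a' g V A c)).xc =
        tl_rlY ε r b' a' g V A c -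
          (((round (ip (tl_rlY ε r b' a' g V A c) (tang g.th) / ε ^ (b' + r)) : ℝ) * ε ^ (b' + r)) • tang g.th
          + ((round (ip (tl_rlY ε r b' a' g V A c) (nrm g.th) / ε ^ (a' + r)) : ℝ) * ε ^ (a' + r)) • nrm g.th) := by
      simp only [tl_rlGeo, tl_rlIdx]
      unfold tl_rlY
      abel
    show |ip (A + (tl_rlGeo ε r b' a' g (tl_rlIdx ε r b' a' g V A c)).tc • V
          - (tl_rlGeo ε r b' a' g (tl_rlIdx ε r b' a' g V A c)).xc) (tang g.th)| ≤ 1 * ε ^ (b' + r)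
    rw [e, (tl_rl_ip_sub_frame _ _ _ _).1]; exact this
  · have := tl_rl_round_err (ip (tl_rlY ε r b' a' g V A c) (nrm g.th)) (ε ^ (a' + r)) (p _)
    have e : A + (tl_rlGeo ε r b' a' g (tl_rlIdx ε r b' a' g V A c)).tc • V
          - (tl_rlGeo ε r b' a' g (tl_rlIdx ε r b' a' g V A c)).xc =
        tl_rlY ε r b' a' g V A c -
          (((round (ip (tl_rlY ε r b' a' g V A c) (tang g.th) / ε ^ (b' + r)) : ℝ) * ε ^ (b' + r)) • tang g.th
          + ((round (ip (tl_rlY ε r b' a' g V A c) (nrm g.th) / ε ^ (a' + r)) : ℝ) * ε ^ (a' + r)) • nrm g.th) := by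
      simp only [tl_rlGeo, tl_rlIdx]
      unfold tl_rlY
      abel
    show |ip (A + (tl_rlGeo ε r b' a' g (tl_rlIdx ε r b' a' g V A c)).tc • V
          - (tl_rlGeo ε r b' a' g (tl_rlIdx ε r b' a' g V A c)).xc) (nrm g.th)| ≤ 1 * ε ^ (a' + r)
    rw [e, (tl_rl_ip_sub_frame _ _ _ _).2]; exact this

/-- the box of indices -/
noncomputable def tl_rlBox (K X₁ X₂ : ℝ) : Finset (ℤ × ℤ × ℤ × ℤ × ℤ) :=
  tl_rlI K ×ˢ tl_rlI (K * X₁) ×ˢ tl_rlI (K * X₂) ×ˢ tl_rlI ((2 * K + 1) * X₁) ×ˢ tl_rlI ((2 * K + 1) * X₂)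

/-- one coordinate of the intermediate position vector -/
theorem tl_rl_pos_bound {K ε r t b b' X k x y : ℝ} (h0 : 0 < ε) (h1 : ε < 1) (hK : 0 ≤ K) (hr : r ≤ t)
    (hX : 1 ≤ X) (hX' : ε ^ b ≤ X * ε ^ b') (hx : |x| ≤ K * ε ^ (b + t)) (hk : |k| ≤ (K + 1) * ε ^ r)
    (hy : |y| ≤ 1 * ε ^ b') : |x + k * y| ≤ (2 * K + 1) * X * ε ^ (b' + r) := by
  have p : ∀ x : ℝ, 0 < ε ^ x := fun x => Real.rpow_pos_of_pos h0 x
  have e1 : ε ^ (b + t) ≤ X * ε ^ (b' + r) := by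
    rw [Real.rpow_add h0, Real.rpow_add h0]
    have : ε ^ t ≤ ε ^ r := Real.rpow_le_rpow_of_exponent_ge h0 h1.le hr
    calc ε ^ b * ε ^ t ≤ (X * ε ^ b') * ε ^ r := mul_le_mul hX' this (p t).le (by positivity)
      _ = X * (ε ^ b' * ε ^ r) := by ring
  have e2 : |k * y| ≤ (K + 1) * ε ^ (b' + r) := by
    rw [abs_mul, Real.rpow_add h0]
    calc |k| * |y| ≤ ((K + 1) * ε ^ r) * (1 * ε ^ b') := mul_le_mul hk hy (abs_nonneg _) (by positivity)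
      _ = (K + 1) * (ε ^ b' * ε ^ r) := by ring
  have e3 : (K + 1) * ε ^ (b' + r) ≤ (K + 1) * X * ε ^ (b' + r) := by
    have : (K + 1) * 1 ≤ (K + 1) * X := mul_le_mul_of_nonneg_left hX (by linarith)
    nlinarith [p (b' + r)]
  calc |x + k * y| ≤ |x| + |k * y| := abs_add_le _ _
    _ ≤ K * (X * ε ^ (b' + r)) + (K + 1) * X * ε ^ (b' + r) :=
        add_le_add (hx.trans (mul_le_mul_of_nonneg_left e1 hK)) (e2.trans e3)
    _ = (2 * K + 1) * X * ε ^ (b' + r) := by ring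

/-- the index of a compatible point lies in the box -/
theorem tl_rl_range (K ε r t L b' a' X₁ X₂ : ℝ) (h0 : 0 < ε) (h1 : ε < 1) (hK : 0 ≤ K) (hr : r ≤ t)
    (g : Geo) (V A : ℝ × ℝ) (c : ℝ) (H : g.Compat K ε t L V A c) (hX₁ : 1 ≤ X₁)
    (hX₁' : ε ^ g.b ≤ X₁ * ε ^ b') (hX₂ : 1 ≤ X₂) (hX₂' : ε ^ g.a ≤ X₂ * ε ^ a') :
    tl_rlIdx ε r b' a' g V A c ∈ tl_rlBox K X₁ X₂ := by
  have p : ∀ x : ℝ, 0 < ε ^ x := fun x => Real.rpow_pos_of_pos h0 x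
  obtain ⟨-, -, -, c4, c5, c6⟩ := H
  have ht : |c - g.tc| ≤ K * ε ^ r := tl_rl_mul_anti h0 h1 hr le_rfl c4
  have hk : |(round ((c - g.tc) / ε ^ r) : ℝ) * ε ^ r| ≤ (K + 1) * ε ^ r := by
    have := tl_rl_round_err (c - g.tc) (ε ^ r) (p r)
    have e : (round ((c - g.tc) / ε ^ r) : ℝ) * ε ^ r =
        (c - g.tc) - ((c - g.tc) - (round ((c - g.tc) / ε ^ r) : ℝ) * ε ^ r) := by ring
    rw [e]
    calc _ ≤ |c - g.tc| + |(c - g.tc) - (round ((c - g.tc) / ε ^ r) : ℝ) * ε ^ r| := abs_sub _ _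
      _ ≤ K * ε ^ r + 1 * ε ^ r := add_le_add ht this
      _ = (K + 1) * ε ^ r := by ring
  -- decomposition of the intermediate vector
  have eY : tl_rlY ε r b' a' g V A c = (A + g.tc • V - g.xc) +
      ((round ((c - g.tc) / ε ^ r) : ℝ) * ε ^ r) • ((V - g.vc) -
        (((round (ip (V - g.vc) (tang g.th) / ε ^ b') : ℝ) * ε ^ b') • tang g.th
        + ((round (ip (V - g.vc) (nrm g.th) / ε ^ a') : ℝ) * ε ^ a') • nrm g.th)) := by
    unfold tl_rlY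
    module
  unfold tl_rlBox tl_rlIdx
  simp only [Finset.mem_product]
  refine ⟨tl_rl_round_mem _ _ _ (p r) ht, tl_rl_round_mem _ _ _ (p b') ?_, tl_rl_round_mem _ _ _ (p a') ?_,
    tl_rl_round_mem _ _ _ (p _) ?_, tl_rl_round_mem _ _ _ (p _) ?_⟩
  · calc _ ≤ K * ε ^ g.b := c5.1
      _ ≤ K * (X₁ * ε ^ b') := mul_le_mul_of_nonneg_left hX₁' hK
      _ = K * X₁ * ε ^ b' := by ring
  · calc _ ≤ K * ε ^ g.a := c5.2
      _ ≤ K * (X₂ * ε ^ a') := mul_le_mul_of_nonneg_left hX₂' hK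
      _ = K * X₂ * ε ^ a' := by ring
  · rw [eY, tl_rl_ip_add, tl_rl_ip_smul, (tl_rl_ip_sub_frame _ _ _ _).1]
    exact tl_rl_pos_bound h0 h1 hK hr hX₁ hX₁' c6.1 hk (tl_rl_round_err _ _ (p b'))
  · rw [eY, tl_rl_ip_add, tl_rl_ip_smul, (tl_rl_ip_sub_frame _ _ _ _).2]
    exact tl_rl_pos_bound h0 h1 hK hr hX₂ hX₂' c6.2 hk (tl_rl_round_err _ _ (p a'))

theorem tl_rl_box_card (K X₁ X₂ : ℝ) (hK : 0 ≤ K) (hX₁ : 1 ≤ X₁) (hX₂ : 1 ≤ X₂) :
    ((tl_rlBox K X₁ X₂).card : ℝ) ≤ (2 * K + 5) ^ 3 * (4 * K + 7) ^ 2 * (X₁ ^ 2 * X₂ ^ 2) := by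
  unfold tl_rlBox
  simp only [Finset.card_product, Nat.cast_mul]
  have a1 := tl_rl_card K hK
  have a2 : ((tl_rlI (K * X₁)).card : ℝ) ≤ (2 * K + 5) * X₁ :=
    (tl_rl_card _ (by positivity)).trans (by nlinarith)
  have a3 : ((tl_rlI (K * X₂)).card : ℝ) ≤ (2 * K + 5) * X₂ :=
    (tl_rl_card _ (by positivity)).trans (by nlinarith)
  have a4 : ((tl_rlI ((2 * K + 1) * X₁)).card : ℝ) ≤ (4 * K + 7) * X₁ :=
    (tl_rl_card _ (by positivity)).trans (by nlinarith)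
  have a5 : ((tl_rlI ((2 * K + 1) * X₂)).card : ℝ) ≤ (4 * K + 7) * X₂ :=
    (tl_rl_card _ (by positivity)).trans (by nlinarith)
  calc _ ≤ (2 * K + 5) * (((2 * K + 5) * X₁) * (((2 * K + 5) * X₂) * (((4 * K + 7) * X₁) * ((4 * K + 7) * X₂)))) := by
        gcongr
    _ = _ := by ring

/-! ### the contracts -/

/-- a label at duration `t` is a label at every duration `r ≤ t`, larger horizon, larger enlargement, with the SAME read-out -/
theorem tl_label_mono (S : CSys) (K K' ε r t L L' : ℝ) (h0 : 0 < ε) (h1 : ε < 1) (hr : r ≤ t) (hL : L ≤ L')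
    (hK : K ≤ K') (Γ : Type) (G : S.Ω → Γ) (geo : Γ → Geo) (H : S.IsLabel K ε t L G geo) :
    S.IsLabel K' ε r L' G geo := by
  intro ω hω
  obtain ⟨c1, c2, c3, c4, c5, c6⟩ := H ω hω
  exact ⟨c1, c2, by linarith, tl_rl_mul_anti h0 h1 hr hK c4, tl_rl_inRect_mono h0 h1 le_rfl le_rfl hK c5,
    tl_rl_inRect_mono h0 h1 (by linarith) (by linarith) hK c6⟩

/-- coarsening of the depths of the read-outs -/
theorem tl_label_coarsen (S : CSys) (K ε t L : ℝ) (h0 : 0 < ε) (h1 : ε < 1) (Γ : Type) (G : S.Ω → Γ)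
    (geo geo' : Γ → Geo) (H : S.IsLabel K ε t L G geo)
    (h : ∀ ω, 0 < S.P.p ω → 0 ≤ (geo' (G ω)).b ∧ (geo' (G ω)).b ≤ (geo' (G ω)).a ∧
      (geo' (G ω)).b ≤ (geo (G ω)).b ∧ (geo' (G ω)).a ≤ (geo (G ω)).a ∧
      (geo' (G ω)).tc = (geo (G ω)).tc ∧ (geo' (G ω)).th = (geo (G ω)).th ∧
      (geo' (G ω)).vc = (geo (G ω)).vc ∧ (geo' (G ω)).xc = (geo (G ω)).xc) :
    S.IsLabel K ε t L G geo' := by
  intro ω hω
  obtain ⟨c1, c2, c3, c4, c5, c6⟩ := H ω hω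
  obtain ⟨d1, d2, d3, d4, d5, d6, d7, d8⟩ := h ω hω
  refine ⟨d1, d2, by linarith, ?_, ?_, ?_⟩
  · rw [d5]; exact c4
  · rw [d6, d7]; exact tl_rl_inRect_mono h0 h1 d3 d4 le_rfl c5
  · rw [d5, d6, d8]; exact tl_rl_inRect_mono h0 h1 (by linarith) (by linarith) le_rfl c6

/-- adding an index to a label costs at most its conditional entropy -/
theorem tl_score_pair (S : CSys) (γ ε t : ℝ) (h0 : 0 < ε) (h1 : ε < 1) (Γ Γ' : Type) (G : S.Ω → Γ)
    (I : S.Ω → Γ') (geo : Γ → Geo) (geo' : Γ × Γ' → Geo)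
    (hw : ∀ ω, 0 < S.P.p ω → wt γ (geo (G ω)) ≤ wt γ (geo' (G ω, I ω))) :
    S.score γ ε t G geo - S.P.entC I G / lg ε ≤ S.score γ ε t (FLaw.pair G I) geo' := by
  have hl : 0 < lg ε := by
    unfold lg
    exact Real.log_pos (by rw [lt_div_iff₀ h0]; linarith)
  have e1 : S.P.ev (fun ω => wt γ (geo (G ω))) ≤ S.P.ev (fun ω => wt γ (geo' (FLaw.pair G I ω))) :=
    ent_ev_mono S.P fun ω hω => hw ω (lt_of_le_of_ne (S.P.nonneg ω) (Ne.symm hω))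
  have e2 : S.P.mi S.T (FLaw.pair G I) ≤ S.P.mi S.T G + S.P.entC I G := by
    have e0 : S.P.mi S.T (FLaw.pair G I) ≤ S.P.mi S.T (FLaw.pair I G) := by
      refine ent_mi_mono S.P S.T _ _ fun ω ω' _ _ h => ?_
      simp only [FLaw.pair, Prod.mk.injEq] at h ⊢
      exact ⟨h.2, h.1⟩
    rw [ent_mi_chain S.P S.T I G] at e0
    linarith [ent_miC_le_right S.P S.T I G]
  have e3 : S.P.mi S.T (FLaw.pair G I) / lg ε ≤ S.P.mi S.T G / lg ε + S.P.entC I G / lg ε := by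
    rw [← add_div]
    exact div_le_div_of_nonneg_right e2 hl.le
  unfold CSys.score
  linarith

/-- refinement to enlargement one (variable shapes allowed): `N` sub-labels -/
theorem tl_relabel (K : ℝ) : ∃ N : ℕ, ∀ (S : CSys) (ε t L : ℝ) (Γ : Type) (G : S.Ω → Γ) (geo : Γ → Geo),
    0 < ε → ε < 1 → 0 ≤ t → S.IsLabel K ε t L G geo →
    ∃ (I : S.Ω → Fin N) (geo' : Γ × Fin N → Geo),
      (∀ x, (geo' x).b = (geo x.1).b ∧ (geo' x).a = (geo x.1).a ∧ (geo' x).th = (geo x.1).th) ∧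
      S.IsLabel 1 ε t L (FLaw.pair G I) geo' := by
  have hne : (0 : ℤ × ℤ × ℤ × ℤ × ℤ) ∈ tl_rlBox |K| 1 1 := by
    unfold tl_rlBox
    simp only [Finset.mem_product]
    exact ⟨tl_rl_zero_mem _, tl_rl_zero_mem _, tl_rl_zero_mem _, tl_rl_zero_mem _, tl_rl_zero_mem _⟩
  refine ⟨(tl_rlBox |K| 1 1).card, ?_⟩
  intro S ε t L Γ G geo h0 h1 ht H
  have H' := tl_label_mono S K |K| ε t t L L h0 h1 le_rfl le_rfl (le_abs_self K) Γ G geo H
  let e := (tl_rlBox |K| 1 1).equivFin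
  let idx : S.Ω → ℤ × ℤ × ℤ × ℤ × ℤ := fun ω =>
    tl_rlIdx ε t (geo (G ω)).b (geo (G ω)).a (geo (G ω)) (S.V (S.T ω)) (S.A (S.T ω)) (S.c ω)
  refine ⟨fun ω => if h : idx ω ∈ tl_rlBox |K| 1 1 then e ⟨idx ω, h⟩ else e ⟨0, hne⟩,
    fun x => tl_rlGeo ε t (geo x.1).b (geo x.1).a (geo x.1) (e.symm x.2).1, fun x => ⟨rfl, rfl, rfl⟩, ?_⟩
  intro ω hω
  have hc := H' ω hω
  have hmem : idx ω ∈ tl_rlBox |K| 1 1 :=
    tl_rl_range |K| ε t t L _ _ 1 1 h0 h1 (abs_nonneg K) le_rfl _ _ _ _ hc le_rfl (by rw [one_mul]) le_rfl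
      (by rw [one_mul])
  have hcomp := tl_rl_compat ε t L (geo (G ω)).b (geo (G ω)).a h0 (geo (G ω)) (S.V (S.T ω)) (S.A (S.T ω))
    (S.c ω) hc.1 hc.2.1 hc.2.2.1
  show (tl_rlGeo ε t (geo (G ω)).b (geo (G ω)).a (geo (G ω))
    (e.symm (if h : idx ω ∈ tl_rlBox |K| 1 1 then e ⟨idx ω, h⟩ else e ⟨0, hne⟩)).1).Compat 1 ε t L _ _ _
  rw [dif_pos hmem, Equiv.symm_apply_apply]
  exact hcomp

/-- `tl_reshape` with the additional information that the index is a function of `(G, T, c)` -/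
theorem tl_reshape_fn (K : ℝ) : ∃ C : ℝ, ∀ (S : CSys) (ε r t L L' b a b' a' : ℝ) (Γ : Type) (G : S.Ω → Γ)
    (geo : Γ → Geo), 0 < ε → ε < 1 → 0 ≤ r → r ≤ t → S.IsLabel K ε t L G geo →
    (∀ g, (geo g).b = b ∧ (geo g).a = a) → 0 ≤ b' → b' ≤ a' → a' + r ≤ L' →
    ∃ (I : S.Ω → ℤ × ℤ × ℤ × ℤ × ℤ) (geo' : Γ × (ℤ × ℤ × ℤ × ℤ × ℤ) → Geo),
      (∀ x, (geo' x).b = b' ∧ (geo' x).a = a' ∧ (geo' x).th = (geo x.1).th) ∧
      (∀ ω ω', G ω = G ω' → S.T ω = S.T ω' → S.c ω = S.c ω' → I ω = I ω') ∧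
      S.IsLabel 1 ε r L' (FLaw.pair G I) geo' ∧
      S.P.entC I G ≤ 2 * (max (b' - b) 0 + max (a' - a) 0) * lg ε + C := by
  refine ⟨Real.log ((2 * |K| + 5) ^ 3 * (4 * |K| + 7) ^ 2), ?_⟩
  intro S ε r t L L' b a b' a' Γ G geo h0 h1 hr0 hr H hsh hb' hba' hL'
  have H' := tl_label_mono S K |K| ε t t L L h0 h1 le_rfl le_rfl (le_abs_self K) Γ G geo H
  have hKn := abs_nonneg K
  refine ⟨fun ω => tl_rlIdx ε r b' a' (geo (G ω)) (S.V (S.T ω)) (S.A (S.T ω)) (S.c ω),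
    fun x => tl_rlGeo ε r b' a' (geo x.1) x.2, fun x => ⟨rfl, rfl, rfl⟩, ?_, ?_, ?_⟩
  · intro ω ω' e1 e2 e3
    beta_reduce
    rw [e1, e2, e3]
  · intro ω _
    exact tl_rl_compat ε r L' b' a' h0 _ _ _ _ hb' hba' hL'
  · -- counting
    have key : ∀ x x' : ℝ, 1 ≤ ε ^ (-(max (x' - x) 0)) ∧ ε ^ x ≤ ε ^ (-(max (x' - x) 0)) * ε ^ x' := by
      intro x x'
      constructor
      · exact Real.one_le_rpow_of_pos_of_le_one_of_nonpos h0 h1.le (by simp)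
      · rw [← Real.rpow_add h0]
        refine Real.rpow_le_rpow_of_exponent_ge h0 h1.le ?_
        have := le_max_left (x' - x) 0
        linarith
    set X₁ := ε ^ (-(max (b' - b) 0)) with hX₁
    set X₂ := ε ^ (-(max (a' - a) 0)) with hX₂
    have hX₁p : 0 < X₁ := Real.rpow_pos_of_pos h0 _
    have hX₂p : 0 < X₂ := Real.rpow_pos_of_pos h0 _
    have hN : S.P.NVal (fun _ => True)
        (fun ω => tl_rlIdx ε r b' a' (geo (G ω)) (S.V (S.T ω)) (S.A (S.T ω)) (S.c ω)) G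
        ((2 * |K| + 5) ^ 3 * (4 * |K| + 7) ^ 2 * (X₁ ^ 2 * X₂ ^ 2)) := by
      intro _
      refine ⟨tl_rlBox |K| X₁ X₂, tl_rl_box_card _ _ _ hKn (key b b').1 (key a a').1, ?_⟩
      intro ω hω _ _
      have hc := H' ω (lt_of_le_of_ne (S.P.nonneg ω) (Ne.symm hω))
      refine tl_rl_range |K| ε r t L b' a' X₁ X₂ h0 h1 hKn hr _ _ _ _ hc (key b b').1 ?_ (key a a').1 ?_
      · rw [(hsh (G ω)).1]; exact (key b b').2
      · rw [(hsh (G ω)).2]; exact (key a a').2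
    refine (ent_entC_le_log_nval S.P _ G hN).trans (le_of_eq ?_)
    have hlog : ∀ y : ℝ, Real.log (ε ^ (-y)) = y * lg ε := by
      intro y
      unfold lg
      rw [Real.log_rpow h0, one_div, Real.log_inv]
      ring
    rw [Real.log_mul (by positivity) (by positivity), Real.log_mul (x := X₁ ^ 2) (by positivity) (by positivity),
      Real.log_pow (x := X₁), Real.log_pow (x := X₂), hX₁, hX₂, hlog, hlog]
    push_cast
    ring

/-- change of shape and duration, same frame: from the fixed shape `(b, a)` at duration `t` to the fixed shape `(b', a')` at duration `r ≤ t`, enlargement one.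
`I` = (time sub-cell, two velocity indices, two position indices).  New time representative `tc' = tc + k ε^r`, new centre `xc + (tc' - tc) vc + ...`. -/
theorem tl_reshape (K : ℝ) : ∃ C : ℝ, ∀ (S : CSys) (ε r t L L' b a b' a' : ℝ) (Γ : Type) (G : S.Ω → Γ)
    (geo : Γ → Geo), 0 < ε → ε < 1 → 0 ≤ r → r ≤ t → S.IsLabel K ε t L G geo →
    (∀ g, (geo g).b = b ∧ (geo g).a = a) → 0 ≤ b' → b' ≤ a' → a' + r ≤ L' →
    ∃ (I : S.Ω → ℤ × ℤ × ℤ × ℤ × ℤ) (geo' : Γ × (ℤ × ℤ × ℤ × ℤ × ℤ) → Geo),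
      (∀ x, (geo' x).b = b' ∧ (geo' x).a = a' ∧ (geo' x).th = (geo x.1).th) ∧
      S.IsLabel 1 ε r L' (FLaw.pair G I) geo' ∧
      S.P.entC I G ≤ 2 * (max (b' - b) 0 + max (a' - a) 0) * lg ε + C := by
  obtain ⟨C, hC⟩ := tl_reshape_fn K
  refine ⟨C, ?_⟩
  intro S ε r t L L' b a b' a' Γ G geo h0 h1 hr0 hr H hsh hb' hba' hL'
  obtain ⟨I, geo', x1, -, x3, x4⟩ := hC S ε r t L L' b a b' a' Γ G geo h0 h1 hr0 hr H hsh hb' hba' hL'
  exact ⟨I, geo', x1, x3, x4⟩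

/-- splitting a label with variable shape into shape bins of mesh `ξ` and rounding the depths down: `Z` = bin, at most `(⌈Lmax/ξ⌉ + 1)²` values -/
theorem tl_shape_bins (S : CSys) (K ε t L ξ : ℝ) (h0 : 0 < ε) (h1 : ε < 1) (hξ : 0 < ξ) (Γ : Type)
    (G : S.Ω → Γ) (geo : Γ → Geo) (H : S.IsLabel K ε t L G geo) :
    ∃ geo' : Γ → Geo, S.IsLabel K ε t L G geo' ∧
      (∀ g, (geo' g).b = ξ * ⌊(geo g).b / ξ⌋ ∧ (geo' g).a = ξ * ⌊(geo g).a / ξ⌋ ∧ (geo' g).th = (geo g).th ∧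
        (geo' g).tc = (geo g).tc) := by
  refine ⟨fun g => { geo g with b := ξ * ⌊(geo g).b / ξ⌋, a := ξ * ⌊(geo g).a / ξ⌋ }, ?_,
    fun g => ⟨rfl, rfl, rfl, rfl⟩⟩
  refine tl_label_coarsen S K ε t L h0 h1 Γ G geo _ H ?_
  intro ω hω
  obtain ⟨c1, c2, -⟩ := H ω hω
  have fl : ∀ x : ℝ, ξ * (⌊x / ξ⌋ : ℝ) ≤ x := by
    intro x
    have := Int.floor_le (x / ξ)
    calc ξ * (⌊x / ξ⌋ : ℝ) ≤ ξ * (x / ξ) := mul_le_mul_of_nonneg_left this hξ.le
      _ = x := by field_simp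
  refine ⟨?_, ?_, fl _, fl _, rfl, rfl, rfl, rfl⟩
  · have : (0 : ℤ) ≤ ⌊(geo (G ω)).b / ξ⌋ := Int.floor_nonneg.2 (div_nonneg c1 hξ.le)
    have h' : (0 : ℝ) ≤ (⌊(geo (G ω)).b / ξ⌋ : ℝ) := by exact_mod_cast this
    exact mul_nonneg hξ.le h'
  · have : ⌊(geo (G ω)).b / ξ⌋ ≤ ⌊(geo (G ω)).a / ξ⌋ :=
      Int.floor_le_floor (div_le_div_of_nonneg_right c2 hξ.le)
    have h' : (⌊(geo (G ω)).b / ξ⌋ : ℝ) ≤ (⌊(geo (G ω)).a / ξ⌋ : ℝ) := by exact_mod_cast this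
    exact mul_le_mul_of_nonneg_left h' hξ.le

end Claimed.Agent.R255
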