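-- KEEP
import Claimed.Agent.R255.Cl.Tools.Tau

/-!
# Row 255 (BR paper), chapter TOOLS (Sec. 4.1-4.3), finite level: package TL-RPOW (change of the small parameter `ε ↦ ε^h`, exact)      (chief helper216)

One finite system, one precision `ε`, explicit errors `C / lg ε`.  No limits.  STATEMENTS ARE FROZEN (ask helper216); provers replace the `sorry`s IN PLACE, helper lemmas go above (prefix `tl_`, names must be new).
You may use every statement of the imported files (also sorried ones) and every EARLIER statement of this file.  Entropy calculus: `R255/Ent/Basic.lean`.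
-/

set_option autoImplicit false

namespace Claimed.Agent.R255

open Classical

theorem tl_rpow_rpow_div {ε h : ℝ} (h0 : 0 < ε) (hh : 0 < h) (x : ℝ) : (ε ^ h) ^ (x / h) = ε ^ x := by
  rw [← Real.rpow_mul h0.le]
  congr 1
  field_simp

theorem tl_lg_rpow' {ε : ℝ} (h0 : 0 < ε) (h : ℝ) : lg (ε ^ h) = h * lg ε := by
  unfold lg
  rw [one_div, one_div, Real.log_inv, Real.log_inv, Real.log_rpow h0]
  ring

theorem tl_tlev_rpow (ε h d : ℝ) (h0 : 0 < ε) (h1 : ε < 1) (hh : 0 < h) : tlev (ε ^ h) (d / h) = tlev ε d := by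
  unfold tlev
  congr 1
  rw [one_div, one_div, Real.logb_inv, Real.logb_inv, Real.logb_rpow_eq_mul_logb_of_pos h0]
  field_simp

theorem tl_inRect_rpow {ε h : ℝ} (h0 : 0 < ε) (hh : 0 < h) (K b a th : ℝ) (z : ℝ × ℝ) :
    InRect K (ε ^ h) (b / h) (a / h) th z ↔ InRect K ε b a th z := by
  unfold InRect
  rw [tl_rpow_rpow_div h0 hh, tl_rpow_rpow_div h0 hh]

theorem tl_isLabel_rpow (S : CSys) (K ε h t L : ℝ) (h0 : 0 < ε) (h1 : ε < 1) (hh : 0 < h) (Γ : Type)
    (G : S.Ω → Γ) (geo : Γ → Geo) (H : S.IsLabel K ε t L G geo) :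
    S.IsLabel K (ε ^ h) (t / h) (L / h) G (fun g => (geo g).scale h) := by
  intro ω hω
  obtain ⟨p1, p2, p3, p4, p5, p6⟩ := H ω hω
  refine ⟨div_nonneg p1 hh.le, div_le_div_of_nonneg_right p2 hh.le, ?_, ?_, ?_, ?_⟩
  · show (geo (G ω)).a / h + t / h ≤ L / h
    rw [← add_div]
    exact div_le_div_of_nonneg_right p3 hh.le
  · rw [tl_rpow_rpow_div h0 hh]
    exact p4
  · exact (tl_inRect_rpow h0 hh _ _ _ _ _).2 p5
  · show InRect K (ε ^ h) ((geo (G ω)).b / h + t / h) ((geo (G ω)).a / h + t / h) _ _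
    rw [← add_div, ← add_div]
    exact (tl_inRect_rpow h0 hh _ _ _ _ _).2 p6

theorem tl_wt_scale (γ h : ℝ) (g : Geo) : wt γ (g.scale h) = wt γ g / h := by
  unfold wt Geo.scale
  ring

theorem tl_ev_div {Ω : Type} [Fintype Ω] (P : FLaw Ω) (f : Ω → ℝ) (h : ℝ) : P.ev (fun ω => f ω / h) = P.ev f / h := by
  unfold FLaw.ev
  rw [Finset.sum_div]
  exact Finset.sum_congr rfl fun ω _ => by ring

theorem tl_score_rpow (S : CSys) (γ ε h t : ℝ) (h0 : 0 < ε) (h1 : ε < 1) (hh : 0 < h) (Γ : Type)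
    (G : S.Ω → Γ) (geo : Γ → Geo) :
    S.score γ (ε ^ h) (t / h) G (fun g => (geo g).scale h) = S.score γ ε t G geo / h := by
  unfold CSys.score CSys.St CSys.Ct tcell
  simp only [tl_wt_scale, tl_ev_div, tl_lg_rpow' h0, tl_tlev_rpow ε h t h0 h1 hh]
  rw [div_mul_eq_div_div_swap, div_mul_eq_div_div_swap]
  ring

theorem tl_tauSet_rpow (S : CSys) (γ ε h L : ℝ) (h0 : 0 < ε) (hh : 0 < h) {x : ℝ} (hx : x ∈ S.tauSet γ ε L) :
    x / h ∈ S.tauSet γ (ε ^ h) (L / h) := by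
  obtain ⟨Ω', i', P', T', Γ, D, geo, q1, q2, rfl⟩ := hx
  refine ⟨Ω', i', P', T', Γ, D, fun g => (geo g).scale h, q1, fun ω hω => ?_, ?_⟩
  · obtain ⟨p1, p2, p3, p5, p6⟩ := q2 ω hω
    exact ⟨div_nonneg p1 hh.le, div_le_div_of_nonneg_right p2 hh.le, div_le_div_of_nonneg_right p3 hh.le,
      (tl_inRect_rpow h0 hh _ _ _ _ _).2 p5, (tl_inRect_rpow h0 hh _ _ _ _ _).2 p6⟩
  · simp only [tl_wt_scale, tl_ev_div, tl_lg_rpow' h0]
    rw [div_mul_eq_div_div_swap]
    ring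

open scoped Pointwise in
theorem tl_sSup_tauSet_rpow (S : CSys) (γ ε h L : ℝ) (h0 : 0 < ε) (hh : 0 < h) :
    sSup (S.tauSet γ (ε ^ h) (L / h)) = sSup (S.tauSet γ ε L) / h := by
  have e : S.tauSet γ (ε ^ h) (L / h) = h⁻¹ • S.tauSet γ ε L := by
    ext x
    rw [Set.mem_smul_set]
    constructor
    · intro hx
      have h2 := tl_tauSet_rpow S γ (ε ^ h) h⁻¹ (L / h) (Real.rpow_pos_of_pos h0 h) (inv_pos.2 hh) hx
      rw [← Real.rpow_mul h0.le, mul_inv_cancel₀ hh.ne', Real.rpow_one, div_inv_eq_mul,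
        div_mul_cancel₀ _ hh.ne'] at h2
      refine ⟨_, h2, ?_⟩
      rw [smul_eq_mul, div_inv_eq_mul]
      field_simp
    · rintro ⟨x', hx', rfl⟩
      rw [smul_eq_mul, inv_mul_eq_div]
      exact tl_tauSet_rpow S γ ε h L h0 hh hx'
  rw [e, Real.sSup_smul_of_nonneg (inv_pos.2 hh).le, smul_eq_mul, inv_mul_eq_div]

theorem tl_tau_rpow (S : CSys) (γ ε h L : ℝ) (h0 : 0 < ε) (h1 : ε < 1) (hh : 0 < h) :
    S.tau γ (ε ^ h) (L / h) = S.tau γ ε L / h := by
  exact tl_sSup_tauSet_rpow S γ ε h L h0 hh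

end Claimed.Agent.R255
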